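import Vale.Agent.P230.Defs

/-!
# P230: averaging a counting kernel over translations of a sparse point set

If at most `ρ (2R)^n` points of `X` lie in every large cube, the points near some translate
see the kernel `g` with total at most `3 ρ ∫ g`. Applied to a kernel composed of the three counts of a good
configuration, this gives a window whose rounded centres are a good configuration.
-/

open scoped ENNReal RealInnerProductSpace
open MeasureTheory Metric Set Filter

namespace Vale.Agent.P230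

variable {n : ℕ}

/-- The cube of half-side `R`. -/
def cube (n : ℕ) (R : ℝ) : Set (E n) := {x | ∀ i, |x i| ≤ R}

lemma volume_cube (R : ℝ) : volume (cube n R) = ENNReal.ofReal (2 * R) ^ n := by
  have e : cube n R = (MeasurableEquiv.toLp 2 (Fin n → ℝ)).symm ⁻¹'
      (Set.univ.pi fun _ => Set.Icc (-R) R) := by
    ext x
    simp [cube, abs_le]
    exact ⟨fun h => ⟨fun i => (h i).1, fun i => (h i).2⟩, fun h i => ⟨h.1 i, h.2 i⟩⟩
  rw [e, (EuclideanSpace.volume_preserving_symm_measurableEquiv_toLp (Fin n)).measure_preimage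
    (MeasurableSet.univ_pi fun _ => measurableSet_Icc).nullMeasurableSet, volume_pi_pi]
  simp [Real.volume_Icc, Finset.prod_const, two_mul]

lemma abs_coord_le_norm (x : E n) (i : Fin n) : |x i| ≤ ‖x‖ := by
  simpa [Real.norm_eq_abs] using PiLp.norm_apply_le x i

lemma cube_inter_finite {X : Set (E n)}
    (hX : ∀ s : Set (E n), Bornology.IsBounded s → (X ∩ s).Finite) (R : ℝ) :
    {x ∈ X | ∀ i, |x i| ≤ R}.Finite := by
  refine (hX _ (Metric.isBounded_closedBall (x := (0 : E n)) (r := Real.sqrt (n * R ^ 2)))).subset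
    fun x hx => ⟨hx.1, ?_⟩
  rw [mem_closedBall_zero_iff, EuclideanSpace.norm_eq]
  refine Real.sqrt_le_sqrt ?_
  refine (Finset.sum_le_sum fun i _ => ?_).trans (le_of_eq (by simp) :
    ∑ _i : Fin n, R ^ 2 ≤ n * R ^ 2)
  exact pow_le_pow_left₀ (norm_nonneg _) (by simpa [Real.norm_eq_abs] using hx.2 i) 2

/-- Some translate sees at most `3 ρ ∫ g`. -/
theorem exists_small_sum {X : Set (E n)}
    (hX : ∀ s : Set (E n), Bornology.IsBounded s → (X ∩ s).Finite)
    {g : E n → ℝ≥0∞} (hg : Measurable g) {r₀ : ℝ} (hr₀ : 0 ≤ r₀)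
    {ρ t : ℝ≥0∞}
    (hcount : ∀ᶠ R : ℝ in atTop,
      (({x ∈ X | ∀ i, |x i| ≤ R}.ncard : ℕ) : ℝ≥0∞) ≤ ρ * ENNReal.ofReal (2 * R) ^ n)
    (ht : 3 * (ρ * ∫⁻ z, g z) < t) :
    ∃ (w : E n) (S : Finset (E n)), (∀ x ∈ X, ‖x - w‖ ≤ r₀ → x ∈ S) ∧
      ∑ x ∈ S, g (x - w) ≤ t := by
  by_contra hno
  push Not at hno
  have hS : ∀ w : E n, (X ∩ closedBall w r₀).Finite := fun w => hX _ Metric.isBounded_closedBall
  have hge : ∀ w : E n, t ≤ ∑ x ∈ (hS w).toFinset, g (x - w) := fun w =>
    (hno w (hS w).toFinset fun x hx hd => (hS w).mem_toFinset.2 ⟨hx, mem_closedBall_iff_norm.2 hd⟩).le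
  obtain ⟨R₁, hR₁⟩ := eventually_atTop.1 hcount
  set R := max (max R₁ 1) (n * r₀ + 1) with hRdef
  have hR1 : 1 ≤ R := le_trans (le_max_right _ _) (le_max_left _ _)
  have hfac : ENNReal.ofReal (2 * (R + r₀)) ^ n ≤ 3 * ENNReal.ofReal (2 * R) ^ n := by
    have h1 : (R + r₀) ^ n ≤ 3 * R ^ n := by
      have e : R + r₀ = R * (1 + r₀ / R) := by field_simp
      rw [e, mul_pow, mul_comm 3]
      refine mul_le_mul_of_nonneg_left ?_ (pow_nonneg (by linarith) n)
      calc (1 + r₀ / R) ^ n ≤ Real.exp (r₀ / R) ^ n :=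
            pow_le_pow_left₀ (by positivity) (by linarith [Real.add_one_le_exp (r₀ / R)]) n
        _ = Real.exp (n * (r₀ / R)) := (Real.exp_nat_mul _ _).symm
        _ ≤ Real.exp 1 := by
            rw [Real.exp_le_exp, ← mul_div_assoc, div_le_one (by linarith)]
            linarith [le_max_right (max R₁ 1) (n * r₀ + 1)]
        _ ≤ 3 := Real.exp_one_lt_d9.le.trans (by norm_num)
    rw [← ENNReal.ofReal_pow (by linarith), ← ENNReal.ofReal_pow (by linarith),
      show (3 : ℝ≥0∞) = ENNReal.ofReal 3 by norm_num, ← ENNReal.ofReal_mul (by norm_num)]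
    refine ENNReal.ofReal_le_ofReal ?_
    rw [mul_pow, mul_pow]
    nlinarith [pow_nonneg (show (0 : ℝ) ≤ 2 by norm_num) n]
  set T := (cube_inter_finite hX (R + r₀)).toFinset with hT
  have hle : ∀ w ∈ cube n R, t ≤ ∑ x ∈ T, g (x - w) := fun w hw => by
    refine (hge w).trans (Finset.sum_le_sum_of_subset fun x hx => ?_)
    obtain ⟨hxX, hxw⟩ := (hS w).mem_toFinset.1 hx
    refine (cube_inter_finite hX (R + r₀)).mem_toFinset.2 ⟨hxX, fun i => ?_⟩
    have h1 := (abs_coord_le_norm (x - w) i).trans (mem_closedBall_iff_norm.1 hxw)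
    have h2 := hw i
    simp only [PiLp.sub_apply] at h1
    have := abs_sub_abs_le_abs_sub (x i) (w i)
    linarith
  have key : t * ENNReal.ofReal (2 * R) ^ n ≤
      3 * (ρ * ∫⁻ z, g z) * ENNReal.ofReal (2 * R) ^ n :=
    calc t * ENNReal.ofReal (2 * R) ^ n = ∫⁻ _w in cube n R, t := by
          rw [setLIntegral_const, volume_cube]
      _ ≤ ∫⁻ w in cube n R, ∑ x ∈ T, g (x - w) :=
          setLIntegral_mono (Finset.measurable_fun_sum _ fun x _ =>
            hg.comp (measurable_const.sub measurable_id)) hle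
      _ ≤ ∫⁻ w, ∑ x ∈ T, g (x - w) := setLIntegral_le_lintegral _ _
      _ = T.card * ∫⁻ z, g z := by
          rw [lintegral_finsetSum (f := fun x w => g (x - w)) _
            fun x _ => hg.comp (measurable_const.sub measurable_id)]
          simp [lintegral_sub_left_eq_self, nsmul_eq_mul]
      _ ≤ ρ * ENNReal.ofReal (2 * (R + r₀)) ^ n * ∫⁻ z, g z := by
          refine mul_le_mul_left (le_trans (le_of_eq ?_)
            (hR₁ (R + r₀) (by linarith [le_max_left R₁ 1, le_max_left (max R₁ 1) (n * r₀ + 1)]))) _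
          rw [hT, Set.ncard_eq_toFinset_card _ (cube_inter_finite hX (R + r₀))]
      _ ≤ ρ * (3 * ENNReal.ofReal (2 * R) ^ n) * ∫⁻ z, g z := by gcongr
      _ = _ := by ring
  have hpos : ENNReal.ofReal (2 * R) ^ n ≠ 0 := pow_ne_zero _ (by simp; linarith)
  have htop : ENNReal.ofReal (2 * R) ^ n ≠ ⊤ := ENNReal.pow_ne_top ENNReal.ofReal_ne_top
  exact absurd ((ENNReal.mul_le_mul_iff_left hpos htop).1 key) (not_le.2 ht)

end Vale.Agent.P230
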