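import Vale.Agent.P230.Sub

/-!
# P230: independent subwindows

A good configuration leaves some point of its window uncovered, except with tiny probability.
-/

open scoped BigOperators RealInnerProductSpace ENNReal Classical
open MeasureTheory Filter

namespace Vale.Agent.P230

variable {n : ℕ}

/-- The facets of one subwindow that no other subwindow needs. -/
noncomputable def privateSet (F : Facets n) (Φ : Finset (E n)) {M : ℕ} (v : Fin M → E n)
    (a : Fin M) : Finset (Fin F.m) :=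
  Finset.univ.filter fun i =>
    (∃ x ∈ near Φ (v a), thr n * (1 - 4 * small) < ⟪F.vec i, v a - x⟫) ∧
    ∀ b, b ≠ a → ∀ x ∈ near Φ (v b), ¬ thr n * (1 - 4 * small) < ⟪F.vec i, v b - x⟫

lemma privateSet_disjoint (F : Facets n) (Φ : Finset (E n)) {M : ℕ} (v : Fin M → E n)
    {a b : Fin M} (h : a ≠ b) : Disjoint (privateSet F Φ v a) (privateSet F Φ v b) := by
  refine Finset.disjoint_left.2 fun i hi hi' => ?_
  obtain ⟨x, hx, hc⟩ := (Finset.mem_filter.1 hi).2.1
  exact (Finset.mem_filter.1 hi').2.2 a h x hx hc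

/-- The numerical facts used for the subwindows. -/
structure LargeCore (n : ℕ) : Prop where
  large : Large n
  packing : 8 * (n : ℝ) ^ 8 * ((5 / 4) * (1 + 2 * small) * (2 * apart)) ^ n < wide ^ n
  union : (2 : ℝ) ^ n * (2 * (n : ℝ) ^ 4 * (1 + 2 * small) ^ n) ≤ Real.exp (3 * n)
  final : 2 * (n : ℝ) ^ 9 * (5 / 4) ^ n ≤ (2 : ℝ) ^ n * Real.exp (-((n : ℝ) / 4))

theorem eventually_largeCore : ∀ᶠ n : ℕ in atTop, LargeCore n := by
  have h1 : (2 : ℝ) * (1 + 2 * small) / Real.exp 3 < 1 := by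
    rw [div_lt_one (Real.exp_pos _)]
    have : (4 : ℝ) ≤ Real.exp 3 := by linarith [Real.add_one_le_exp (3 : ℝ)]
    have h := show 2 * small < 1 / 2 by norm_num [small]
    linarith
  have h2 : (5 / 4 : ℝ) * (1 + 2 * small) * (2 * apart) / wide < 1 := by
    norm_num [small, apart, wide]
  have h3 : (5 / 4 : ℝ) / (2 * Real.exp (-(1 / 4))) < 1 := by
    rw [div_lt_one (by positivity)]
    have := Real.add_one_le_exp (-(1 / 4) : ℝ)
    linarith
  have t1 := (tendsto_pow_const_mul_const_pow_of_lt_one 4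
    (by norm_num [small]; positivity) h1).eventually (eventually_le_nhds (show (0 : ℝ) < 1 / 2 by norm_num))
  have t2 := (tendsto_pow_const_mul_const_pow_of_lt_one 8
    (by norm_num [small, apart, wide]) h2).eventually (eventually_lt_nhds (show (0 : ℝ) < 1 / 8 by norm_num))
  have t3 := (tendsto_pow_const_mul_const_pow_of_lt_one 9 (by positivity) h3).eventually
    (eventually_le_nhds (show (0 : ℝ) < 1 / 2 by norm_num))
  filter_upwards [eventually_large, t1, t2, t3] with n hn u1 u2 u3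
  refine ⟨hn, ?_, ?_, ?_⟩
  · rw [div_pow, mul_div_assoc', div_lt_iff₀ (by norm_num [wide])] at u2
    linarith
  · have he : Real.exp (3 * (n : ℝ)) = Real.exp 3 ^ n := by rw [← Real.exp_nat_mul]; ring_nf
    rw [div_pow, mul_div_assoc', div_le_iff₀ (pow_pos (Real.exp_pos _) _), mul_pow] at u1
    rw [he]
    linarith
  · have he : (2 : ℝ) ^ n * Real.exp (-((n : ℝ) / 4)) = (2 * Real.exp (-(1 / 4))) ^ n := by
      rw [mul_pow, ← Real.exp_nat_mul]; ring_nf
    rw [div_pow, mul_div_assoc', div_le_iff₀ (by positivity)] at u3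
    rw [he]
    linarith

/-- A facet needed by two subwindows is rare. -/
lemma usable_private (hn : LargeCore n) (F : Facets n) (Φ : Finset (E n)) {M : ℕ}
    (hM : M ≤ 2 ^ n) (v : Fin M → E n) (hnear : ∀ a, ((near Φ (v a)).card : ℝ) ≤ Kmax n)
    (hsep : ∀ a b, a ≠ b → ∀ x ∈ near Φ (v a), ∀ x' ∈ near Φ (v b),
      apart < ‖(v a - x) - (v b - x')‖) (a : Fin M) :
    Usable F Φ (privateSet F Φ v a) (v a) := by
  intro y hy x hx
  obtain ⟨hxΦ, hx1⟩ := Finset.mem_filter.1 hx
  have hyv : ‖y - v a‖ ≤ small := by rw [← dist_eq_norm]; exact Metric.mem_closedBall.1 hy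
  have hxn : x ∈ near Φ (v a) := by
    refine Finset.mem_filter.2 ⟨hxΦ, ?_⟩
    have : ‖v a - y‖ ≤ small := by rwa [norm_sub_rev]
    linarith [norm_sub_le_norm_sub_add_norm_sub (v a) y x]
  have hT := thr_pos hn.large
  set s := (2 * (1 - 2 * small))⁻¹ with hs
  have hs0 : 0 < s := by norm_num [hs, small]
  set pts : Finset (Fin M × E n) := ((Finset.univ : Finset (Fin M)).erase a).biUnion
    fun b => (near Φ (v b)).image fun x' => (b, x')
  set mid : Fin M × E n → E n := fun p => s • ((y - x) + (v p.1 - p.2))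
  have hsub : cutters F (y - x) \ privateSet F Φ v a ⊆ pts.biUnion fun p => cutters F (mid p) := by
    intro i hi
    obtain ⟨hc, hnot⟩ := Finset.mem_sdiff.1 hi
    have hc' : thr n < ⟪F.vec i, y - x⟫ := (Finset.mem_filter.1 hc).2
    have hown : thr n * (1 - 4 * small) < ⟪F.vec i, v a - x⟫ := by
      have e : ⟪F.vec i, y - x⟫ = ⟪F.vec i, v a - x⟫ + ⟪F.vec i, y - v a⟫ := by
        rw [← inner_add_right]; congr 1; abel
      have h1 : ⟪F.vec i, y - v a⟫ ≤ 4 * thr n * small :=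
        (real_inner_le_norm _ _).trans (mul_le_mul (F.norm_le i) hyv (norm_nonneg _) (by linarith))
      linarith
    simp only [privateSet, Finset.mem_filter, Finset.mem_univ, true_and, not_and, not_forall,
      not_not] at hnot
    obtain ⟨b, hb, x', hx', hc''⟩ := hnot ⟨x, hxn, hown⟩
    refine Finset.mem_biUnion.2 ⟨(b, x'), Finset.mem_biUnion.2 ⟨b, Finset.mem_erase.2
      ⟨hb, Finset.mem_univ _⟩, Finset.mem_image_of_mem _ hx'⟩,
      Finset.mem_filter.2 ⟨Finset.mem_univ _, ?_⟩⟩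
    show thr n < ⟪F.vec i, mid (b, x')⟫
    simp only [mid, real_inner_smul_right, inner_add_right]
    have h2 : thr n = s * (2 * (1 - 2 * small) * thr n) := by
      rw [hs, ← mul_assoc, inv_mul_cancel₀ (by norm_num [small]), one_mul]
    rw [h2]
    exact mul_lt_mul_of_pos_left (by linarith) hs0
  have hterm : ∀ p ∈ pts, ∑ i ∈ cutters F (mid p), F.q i ≤ Real.exp (-(13 * (n : ℝ))) := by
    rintro ⟨b, x'⟩ hp
    obtain ⟨b', hb', hp⟩ := Finset.mem_biUnion.1 hp
    obtain ⟨x'', hx'', he⟩ := Finset.mem_image.1 hp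
    simp only [Prod.mk.injEq] at he
    obtain ⟨rfl, rfl⟩ := he
    have h1 := hsep a b' (Finset.mem_erase.1 hb').1.symm x hxn x'' hx''
    have h2 : apart / 2 ≤ ‖(y - x) - (v b' - x'')‖ := by
      have e : (v a - x) - (v b' - x'') = ((y - x) - (v b' - x'')) - (y - v a) := by abel
      rw [e] at h1
      have h3 := norm_sub_le ((y - x) - (v b' - x'')) (y - v a)
      have h4 : small ≤ apart / 2 := by norm_num [small, apart]
      linarith
    have h3 := norm_mid_sq_le (show 0 ≤ apart / 2 by norm_num [apart]) h2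
    have a1 : ‖y - x‖ ^ 2 ≤ 1 := pow_le_one₀ (norm_nonneg _) hx1
    have a2 : ‖v b' - x''‖ ^ 2 ≤ (1 + small) ^ 2 :=
      pow_le_pow_left₀ (norm_nonneg _) (Finset.mem_filter.1 hx'').2 2
    have h4 : ‖mid (b', x'')‖ ^ 2 ≤ 1 - apart ^ 2 / 32 := by
      have e : ‖mid (b', x'')‖ = (2 * s) * ‖(2 : ℝ)⁻¹ • ((y - x) + (v b' - x''))‖ := by
        simp only [mid, norm_smul, Real.norm_eq_abs, abs_of_pos hs0, norm_inv]
        norm_num
        ring
      rw [e, mul_pow]
      refine (mul_le_mul_of_nonneg_left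
        (h3.trans (show _ ≤ (1 + (1 + small) ^ 2) / 2 - (apart / 2) ^ 2 / 4 by linarith))
        (sq_nonneg _)).trans ?_
      norm_num [hs, small, apart]
    have h5 : ‖mid (b', x'')‖ ≤ 1 := by
      have : ‖mid (b', x'')‖ ^ 2 ≤ 1 ^ 2 := by linarith [sq_nonneg apart]
      exact (pow_le_pow_iff_left₀ (norm_nonneg _) zero_le_one two_ne_zero).1 this
    rw [sum_cutters]
    rcases eq_or_ne (mid (b', x'')) 0 with h0 | h0
    · have : mass F.vec F.q (half (mid (b', x'')) (thr n)) = 0 := by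
        simp [mass, half, h0, hT.le.not_gt]
      rw [this]; positivity
    refine (F.upper _ h5).trans ((div_le_self (Real.exp_pos _).le (by norm_num)).trans
      (Real.exp_le_exp.2 ?_))
    have h6 : 0 < ‖mid (b', x'')‖ ^ 2 := by positivity
    have h7 : 1 + apart ^ 2 / 32 ≤ 1 / ‖mid (b', x'')‖ ^ 2 := by
      rw [le_div_iff₀ h6]; nlinarith [sq_nonneg apart]
    have h8 := mul_le_mul_of_nonneg_left h7 (tau_nonneg n)
    have h9 : 26 * (n : ℝ) ≤ tau n * (apart ^ 2 / 32) := by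
      have : tau n * (apart ^ 2 / 32) = 1000000 / 32768 * n := by
        norm_num [tau, slope, apart]; ring
      rw [this]
      nlinarith [(Nat.cast_nonneg n : (0 : ℝ) ≤ n)]
    linarith
  have hcard : (pts.card : ℝ) ≤ Real.exp (3 * n) := by
    have h1 : (pts.card : ℝ) ≤ ∑ _b : Fin M, Kmax n := by
      refine le_trans (Nat.cast_le.2 Finset.card_biUnion_le) ?_
      push_cast
      refine le_trans (Finset.sum_le_sum_of_subset_of_nonneg (Finset.erase_subset _ _)
        fun b _ _ => Nat.cast_nonneg _) (Finset.sum_le_sum fun b _ => ?_)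
      exact le_trans (Nat.cast_le.2 Finset.card_image_le) (hnear b)
    refine (h1.trans ?_).trans hn.union
    rw [Finset.sum_const, Finset.card_univ, Fintype.card_fin, nsmul_eq_mul, Kmax]
    have hMR : (M : ℝ) ≤ 2 ^ n := by exact_mod_cast hM
    refine mul_le_mul hMR ?_ (by norm_num [small]) (by positivity)
    have : 0 ≤ (n : ℝ) ^ 4 * (1 + 2 * small) ^ n := by norm_num [small]
    linarith
  refine (Finset.sum_le_sum_of_subset_of_nonneg hsub fun i _ _ => F.q_nonneg i).trans ?_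
  refine (sum_biUnion_le' _ _ fun i => F.q_nonneg i).trans ?_
  refine (Finset.sum_le_card_nsmul _ _ _ hterm).trans ?_
  rw [nsmul_eq_mul]
  refine (mul_le_mul_of_nonneg_right hcard (Real.exp_pos _).le).trans ?_
  rw [← Real.exp_add]
  exact Real.exp_le_exp.2 (by linarith)

theorem coreProp : CoreProp := by
  filter_upwards [eventually_largeCore] with n hn
  intro F Φ hΦ
  obtain ⟨hcard, V, hVsub, hVvol, hV⟩ := hΦ
  have hn0 := hn.large.n_pos
  have hn1 : (1 : ℝ) ≤ n := by exact_mod_cast hn0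
  set C : E n → Finset (E n) := fun v₀ =>
    (Φ ×ˢ near Φ v₀).image fun p => v₀ + (p.1 - p.2)
  set K := Φ.card * ⌈Kmax n⌉₊
  have hCK : ∀ v₀ ∈ V, (C v₀).card ≤ K := fun v₀ hv₀ => by
    refine Finset.card_image_le.trans ?_
    rw [Finset.card_product]
    exact Nat.mul_le_mul_left _ (Nat.cast_le.1 ((hV v₀ hv₀).1.trans (Nat.le_ceil _)))
  have hone : ∀ x : ℝ, 1 ≤ x → (⌈x⌉₊ : ℝ) ≤ 2 * x := fun x hx => by
    have := Nat.ceil_lt_add_one (show 0 ≤ x by linarith)
    linarith
  have hNmax : (Nmax n : ℝ) ≤ 2 * ((n : ℝ) ^ 4 * (5 / 4) ^ n) :=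
    hone _ (one_le_mul_of_one_le_of_one_le (one_le_pow₀ hn1) (one_le_pow₀ (by norm_num)))
  have hKmax : (⌈Kmax n⌉₊ : ℝ) ≤ 2 * ((n : ℝ) ^ 4 * (1 + 2 * small) ^ n) :=
    hone _ (one_le_mul_of_one_le_of_one_le (one_le_pow₀ hn1) (one_le_pow₀ (by norm_num [small])))
  have hlt : ((2 ^ n * K : ℕ) : ℝ≥0∞) * volume (Metric.closedBall (0 : E n) apart) < volume V := by
    have hs : (0 : ℝ) ≤ apart := by norm_num [apart]
    have hw : (0 : ℝ) ≤ wide := by norm_num [wide]
    rw [Measure.addHaar_closedBall' volume _ hs]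
    rw [Measure.addHaar_closedBall' volume _ hw] at hVvol
    simp only [finrank_euclideanSpace_fin] at hVvol ⊢
    set B := volume (Metric.closedBall (0 : E n) 1)
    have hB0 : B ≠ 0 := (Metric.measure_closedBall_pos volume _ one_pos).ne'
    have hBtop : B ≠ ⊤ := measure_closedBall_lt_top.ne
    have key : 2 * (((2 ^ n * K : ℕ) : ℝ) * apart ^ n) < wide ^ n := by
      refine lt_of_le_of_lt ?_ hn.packing
      simp only [K]; push_cast
      have h1 : (Φ.card : ℝ) * (⌈Kmax n⌉₊ : ℝ) ≤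
          (2 * ((n : ℝ) ^ 4 * (5 / 4) ^ n)) * (2 * ((n : ℝ) ^ 4 * (1 + 2 * small) ^ n)) :=
        mul_le_mul ((Nat.cast_le.2 hcard).trans hNmax) hKmax (Nat.cast_nonneg _) (by positivity)
      calc 2 * ((2 : ℝ) ^ n * ((Φ.card : ℝ) * (⌈Kmax n⌉₊ : ℝ)) * apart ^ n)
          ≤ 2 * ((2 : ℝ) ^ n * ((2 * ((n : ℝ) ^ 4 * (5 / 4) ^ n)) *
              (2 * ((n : ℝ) ^ 4 * (1 + 2 * small) ^ n))) * apart ^ n) := by gcongr
        _ = _ := by rw [mul_pow, mul_pow, mul_pow]; ring
    by_contra hc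
    push Not at hc
    have h2 := hVvol.trans (mul_le_mul_right hc 2)
    rw [← mul_assoc, ← mul_assoc, ← ENNReal.ofReal_natCast,
      show (2 : ℝ≥0∞) = ENNReal.ofReal 2 by simp, ← ENNReal.ofReal_mul zero_le_two,
      ← ENNReal.ofReal_mul (by positivity), ENNReal.mul_le_mul_iff_left hB0 hBtop,
      ENNReal.ofReal_le_ofReal_iff (by positivity)] at h2
    linarith
  obtain ⟨v, hvV, hvsep⟩ := exists_separated C hCK hlt
  have hsep : ∀ a b, a ≠ b → ∀ x ∈ near Φ (v a), ∀ x' ∈ near Φ (v b),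
      apart < ‖(v a - x) - (v b - x')‖ := by
    have key : ∀ a b, a < b → ∀ x ∈ near Φ (v a), ∀ x' ∈ near Φ (v b),
        apart < ‖(v a - x) - (v b - x')‖ := by
      intro a b hab x hx x' hx'
      have := hvsep a b hab (v a + (x' - x)) (Finset.mem_image.2
        ⟨(x', x), Finset.mem_product.2 ⟨(Finset.mem_filter.1 hx').1, hx⟩, rfl⟩)
      rw [← norm_neg] at this
      refine lt_of_lt_of_eq this ?_
      congr 1; abel
    intro a b hab x hx x' hx'
    rcases lt_or_gt_of_ne hab with h | h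
    · exact key a b h x hx x' hx'
    · rw [← norm_neg, neg_sub]; exact key b a h x' hx' x hx
  set Q := privateSet F Φ v
  have hmiss : ∀ a, Real.exp (-((n : ℝ) / 4)) ≤ pr F.q (Missed F Φ (Q a) (v a)) := fun a =>
    missed_prob hn.large (usable_private hn F Φ le_rfl v (fun b => (hV _ (hvV b)).1) hsep a)
      (hV _ (hvV a)).1 (hV _ (hvV a)).2
  have hsub : Covers F Φ ⊆ ⋂ a ∈ (Finset.univ : Finset (Fin (2 ^ n))),
      (Missed F Φ (Q a) (v a))ᶜ := by
    intro ω hω
    simp only [Set.mem_iInter, Set.mem_compl_iff]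
    rintro a - ⟨y, hy, hcut⟩
    have hyw : y ∈ Metric.closedBall (0 : E n) (wide + small) := by
      rw [mem_closedBall_zero_iff]
      have h1 : ‖v a‖ ≤ wide := mem_closedBall_zero_iff.1 (hVsub (hvV a))
      have h2 : ‖y - v a‖ ≤ small := by rw [← dist_eq_norm]; exact Metric.mem_closedBall.1 hy
      linarith [norm_le_norm_add_norm_sub' y (v a)]
    obtain ⟨x, hx, hball, hhalf⟩ := hω y hyw
    obtain ⟨i, -, hi, hc⟩ := hcut x (Finset.mem_filter.2 ⟨hx, mem_closedBall_zero_iff.1 hball⟩)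
    exact absurd (hhalf i hi) (not_le.2 hc)
  refine (pr_mono F.q_nonneg (q_le_one F) hsub).trans
    ((pr_none_le F.q_nonneg (q_le_one F) Finset.univ _ Q (fun a _ => dependsOnly_missed F Φ _ _)
      (fun a _ b _ h => privateSet_disjoint F Φ v h) fun a _ => hmiss a).trans
        (Real.exp_le_exp.2 (neg_le_neg ?_)))
  rw [Finset.card_univ, Fintype.card_fin]
  push_cast
  calc (Nmax n : ℝ) * (n : ℝ) ^ 5 ≤ 2 * ((n : ℝ) ^ 4 * (5 / 4) ^ n) * (n : ℝ) ^ 5 :=
        mul_le_mul_of_nonneg_right hNmax (by positivity)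
    _ = 2 * (n : ℝ) ^ 9 * (5 / 4) ^ n := by ring
    _ ≤ _ := hn.final

end Vale.Agent.P230
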