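import Mathlib

/-!
# P230: translative coverings by random polytopes have density `c n log n`: shared definitions

The body is the unit ball cut by randomly selected halfspaces `⟪g, x⟫ ≤ thr n`, the vectors `g`
coming from a finite discretisation of the Gaussian measure (`Facets n`).
-/

open scoped BigOperators RealInnerProductSpace
open MeasureTheory

namespace Vale.Agent.P230

/-- Euclidean space. -/
abbrev E (n : ℕ) : Type := EuclideanSpace ℝ (Fin n)

/-! ## Parameters -/

/-- The slope of the membership probability, per dimension. -/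
noncomputable def slope : ℝ := 1000000

/-- The squared threshold of the halfspaces. -/
noncomputable def tau (n : ℕ) : ℝ := slope * n

/-- The threshold of the halfspaces. -/
noncomputable def thr (n : ℕ) : ℝ := Real.sqrt (tau n)

/-- The width of a symmetric slab around a shifted facet. -/
noncomputable def eta (n : ℕ) : ℝ := (n : ℝ) ^ (1 / 32 : ℝ)

/-- The depth below which a facet is not admitted. -/
noncomputable def zeta (n : ℕ) : ℝ := (n : ℝ) ^ (-(3 / 8) : ℝ)

/-- The separation of two test points of one subwindow. -/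
noncomputable def sep (n : ℕ) : ℝ := (n : ℝ) ^ (-(1 / 8) : ℝ)

/-- The number of levels. -/
noncomputable def levels (n : ℕ) : ℕ := ⌈(n : ℝ) ^ (1 / 16 : ℝ)⌉₊

/-- The radius of the set of centres of subwindows. -/
noncomputable def wide : ℝ := 1 / 8

/-- The separation of two subwindows. -/
noncomputable def apart : ℝ := 1 / 32

/-- The radius of a subwindow. -/
noncomputable def small : ℝ := 1 / 1000000

/-- The largest number of centres relevant to a window. -/
noncomputable def Nmax (n : ℕ) : ℕ := ⌈(n : ℝ) ^ 4 * (5 / 4) ^ n⌉₊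

/-- The largest number of centres relevant to a subwindow. -/
noncomputable def Kmax (n : ℕ) : ℝ := (n : ℝ) ^ 4 * (1 + 2 * small) ^ n

/-- The largest cost of a test point. -/
noncomputable def Fmax (n : ℕ) : ℝ := (n : ℝ) * Real.log n / (1000 * slope)

/-! ## Facets and bodies -/

/-- A halfspace. -/
def half {n : ℕ} (z : E n) (t : ℝ) : Set (E n) := {g | t < ⟪g, z⟫}

open scoped Classical in
/-- Total weight of the facets whose vector lies in a set. -/
noncomputable def mass {n m : ℕ} (vec : Fin m → E n) (q : Fin m → ℝ) (S : Set (E n)) : ℝ :=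
  ∑ i, if vec i ∈ S then q i else 0

/-- A finite family of possible facets, with the probability of each. -/
structure Facets (n : ℕ) where
  m : ℕ
  vec : Fin m → E n
  q : Fin m → ℝ
  q_nonneg : ∀ i, 0 ≤ q i
  q_le : ∀ i, q i ≤ 1 / 2
  norm_le : ∀ i, ‖vec i‖ ≤ 4 * thr n
  upper : ∀ w : E n, ‖w‖ ≤ 1 →
    mass vec q (half w (thr n)) ≤ Real.exp (-(tau n / 2 * (1 / ‖w‖ ^ 2 - 1))) / 3
  lower : ∀ z : E n, 1 / 2 ≤ ‖z‖ → ‖z‖ ≤ 1 →
    Real.exp (-(tau n / 2 * (1 / ‖z‖ ^ 2 - 1))) / 100 ≤ mass vec q (half z (thr n))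
  shift : ∀ Z : Finset (E n), Z.card ≤ n ^ 3 → (∀ z ∈ Z, ‖z‖ ≤ 1) →
    ∀ a : E n, ‖a‖ ≤ 2 * thr n → Real.exp ((tau n - ‖a‖ ^ 2) / 2) / 8 ≤
      mass vec q {g | ∀ z ∈ Z, |⟪g - a, z⟫| ≤ eta n}

open scoped Classical in
/-- The probability of an event, the coordinates being independent. -/
noncomputable def pr {m : ℕ} (q : Fin m → ℝ) (S : Set (Fin m → Bool)) : ℝ :=
  ∑ ω : Fin m → Bool, if ω ∈ S then ∏ i, (if ω i = true then q i else 1 - q i) else 0

/-- The random body. -/
def body {n : ℕ} (F : Facets n) (ω : Fin F.m → Bool) : Set (E n) :=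
  Metric.closedBall 0 1 ∩ {x | ∀ i, ω i = true → ⟪F.vec i, x⟫ ≤ thr n}

/-- The window is covered by the translates of the body by the points of `Φ`. -/
def Covers {n : ℕ} (F : Facets n) (Φ : Finset (E n)) : Set (Fin F.m → Bool) :=
  {ω | ∀ y ∈ Metric.closedBall (0 : E n) (wide + small), ∃ x ∈ Φ, y - x ∈ body F ω}

/-! ## Good configurations -/

open scoped Classical in
/-- The cost of a test point. -/
noncomputable def cost {n : ℕ} (Φ : Finset (E n)) (y : E n) : ℝ :=
  ∑ x ∈ Φ.filter (fun x => ‖y - x‖ ≤ 1), (1 + (n : ℝ) * (1 - ‖y - x‖))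

/-- No translate contains a test point deep inside. -/
def NoDeep {n : ℕ} (Φ : Finset (E n)) (y : E n) : Prop :=
  ∀ x ∈ Φ, 1 - zeta n / 8 ≤ ‖y - x‖

open scoped Classical in
/-- The centres relevant to a subwindow. -/
noncomputable def near {n : ℕ} (Φ : Finset (E n)) (v : E n) : Finset (E n) :=
  Φ.filter (fun x => ‖v - x‖ ≤ 1 + small)

/-- The usable test points of a subwindow. -/
def goodPts {n : ℕ} (Φ : Finset (E n)) (v : E n) : Set (E n) :=
  {y ∈ Metric.closedBall v small | cost Φ y ≤ Fmax n ∧ NoDeep Φ y}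

/-- A configuration with few centres and many usable subwindows. -/
structure GoodConfig {n : ℕ} (Φ : Finset (E n)) : Prop where
  card_le : Φ.card ≤ Nmax n
  exists_centres : ∃ V : Set (E n), V ⊆ Metric.closedBall 0 wide ∧
    volume (Metric.closedBall (0 : E n) wide) ≤ 2 * volume V ∧
    ∀ v ∈ V, ((near Φ v).card : ℝ) ≤ Kmax n ∧
      volume (Metric.closedBall (0 : E n) small) ≤ 2 * volume (goodPts Φ v)

/-! ## Interfaces between the modules -/

/-- The discretised Gaussian facets exist. -/
def GaussProp : Prop := ∀ᶠ n : ℕ in Filter.atTop, Nonempty (Facets n)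

/-- A good configuration covers its window with very small probability. -/
def CoreProp : Prop := ∀ᶠ n : ℕ in Filter.atTop, ∀ (F : Facets n) (Φ : Finset (E n)),
  GoodConfig Φ → pr F.q (Covers F Φ) ≤ Real.exp (-((Nmax n : ℝ) * (n : ℝ) ^ 5))

/-- The covering density of some convex body is at least `c n log n`. -/
def DensityProp : Prop := ∃ c : ℝ, 0 < c ∧ ∀ᶠ n : ℕ in Filter.atTop,
  ∃ K : Set (E n), Convex ℝ K ∧ IsCompact K ∧ (interior K).Nonempty ∧
    ∀ X : Set (E n), (∀ s : Set (E n), Bornology.IsBounded s → (X ∩ s).Finite) →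
      (∀ y : E n, ∃ x ∈ X, y - x ∈ K) →
      ENNReal.ofReal (c * n * Real.log n) ≤ Filter.limsup
        (fun R : ℝ => volume K * (({x ∈ X | ∀ i, |x i| ≤ R}.ncard : ℕ) : ENNReal) /
          ENNReal.ofReal ((2 * R) ^ n)) Filter.atTop

end Vale.Agent.P230
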