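import Vale.Agent.P230.Numeric
import Vale.Agent.P230.Gauss.Line

/-!
# P230: a finite family of facets approximating the Gaussian measure (`GaussProp`)

The standard Gaussian measure is pushed to a very fine grid by rounding each coordinate down.
-/

open MeasureTheory ProbabilityTheory Filter
open scoped BigOperators RealInnerProductSpace

namespace Vale.Agent.P230

open Gauss

/-- The gmesh. -/
noncomputable def gmesh (n : ℕ) : ℝ := Real.exp (-tau n)

/-- The rounding error. -/
noncomputable def err (n : ℕ) : ℝ := n * gmesh n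

/-- The rounding map. -/
noncomputable def rd {n : ℕ} (g : E n) : E n :=
  WithLp.toLp 2 fun i => gmesh n * ⌊g i / gmesh n⌋

open scoped Classical in
/-- The grid points of norm at most four thresholds. -/
noncomputable def grid (n : ℕ) : Finset (E n) :=
  ((Fintype.piFinset fun _ : Fin n =>
      Finset.Icc (-⌈4 * thr n / gmesh n⌉) ⌈4 * thr n / gmesh n⌉).image
    fun j : Fin n → ℤ => (WithLp.toLp 2 fun i => gmesh n * (j i : ℝ) : E n)).filter
    fun v => ‖v‖ ≤ 4 * thr n

/-- The normalising factor. -/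
noncomputable def scale (n : ℕ) : ℝ :=
  thr n * Real.sqrt (2 * Real.pi) * Real.exp (tau n / 2) / 4

/-- The vectors of the facets. -/
noncomputable def gvec {n : ℕ} (i : Fin (grid n).card) : E n := ((grid n).equivFin.symm i : E n)

/-- The weights of the facets. -/
noncomputable def gq {n : ℕ} (i : Fin (grid n).card) : ℝ :=
  scale n * (stdGaussian (E n)).real (rd ⁻¹' {gvec i})

lemma gmesh_pos (n : ℕ) : 0 < gmesh n := Real.exp_pos _

lemma err_nonneg (n : ℕ) : 0 ≤ err n := mul_nonneg (Nat.cast_nonneg n) (gmesh_pos n).le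

lemma scale_nonneg (n : ℕ) : 0 ≤ scale n := by
  rw [scale, thr]; positivity

lemma rd_apply {n : ℕ} (g : E n) (i : Fin n) : rd g i = gmesh n * ⌊g i / gmesh n⌋ := rfl

lemma measurable_rd (n : ℕ) : Measurable (rd : E n → E n) := by
  unfold rd; fun_prop

lemma rd_sub_le {n : ℕ} (g : E n) : ‖rd g - g‖ ≤ err n := by
  have hh := gmesh_pos n
  rw [EuclideanSpace.norm_eq]
  calc Real.sqrt (∑ i, ‖(rd g - g) i‖ ^ 2) ≤ Real.sqrt (∑ _i : Fin n, gmesh n ^ 2) := by
        gcongr with i
        rw [PiLp.sub_apply, rd_apply, Real.norm_eq_abs, abs_le]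
        have h1 := Int.floor_le (g i / gmesh n)
        have h2 := Int.lt_floor_add_one (g i / gmesh n)
        rw [le_div_iff₀ hh] at h1
        rw [div_lt_iff₀ hh] at h2
        constructor <;> nlinarith
    _ ≤ err n := by
        rw [Finset.sum_const, Finset.card_univ, Fintype.card_fin, nsmul_eq_mul,
          Real.sqrt_mul (Nat.cast_nonneg n), Real.sqrt_sq hh.le, err]
        refine mul_le_mul_of_nonneg_right ?_ hh.le
        rw [Real.sqrt_le_iff]
        exact ⟨Nat.cast_nonneg n, by exact_mod_cast Nat.le_self_pow two_ne_zero n⟩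

lemma inner_rd_sub {n : ℕ} (g w : E n) (hw : ‖w‖ ≤ 1) : |⟪rd g - g, w⟫| ≤ err n := by
  refine (abs_real_inner_le_norm _ _).trans ?_
  exact (mul_le_of_le_one_right (norm_nonneg _) hw).trans (rd_sub_le g)

lemma rd_mem_grid {n : ℕ} (g : E n) (hg : ‖rd g‖ ≤ 4 * thr n) : rd g ∈ grid n := by
  classical
  refine Finset.mem_filter.2 ⟨Finset.mem_image.2 ⟨fun i => ⌊g i / gmesh n⌋, ?_, rfl⟩, hg⟩
  refine Fintype.mem_piFinset.2 fun i => ?_
  have h1 : |rd g i| ≤ 4 * thr n := by
    have := PiLp.norm_apply_le (rd g) i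
    rw [Real.norm_eq_abs] at this
    linarith
  have h2 : |(⌊g i / gmesh n⌋ : ℝ)| ≤ 4 * thr n / gmesh n := by
    rw [le_div_iff₀ (gmesh_pos n)]
    rw [rd_apply, abs_mul, abs_of_pos (gmesh_pos n)] at h1
    linarith
  have h3 := h2.trans (Int.le_ceil _)
  rw [abs_le] at h3
  exact Finset.mem_Icc.2 ⟨by exact_mod_cast h3.1, by exact_mod_cast h3.2⟩

open scoped Classical in
lemma mass_eq {n : ℕ} (S : Set (E n)) :
    mass gvec gq S = scale n *
      (stdGaussian (E n)).real (rd ⁻¹' ↑((grid n).filter (· ∈ S))) := by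
  rw [← sum_measureReal_preimage_singleton _
      (fun v _ => measurable_rd n (measurableSet_singleton v)) , Finset.mul_sum, Finset.sum_filter]
  rw [← Finset.sum_coe_sort (grid n)]
  exact Fintype.sum_equiv (grid n).equivFin.symm _
    (fun v => if (v : E n) ∈ S then scale n * (stdGaussian (E n)).real (rd ⁻¹' {(v : E n)}) else 0)
    fun i => rfl

lemma mass_le {n : ℕ} {S A : Set (E n)} (h : ∀ g, rd g ∈ S → g ∈ A) :
    mass gvec gq S ≤ scale n * (stdGaussian (E n)).real A := by
  classical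
  rw [mass_eq]
  refine mul_le_mul_of_nonneg_left (measureReal_mono ?_) (scale_nonneg n)
  intro g hg
  exact h g (Finset.mem_filter.1 hg).2

lemma le_mass {n : ℕ} {S A : Set (E n)} (h : ∀ g ∈ A, ‖rd g‖ ≤ 4 * thr n ∧ rd g ∈ S) :
    scale n * (stdGaussian (E n)).real A ≤ mass gvec gq S := by
  classical
  rw [mass_eq]
  refine mul_le_mul_of_nonneg_left (measureReal_mono fun g hg => ?_) (scale_nonneg n)
  exact Finset.mem_filter.2 ⟨rd_mem_grid g (h g hg).1, (h g hg).2⟩

lemma gq_nonneg {n : ℕ} (i : Fin (grid n).card) : 0 ≤ gq i :=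
  mul_nonneg (scale_nonneg n) measureReal_nonneg

lemma gvec_norm_le {n : ℕ} (i : Fin (grid n).card) : ‖gvec i‖ ≤ 4 * thr n := by
  classical
  exact (Finset.mem_filter.1 ((grid n).equivFin.symm i).2).2

/-- What is used about the parameters at one dimension. -/
structure MeshFine (n : ℕ) : Prop where
  pos : 0 < n
  thr_ge : 1000 ≤ thr n
  err_le : 1000 * thr n * err n ≤ 1
  eta_ge : 16 ≤ eta n
  log_ge : 1 ≤ Real.log n
  eta_log : 8 * Real.log n ≤ eta n

lemma eventually_meshFine : ∀ᶠ n : ℕ in atTop, MeshFine n := by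
  filter_upwards [eventually_gt_atTop 0, ev_rpow_le (c := 16) (show (0 : ℝ) < 1 / 32 by norm_num),
    ev_log_le (c := 8) (show (0 : ℝ) < 1 / 32 by norm_num),
    (Real.tendsto_log_atTop.comp tendsto_natCast_atTop_atTop).eventually (eventually_ge_atTop 1)]
    with n hn h16 h8 hlog
  have hn1 : (1 : ℝ) ≤ n := by exact_mod_cast hn
  have htau : 1000000 * (n : ℝ) = tau n := by rw [tau, slope]
  have hT : thr n ^ 2 = tau n := Real.sq_sqrt (by linarith)
  have hT1 : 1000 ≤ thr n := Real.le_sqrt_of_sq_le (by linarith)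
  refine ⟨hn, hT1, ?_, by simpa [eta] using h16, hlog, h8⟩
  have h3 := Real.pow_div_factorial_le_exp (x := tau n) (by linarith) 3
  norm_num [Nat.factorial] at h3
  rw [err, gmesh, Real.exp_neg, ← mul_assoc, ← div_eq_mul_inv, div_le_one (Real.exp_pos _)]
  have h4 : thr n ≤ tau n := by rw [← hT]; nlinarith
  have h5 : 1000 * thr n * n ≤ tau n * tau n := by
    have : 1000 * (n : ℝ) ≤ tau n := by linarith
    nlinarith [mul_le_mul this h4 (by linarith) (by linarith)]
  nlinarith [mul_le_mul_of_nonneg_right (show (6 : ℝ) ≤ tau n by linarith)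
    (mul_self_nonneg (tau n))]

namespace MeshFine

variable {n : ℕ} (hf : MeshFine n)

include hf in
lemma thr_pos : 0 < thr n := by linarith [hf.thr_ge]

include hf in
lemma thr_sq : thr n ^ 2 = tau n := by
  have h : (0 : ℝ) ≤ tau n := by
    have := hf.pos
    rw [tau, slope]; positivity
  exact Real.sq_sqrt h

include hf in
lemma tau_ge : 1000000 * (n : ℝ) ≤ tau n ∧ 1000000 ≤ tau n := by
  have : (1 : ℝ) ≤ n := by exact_mod_cast hf.pos
  rw [tau, slope]
  constructor <;> linarith

include hf in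
lemma err_small : err n ≤ 1 / 1000000 := by
  nlinarith [hf.err_le, hf.thr_ge, err_nonneg n]

include hf in
lemma q_le (i : Fin (grid n).card) : gq i ≤ 1 / 2 := by
  have hsub : rd ⁻¹' {gvec i} ⊆
      {g : E n | ⟪g, EuclideanSpace.single (⟨0, hf.pos⟩ : Fin n) (1 : ℝ)⟫ ∈
        Set.Icc (gvec i ⟨0, hf.pos⟩) (gvec i ⟨0, hf.pos⟩ + gmesh n)} := by
    intro g hg
    have e : rd g = gvec i := hg
    simp only [Set.mem_ofPred_eq, EuclideanSpace.inner_single_right, Set.mem_Icc, one_mul,
      conj_trivial, ← e, rd_apply]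
    have h1 := Int.floor_le (g ⟨0, hf.pos⟩ / gmesh n)
    have h2 := Int.lt_floor_add_one (g ⟨0, hf.pos⟩ / gmesh n)
    rw [le_div_iff₀ (gmesh_pos n)] at h1
    rw [div_lt_iff₀ (gmesh_pos n)] at h2
    constructor <;> nlinarith
  have h1 : (stdGaussian (E n)).real (rd ⁻¹' {gvec i}) ≤ gmesh n := by
    refine (measureReal_mono hsub).trans ?_
    rw [marginal (by simp) measurableSet_Icc]
    exact line_interval_le (gmesh_pos n).le
  refine (mul_le_mul_of_nonneg_left h1 (scale_nonneg n)).trans ?_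
  have e : Real.exp (tau n / 2) * gmesh n = (Real.exp (tau n / 2))⁻¹ := by
    rw [gmesh, ← Real.exp_add, ← Real.exp_neg]; ring_nf
  have hpi : Real.sqrt (2 * Real.pi) ≤ 3 := by
    rw [Real.sqrt_le_iff]; exact ⟨by norm_num, by nlinarith [Real.pi_le_four]⟩
  have hexp : 3 / 2 * thr n ≤ Real.exp (tau n / 2) := by
    have := Real.add_one_le_exp (tau n / 2)
    nlinarith [hf.thr_sq, hf.thr_ge]
  calc scale n * gmesh n
      = thr n * Real.sqrt (2 * Real.pi) / 4 * (Real.exp (tau n / 2) * gmesh n) := by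
        rw [scale]; ring
    _ ≤ thr n * 3 / 4 * (Real.exp (tau n / 2))⁻¹ := by
        rw [e]; gcongr; exact hf.thr_pos.le
    _ ≤ 1 / 2 := by
        rw [← div_eq_mul_inv, div_le_iff₀ (Real.exp_pos _)]; linarith

include hf in
lemma upper (w : E n) (hw : ‖w‖ ≤ 1) :
    mass gvec gq (half w (thr n)) ≤ Real.exp (-(tau n / 2 * (1 / ‖w‖ ^ 2 - 1))) / 3 := by
  classical
  rcases lt_or_ge ‖w‖ (1 / 4) with hr | hr
  · have h0 : mass gvec gq (half w (thr n)) = 0 := by
      refine Finset.sum_eq_zero fun i _ => if_neg fun hi => ?_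
      have h1 : ⟪gvec i, w⟫ ≤ 4 * thr n * (1 / 4) :=
        (real_inner_le_norm _ _).trans
          (mul_le_mul (gvec_norm_le i) hr.le (norm_nonneg _) (by linarith [hf.thr_pos]))
      simp only [half, Set.mem_ofPred_eq] at hi
      linarith
    rw [h0]; positivity
  set r := ‖w‖ with hrd
  set T := thr n with hTd
  set δ := err n with hδd
  have hT : 1000 ≤ T := hf.thr_ge
  have hδ0 : 0 ≤ δ := err_nonneg n
  have hδ := hf.err_small
  have hr0 : 0 < r := by linarith
  set b := (T - δ) / r with hbd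
  have hb : 0 < b := div_pos (by linarith) hr0
  have hsub : mass gvec gq (half w T) ≤ scale n * (gaussianReal 0 1).real (Set.Ioi b) := by
    have hu : ‖r⁻¹ • w‖ = 1 := by
      rw [norm_smul, norm_inv, Real.norm_eq_abs, abs_of_pos hr0, inv_mul_cancel₀ hr0.ne']
    rw [← marginal hu measurableSet_Ioi]
    refine mass_le fun g hg => ?_
    simp only [half, Set.mem_ofPred_eq, Set.mem_Ioi, real_inner_smul_right] at hg ⊢
    have h1 := abs_le.1 (inner_rd_sub g w hw)
    rw [inner_sub_left] at h1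
    rw [hbd, div_lt_iff₀ hr0, mul_comm (r⁻¹), mul_assoc, inv_mul_cancel₀ hr0.ne', mul_one]
    linarith
  refine hsub.trans ((mul_le_mul_of_nonneg_left (line_tail_le hb) (scale_nonneg n)).trans ?_)
  have hexp : -b ^ 2 / 2 + tau n / 2 ≤ -(tau n / 2 * (1 / r ^ 2 - 1)) + 1 / 50 := by
    have h1 : b ^ 2 = (T - δ) ^ 2 / r ^ 2 := div_pow _ _ _
    have h2 : 2 * T * δ / r ^ 2 ≤ 1 / 25 := by
      rw [div_le_iff₀ (by positivity)]; nlinarith [hf.err_le]
    have h3 : (T ^ 2 - 2 * T * δ) / r ^ 2 ≤ b ^ 2 := by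
      rw [h1]; gcongr; nlinarith
    rw [sub_div, hf.thr_sq] at h3
    have h4 : tau n / 2 * (1 / r ^ 2 - 1) = (tau n / r ^ 2) / 2 - tau n / 2 := by ring
    rw [h4]; linarith
  have he : Real.exp (1 / 50) ≤ 50 / 49 := by
    have := Real.exp_bound_div_one_sub_of_interval (x := (1 : ℝ) / 50) (by norm_num) (by norm_num)
    norm_num at this ⊢
    linarith
  calc scale n * ((Real.sqrt (2 * Real.pi))⁻¹ * Real.exp (-b ^ 2 / 2) / b)
      = T / (4 * b) * Real.exp (-b ^ 2 / 2 + tau n / 2) := by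
        rw [scale, ← hTd, Real.exp_add]
        have : Real.sqrt (2 * Real.pi) ≠ 0 := by positivity
        field_simp
    _ ≤ T / (4 * b) * (Real.exp (-(tau n / 2 * (1 / r ^ 2 - 1))) * (50 / 49)) := by
        refine mul_le_mul_of_nonneg_left ?_ (by positivity)
        refine (Real.exp_le_exp.2 hexp).trans ?_
        rw [Real.exp_add]
        exact mul_le_mul_of_nonneg_left he (Real.exp_pos _).le
    _ ≤ 26 / 100 * (Real.exp (-(tau n / 2 * (1 / r ^ 2 - 1))) * (50 / 49)) := by
        refine mul_le_mul_of_nonneg_right ?_ (by positivity)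
        rw [hbd, div_le_iff₀ (by positivity)]
        have : T - δ ≤ (T - δ) / r := le_div_self (by linarith) hr0 hw
        linarith
    _ ≤ _ := by linarith [Real.exp_pos (-(tau n / 2 * (1 / r ^ 2 - 1)))]

include hf in
lemma ball_loss {R : ℝ} (hR : 15 / 16 * (4 * thr n) ≤ R) :
    scale n * (stdGaussian (E n)).real {g | R < ‖g‖} ≤ Real.exp (-(3 / 2 * tau n)) / 300 := by
  have hT := hf.thr_ge
  have htau := hf.tau_ge
  have hR0 : 0 ≤ R := by linarith
  have hR2 : 14 * tau n ≤ R ^ 2 := by rw [← hf.thr_sq]; nlinarith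
  have h1 := norm_tail (E := E n) hR0
  rw [finrank_euclideanSpace_fin] at h1
  have h2 : scale n ≤ Real.exp (tau n) := by
    have hpi : Real.sqrt (2 * Real.pi) ≤ 4 := by
      rw [Real.sqrt_le_iff]; exact ⟨by norm_num, by nlinarith [Real.pi_le_four]⟩
    have h3 : thr n ≤ Real.exp (tau n / 2) := by
      have := Real.add_one_le_exp (tau n / 2)
      nlinarith [hf.thr_sq]
    have h4 : Real.exp (tau n) = Real.exp (tau n / 2) * Real.exp (tau n / 2) := by
      rw [← Real.exp_add]; ring_nf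
    rw [scale, h4]
    calc thr n * Real.sqrt (2 * Real.pi) * Real.exp (tau n / 2) / 4
        ≤ thr n * 4 * Real.exp (tau n / 2) / 4 := by gcongr
      _ = thr n * Real.exp (tau n / 2) := by ring
      _ ≤ _ := by gcongr
  have h300 : Real.exp (-tau n / 2) ≤ 1 / 300 := by
    rw [neg_div, Real.exp_neg, one_div, inv_le_inv₀ (Real.exp_pos _) (by norm_num)]
    linarith [Real.add_one_le_exp (tau n / 2)]
  calc scale n * (stdGaussian (E n)).real {g | R < ‖g‖}
      ≤ Real.exp (tau n) * Real.exp (-((R ^ 2 - 2 * n) / 4)) :=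
        mul_le_mul h2 h1 measureReal_nonneg (Real.exp_pos _).le
    _ ≤ Real.exp (-(3 / 2 * tau n)) * Real.exp (-tau n / 2) := by
        rw [← Real.exp_add, ← Real.exp_add]
        exact Real.exp_le_exp.2 (by linarith)
    _ ≤ Real.exp (-(3 / 2 * tau n)) * (1 / 300) :=
        mul_le_mul_of_nonneg_left h300 (Real.exp_pos _).le
    _ = _ := by ring

include hf in
lemma lower (z : E n) (hz : 1 / 2 ≤ ‖z‖) (hz1 : ‖z‖ ≤ 1) :
    Real.exp (-(tau n / 2 * (1 / ‖z‖ ^ 2 - 1))) / 100 ≤ mass gvec gq (half z (thr n)) := by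
  set r := ‖z‖ with hrd
  set T := thr n with hTd
  set δ := err n with hδd
  have hT : 1000 ≤ T := hf.thr_ge
  have hδ0 : 0 ≤ δ := err_nonneg n
  have hδ := hf.err_small
  have hr0 : 0 < r := by linarith
  set b := (T + δ) / r with hbd
  have hb : 1000 ≤ b := by
    rw [hbd, le_div_iff₀ hr0]; nlinarith
  set X := Real.exp (-(tau n / 2 * (1 / r ^ 2 - 1))) with hXd
  set A := {g : E n | ⟪g, r⁻¹ • z⟫ ∈ Set.Ioi b ∧ ‖g‖ ≤ 4 * T - 1}
  have hmain : scale n * (gaussianReal 0 1).real (Set.Ioi b) ≤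
      mass gvec gq (half z T) + Real.exp (-(3 / 2 * tau n)) / 300 := by
    have hu : ‖r⁻¹ • z‖ = 1 := by
      rw [norm_smul, norm_inv, Real.norm_eq_abs, abs_of_pos hr0, inv_mul_cancel₀ hr0.ne']
    rw [← marginal hu measurableSet_Ioi]
    have hsplit : (stdGaussian (E n)).real {g | ⟪g, r⁻¹ • z⟫ ∈ Set.Ioi b} ≤
        (stdGaussian (E n)).real A + (stdGaussian (E n)).real {g | 4 * T - 1 < ‖g‖} := by
      refine (measureReal_mono fun g hg => ?_).trans (measureReal_union_le _ _)
      rcases le_or_gt ‖g‖ (4 * T - 1) with h | h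
      · exact Or.inl ⟨hg, h⟩
      · exact Or.inr h
    refine (mul_le_mul_of_nonneg_left hsplit (scale_nonneg n)).trans ?_
    rw [mul_add]
    refine add_le_add (le_mass ?_) (hf.ball_loss (by linarith))
    rintro g ⟨hg, hgn⟩
    have h1 := abs_le.1 (inner_rd_sub g z hz1)
    rw [inner_sub_left] at h1
    have h2 := norm_le_norm_add_norm_sub g (rd g)
    rw [norm_sub_rev] at h2
    refine ⟨by linarith [norm_le_norm_add_norm_sub' (rd g) g, rd_sub_le g], ?_⟩
    simp only [Set.mem_Ioi, real_inner_smul_right] at hg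
    rw [hbd, div_lt_iff₀ hr0, mul_comm (r⁻¹), mul_assoc, inv_mul_cancel₀ hr0.ne', mul_one] at hg
    simp only [half, Set.mem_ofPred_eq]
    linarith
  have hexp : -(tau n / 2 * (1 / r ^ 2 - 1)) - 11 / 10 ≤ -(b + 1 / b) ^ 2 / 2 + tau n / 2 := by
    have h0 : (b + 1 / b) ^ 2 = b ^ 2 + 2 + 1 / b ^ 2 := by field_simp; ring
    have h1 : 1 / b ^ 2 ≤ 1 / 1000 := one_div_le_one_div_of_le (by norm_num) (by nlinarith)
    have h2 : (2 * T * δ + δ ^ 2) / r ^ 2 ≤ 1 / 20 := by
      rw [div_le_iff₀ (by positivity)]; nlinarith [hf.err_le]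
    have h3 : b ^ 2 = tau n / r ^ 2 + (2 * T * δ + δ ^ 2) / r ^ 2 := by
      rw [hbd, ← hf.thr_sq, ← hTd]; field_simp; ring
    have h4 : tau n / 2 * (1 / r ^ 2 - 1) = (tau n / r ^ 2) / 2 - tau n / 2 := by ring
    rw [h4, h0]; linarith
  have he : Real.exp (11 / 10) ≤ 31 / 10 := by
    have h1 := Real.exp_one_lt_d9
    have h2 := Real.exp_bound_div_one_sub_of_interval (x := (1 : ℝ) / 10) (by norm_num) (by norm_num)
    have h3 : Real.exp (11 / 10) = Real.exp 1 * Real.exp (1 / 10) := by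
      rw [← Real.exp_add]; norm_num
    rw [h3]
    norm_num at h2 ⊢
    nlinarith [Real.exp_pos (1 : ℝ), Real.exp_pos ((1 : ℝ) / 10)]
  have hlow : X / 30 ≤ scale n * (gaussianReal 0 1).real (Set.Ioi b) := by
    refine le_trans ?_ (mul_le_mul_of_nonneg_left (line_tail_ge (by linarith : 0 < b))
      (scale_nonneg n))
    calc X / 30 ≤ 11 / 100 * (X / Real.exp (11 / 10)) := by
          rw [mul_div, div_le_div_iff₀ (by norm_num) (Real.exp_pos _)]
          nlinarith [Real.exp_pos (-(tau n / 2 * (1 / r ^ 2 - 1)))]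
      _ ≤ T / (4 * b) * Real.exp (-(b + 1 / b) ^ 2 / 2 + tau n / 2) := by
          refine mul_le_mul ?_ ?_ (by positivity) (by positivity)
          · rw [le_div_iff₀ (by positivity)]
            have : b ≤ (T + δ) / (1 / 2) := by rw [hbd]; gcongr
            linarith
          · rw [hXd, ← Real.exp_sub]; exact Real.exp_le_exp.2 hexp
      _ = _ := by
          rw [scale, ← hTd, Real.exp_add]
          have : Real.sqrt (2 * Real.pi) ≠ 0 := by positivity
          field_simp
  have hXlow : Real.exp (-(3 / 2 * tau n)) ≤ X := by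
    refine Real.exp_le_exp.2 ?_
    have : 1 / r ^ 2 ≤ 4 := by rw [div_le_iff₀ (by positivity)]; nlinarith
    nlinarith [hf.tau_ge.2]
  linarith [Real.exp_pos (-(tau n / 2 * (1 / r ^ 2 - 1)))]

include hf in
lemma shift (Z : Finset (E n)) (hZc : Z.card ≤ n ^ 3) (hZ : ∀ z ∈ Z, ‖z‖ ≤ 1)
    (a : E n) (ha : ‖a‖ ≤ 2 * thr n) :
    Real.exp ((tau n - ‖a‖ ^ 2) / 2) / 8 ≤
      mass gvec gq {g | ∀ z ∈ Z, |⟪g - a, z⟫| ≤ eta n} := by
  have hT := hf.thr_ge
  have htau := hf.tau_ge
  have hδ := hf.err_small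
  have hη := hf.eta_ge
  set γ := stdGaussian (E n)
  set b := eta n - err n with hbd
  set S := {h : E n | (∀ z ∈ Z, |⟪h, z⟫| ≤ b) ∧ ‖h‖ ≤ 3 / 2 * thr n} with hSd
  have hS : MeasurableSet S := by
    have : S = (⋂ z ∈ Z, {h : E n | |⟪h, z⟫| ≤ b}) ∩ {h | ‖h‖ ≤ 3 / 2 * thr n} := by
      ext h; simp [hSd]
    rw [this]
    exact (Finset.measurableSet_biInter _ fun z _ =>
      measurableSet_le (by fun_prop) measurable_const).inter
      (measurableSet_le measurable_norm measurable_const)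
  have hSs : ∀ h ∈ S, -h ∈ S := by
    rintro h ⟨h1, h2⟩
    exact ⟨fun z hz => by rw [inner_neg_left, abs_neg]; exact h1 z hz, by rwa [norm_neg]⟩
  have hbad : γ.real Sᶜ ≤ 1 / 2 := by
    have h1 : γ.real Sᶜ ≤ γ.real {g | ∃ z ∈ Z, b < |⟪g, z⟫|} +
        γ.real {g | 3 / 2 * thr n < ‖g‖} := by
      refine (measureReal_mono fun g hg => ?_).trans (measureReal_union_le _ _)
      simp only [hSd, Set.mem_compl_iff, Set.mem_ofPred_eq, not_and_or, not_forall, not_le] at hg
      rcases hg with ⟨z, hz, h⟩ | h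
      · exact Or.inl ⟨z, hz, h⟩
      · exact Or.inr h
    have hb : 0 ≤ b := by linarith
    have hn1 : (0 : ℝ) < n := by exact_mod_cast hf.pos
    have h2 : γ.real {g | ∃ z ∈ Z, b < |⟪g, z⟫|} ≤ 1 / 4 := by
      refine (slabs hb Z hZ).trans ?_
      have hc : (Z.card : ℝ) ≤ Real.exp (3 * Real.log n) := by
        rw [show (3 : ℝ) = ((3 : ℕ) : ℝ) by norm_num, Real.exp_nat_mul, Real.exp_log hn1]
        exact_mod_cast hZc
      calc (Z.card : ℝ) * (2 * Real.exp (-b ^ 2 / 2))
          ≤ Real.exp (3 * Real.log n) * (2 * Real.exp (-(16 * Real.log n))) := by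
            refine mul_le_mul hc ?_ (by positivity) (Real.exp_pos _).le
            gcongr
            have hb2 : eta n / 2 ≤ b := by linarith
            nlinarith [hf.eta_log, hf.log_ge,
              mul_le_mul hf.eta_log hη (by norm_num) (by linarith)]
        _ = 2 * Real.exp (-(13 * Real.log n)) := by
            rw [mul_left_comm, ← Real.exp_add]; ring_nf
        _ ≤ 1 / 4 := by
            have h13 : Real.exp (-(13 * Real.log n)) ≤ 1 / 8 := by
              rw [Real.exp_neg, one_div, inv_le_inv₀ (Real.exp_pos _) (by norm_num)]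
              linarith [Real.add_one_le_exp (13 * Real.log n), hf.log_ge]
            linarith
    have h3 : γ.real {g | 3 / 2 * thr n < ‖g‖} ≤ 1 / 4 := by
      refine (norm_tail (by linarith)).trans ?_
      rw [finrank_euclideanSpace_fin, Real.exp_neg, one_div,
        inv_le_inv₀ (Real.exp_pos _) (by norm_num), mul_pow, hf.thr_sq]
      linarith [Real.add_one_le_exp (((3 / 2 : ℝ) ^ 2 * tau n - 2 * n) / 4)]
    linarith
  have hgood : 1 / 2 ≤ γ.real S := by
    have := probReal_compl_eq_one_sub (μ := γ) hS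
    linarith
  have hshift := (mul_le_mul_of_nonneg_left hgood (Real.exp_pos _).le).trans (shift_symm a hS hSs)
  refine le_trans ?_ (le_mass (A := {g | g - a ∈ S}) ?_)
  · refine le_trans ?_ (mul_le_mul_of_nonneg_left hshift (scale_nonneg n))
    have h1 : Real.exp ((tau n - ‖a‖ ^ 2) / 2) =
        Real.exp (tau n / 2) * Real.exp (-‖a‖ ^ 2 / 2) := by
      rw [← Real.exp_add]; ring_nf
    have hpi : 1 ≤ Real.sqrt (2 * Real.pi) :=
      Real.one_le_sqrt.2 (by linarith [Real.pi_gt_three])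
    rw [h1, scale]
    calc Real.exp (tau n / 2) * Real.exp (-‖a‖ ^ 2 / 2) / 8
        ≤ (thr n * Real.sqrt (2 * Real.pi)) *
            (Real.exp (tau n / 2) * Real.exp (-‖a‖ ^ 2 / 2) / 8) :=
          le_mul_of_one_le_left (by positivity)
            (one_le_mul_of_one_le_of_one_le (by linarith) hpi)
      _ = _ := by ring
  rintro g ⟨h1, h2⟩
  refine ⟨?_, fun z hz => ?_⟩
  · have := norm_le_norm_add_norm_sub' g a
    linarith [norm_le_norm_add_norm_sub' (rd g) g, rd_sub_le g]
  · have e : rd g - a = (g - a) + (rd g - g) := by abel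
    rw [e, inner_add_left]
    refine (abs_add_le _ _).trans ?_
    linarith [h1 z hz, inner_rd_sub g z (hZ z hz)]

/-- The facets. -/
noncomputable def facets : Facets n where
  m := (grid n).card
  vec := gvec
  q := gq
  q_nonneg := gq_nonneg
  q_le := hf.q_le
  norm_le := gvec_norm_le
  upper := hf.upper
  lower := hf.lower
  shift := hf.shift

end MeshFine

/-- **The discretised Gaussian facets exist.** -/
theorem gaussProp : GaussProp := by
  filter_upwards [eventually_meshFine] with n hn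
  exact ⟨hn.facets⟩

end Vale.Agent.P230
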