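import Vale.Agent.P230.Defs

/-!
# P230: elementary geometry

Approximate Carathéodory (Maurey), the minimal point of a polytope, the midpoint inequality and a
greedy choice of separated points.
-/

open scoped BigOperators RealInnerProductSpace ENNReal
open MeasureTheory

namespace Vale.Agent.P230

variable {n : ℕ}

/-- Approximate Carathéodory: short averages do nearly as well as hull points. -/
lemma maurey {S : Finset (E n)} (hS : ∀ z ∈ S, ‖z‖ ≤ 1) {w : E n}
    (hw : w ∈ convexHull ℝ (S : Set (E n))) {m : ℕ} (hm : 0 < m) :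
    ∃ t : Fin m → E n, (∀ i, t i ∈ S) ∧
      ‖(m : ℝ)⁻¹ • ∑ i, t i‖ ^ 2 ≤ ‖w‖ ^ 2 + 1 / m := by
  rw [Finset.convexHull_eq] at hw
  obtain ⟨α, hα0, hα1, hαw⟩ := hw
  have hw' : ∑ z ∈ S, α z • z = w := by
    rw [← hαw, Finset.centerMass, hα1, inv_one, one_smul]; rfl
  -- a good next point, given the error so far
  have step : ∀ u : E n, ∃ z ∈ S, 2 * ⟪u, z - w⟫ + ‖z - w‖ ^ 2 ≤ 1 := by
    intro u
    by_contra hc
    push Not at hc
    have h1 : ∑ z ∈ S, α z * 1 < ∑ z ∈ S, α z * (2 * ⟪u, z - w⟫ + ‖z - w‖ ^ 2) := by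
      obtain ⟨z₀, hz₀, hz₀'⟩ : ∃ z ∈ S, 0 < α z := by
        by_contra h
        push Not at h
        linarith [Finset.sum_nonpos fun z hz => h z hz]
      exact Finset.sum_lt_sum (fun z hz => mul_le_mul_of_nonneg_left (hc z hz).le (hα0 z hz))
        ⟨z₀, hz₀, mul_lt_mul_of_pos_left (hc z₀ hz₀) hz₀'⟩
    have h2 : ∑ z ∈ S, α z * (2 * ⟪u, z - w⟫ + ‖z - w‖ ^ 2) =
        ∑ z ∈ S, α z * ‖z‖ ^ 2 - ‖w‖ ^ 2 := by
      have e : ∀ z, α z * (2 * ⟪u, z - w⟫ + ‖z - w‖ ^ 2) =
          (2 * ⟪u, α z • z⟫ - 2 * ⟪w, α z • z⟫) + α z * ‖z‖ ^ 2 +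
            α z * (‖w‖ ^ 2 - 2 * ⟪u, w⟫) := fun z => by
        rw [norm_sub_sq_real, inner_sub_right, real_inner_smul_right, real_inner_smul_right,
          real_inner_comm w z]
        ring
      simp only [e, Finset.sum_add_distrib, Finset.sum_sub_distrib, ← Finset.mul_sum,
        ← inner_sum, hw', ← Finset.sum_mul, hα1, real_inner_self_eq_norm_sq]
      ring
    have h3 : ∑ z ∈ S, α z * ‖z‖ ^ 2 ≤ 1 := by
      rw [← hα1]
      exact Finset.sum_le_sum fun z hz =>
        mul_le_of_le_one_right (hα0 z hz) (pow_le_one₀ (norm_nonneg _) (hS z hz))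
    rw [h2] at h1
    simp only [mul_one, hα1] at h1
    linarith [sq_nonneg ‖w‖]
  choose f hfS hf using step
  -- the greedy sequence
  have key : ∀ k, k ≤ m → ∃ t : Fin k → E n, (∀ i, t i ∈ S) ∧
      ‖(∑ i, t i) - (k : ℝ) • w‖ ^ 2 + 2 * m * ⟪w, (∑ i, t i) - (k : ℝ) • w⟫ ≤ k := by
    intro k
    induction k with
    | zero => exact fun _ => ⟨Fin.elim0, fun i => i.elim0, by simp⟩
    | succ k ih =>
      intro hk
      obtain ⟨t, htS, ht⟩ := ih (Nat.le_of_succ_le hk)
      set s := (∑ i, t i) - (k : ℝ) • w with hs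
      refine ⟨Fin.snoc t (f (s + (m : ℝ) • w)), fun i => ?_, ?_⟩
      · refine Fin.lastCases ?_ (fun j => ?_) i
        · simpa using hfS _
        · simpa using htS j
      · have e : (∑ i, (Fin.snoc t (f (s + (m : ℝ) • w)) : Fin (k + 1) → E n) i) -
            ((k + 1 : ℕ) : ℝ) • w = s + (f (s + (m : ℝ) • w) - w) := by
          rw [Fin.sum_univ_castSucc]
          simp only [Fin.snoc_castSucc, Fin.snoc_last, hs]
          push_cast
          rw [add_smul, one_smul]
          abel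
        rw [e, norm_add_sq_real, inner_add_right]
        have := hf (s + (m : ℝ) • w)
        rw [inner_add_left, real_inner_smul_left] at this
        push_cast
        linarith
  obtain ⟨t, htS, ht⟩ := key m le_rfl
  refine ⟨t, htS, ?_⟩
  have hm' : (0 : ℝ) < m := by exact_mod_cast hm
  have e : ‖(∑ i, t i)‖ ^ 2 = ‖(∑ i, t i) - (m : ℝ) • w‖ ^ 2 +
      2 * m * ⟪w, (∑ i, t i) - (m : ℝ) • w⟫ + (m : ℝ) ^ 2 * ‖w‖ ^ 2 := by
    simp only [norm_sub_sq_real, inner_sub_right, real_inner_smul_right, norm_smul,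
      Real.norm_natCast, real_inner_comm w, real_inner_self_eq_norm_sq]
    ring
  rw [norm_smul, norm_inv, Real.norm_natCast, mul_pow, e, inv_pow]
  rw [show ‖w‖ ^ 2 + 1 / m = ((m : ℝ) ^ 2)⁻¹ * (m + (m : ℝ) ^ 2 * ‖w‖ ^ 2) by field_simp; ring]
  exact mul_le_mul_of_nonneg_left (by linarith) (by positivity)

/-- The point of a polytope closest to the origin. -/
lemma exists_min_point {S : Finset (E n)} (hS : S.Nonempty) :
    ∃ w ∈ convexHull ℝ (S : Set (E n)), ∀ z ∈ S, ‖w‖ ^ 2 ≤ ⟪w, z⟫ := by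
  have hne : (convexHull ℝ (S : Set (E n))).Nonempty := (Finset.coe_nonempty.2 hS).convexHull
  have hc : IsComplete (convexHull ℝ (S : Set (E n))) :=
    (S.finite_toSet.isCompact_convexHull ℝ).isComplete
  obtain ⟨w, hw, hmin⟩ := exists_norm_eq_iInf_of_complete_convex hne hc (convex_convexHull ℝ _) 0
  refine ⟨w, hw, fun z hz => ?_⟩
  have := (norm_eq_iInf_iff_real_inner_le_zero (convex_convexHull ℝ _) hw).1 hmin z
    (subset_convexHull ℝ _ hz)
  rw [zero_sub, inner_neg_left, inner_sub_right, real_inner_self_eq_norm_sq] at this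
  linarith

/-- A vector almost maximal on two separated vectors is short. -/
lemma norm_mid_sq_le {z z' : E n} {s : ℝ} (hs : 0 ≤ s) (h : s ≤ ‖z - z'‖) :
    ‖(2 : ℝ)⁻¹ • (z + z')‖ ^ 2 ≤ (‖z‖ ^ 2 + ‖z'‖ ^ 2) / 2 - s ^ 2 / 4 := by
  have h1 : ‖z + z'‖ ^ 2 + ‖z - z'‖ ^ 2 = 2 * (‖z‖ ^ 2 + ‖z'‖ ^ 2) := by
    rw [norm_add_sq_real, norm_sub_sq_real]; ring
  have h2 : s ^ 2 ≤ ‖z - z'‖ ^ 2 := pow_le_pow_left₀ hs h 2
  rw [norm_smul, mul_pow, norm_inv, Real.norm_ofNat]
  linarith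

/-- Greedy choice of points, each avoiding balls determined by the earlier ones. -/
lemma exists_separated {V : Set (E n)} {r : ℝ} (C : E n → Finset (E n)) {K m : ℕ}
    (hC : ∀ v ∈ V, (C v).card ≤ K)
    (hvol : ((m * K : ℕ) : ℝ≥0∞) * volume (Metric.closedBall (0 : E n) r) < volume V) :
    ∃ v : Fin m → E n, (∀ a, v a ∈ V) ∧ ∀ a b, a < b → ∀ c ∈ C (v a), r < ‖v b - c‖ := by
  classical
  suffices H : ∀ k, k ≤ m → ∃ v : Fin k → E n, (∀ a, v a ∈ V) ∧
      ∀ a b, a < b → ∀ c ∈ C (v a), r < ‖v b - c‖ from H m le_rfl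
  intro k
  induction k with
  | zero => exact fun _ => ⟨Fin.elim0, fun a => a.elim0, fun a => a.elim0⟩
  | succ k ih =>
    intro hk
    obtain ⟨v, hv, hsep⟩ := ih (Nat.le_of_succ_le hk)
    set U := Finset.univ.biUnion fun a => C (v a) with hU
    have hcard : U.card ≤ m * K := by
      refine Finset.card_biUnion_le.trans ((Finset.sum_le_sum fun a _ => hC _ (hv a)).trans ?_)
      simp only [Finset.sum_const, Finset.card_univ, Fintype.card_fin, smul_eq_mul]
      exact Nat.mul_le_mul_right _ (Nat.le_of_succ_le hk)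
    have hlt : volume (⋃ c ∈ U, Metric.closedBall c r) < volume V := by
      refine lt_of_le_of_lt ((measure_biUnion_finset_le _ _).trans ?_) hvol
      simp only [MeasureTheory.Measure.addHaar_closedBall_center, Finset.sum_const, nsmul_eq_mul]
      gcongr
    obtain ⟨p, hp, hp'⟩ : ∃ p ∈ V, p ∉ ⋃ c ∈ U, Metric.closedBall c r := by
      by_contra h
      push Not at h
      exact absurd (measure_mono h) (not_le.2 hlt)
    refine ⟨Fin.snoc v p, fun a => ?_, fun a b hab c hc => ?_⟩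
    · refine Fin.lastCases ?_ (fun i => ?_) a
      · simpa using hp
      · simpa using hv i
    · obtain ⟨i, rfl⟩ : ∃ i : Fin k, a = Fin.castSucc i :=
        ⟨⟨a, by omega⟩, rfl⟩
      rw [Fin.snoc_castSucc] at hc
      by_cases hb : b = Fin.last k
      · subst hb
        rw [Fin.snoc_last]
        simp only [Set.mem_iUnion, Metric.mem_closedBall, dist_eq_norm, not_exists, not_le] at hp'
        exact hp' c (Finset.mem_biUnion.2 ⟨i, Finset.mem_univ _, hc⟩)
      · obtain ⟨i', rfl⟩ : ∃ i' : Fin k, b = Fin.castSucc i' :=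
          ⟨⟨b, lt_of_le_of_ne (Nat.lt_succ_iff.1 b.isLt) fun e => hb (Fin.ext e)⟩, rfl⟩
        rw [Fin.snoc_castSucc]
        exact hsep i i' (by simpa using hab) c hc

end Vale.Agent.P230
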