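import Vale.Agent.P230.Defs

/-!
# P230: the parameters for large `n`
-/

open Filter Topology

namespace Vale.Agent.P230

/-- A smaller power is eventually below any multiple of a larger one. -/
lemma ev_rpow_le {a b c : ℝ} (hab : a < b) :
    ∀ᶠ n : ℕ in atTop, c * (n : ℝ) ^ a ≤ (n : ℝ) ^ b := by
  have h := ((tendsto_rpow_atTop (sub_pos.2 hab)).comp tendsto_natCast_atTop_atTop)
  filter_upwards [h.eventually (eventually_ge_atTop c), eventually_gt_atTop 0] with n hn hn0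
  have hn' : (0 : ℝ) < n := by exact_mod_cast hn0
  calc c * (n : ℝ) ^ a ≤ (n : ℝ) ^ (b - a) * (n : ℝ) ^ a :=
        mul_le_mul_of_nonneg_right hn (Real.rpow_nonneg hn'.le _)
    _ = (n : ℝ) ^ b := by rw [← Real.rpow_add hn']; ring_nf

/-- The logarithm is eventually below any positive power. -/
lemma ev_log_le {a c : ℝ} (ha : 0 < a) :
    ∀ᶠ n : ℕ in atTop, c * Real.log n ≤ (n : ℝ) ^ a := by
  filter_upwards [ev_rpow_le (c := |c| * (2 / a)) (show a / 2 < a by linarith),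
    eventually_gt_atTop 0] with n hn hn0
  have hn' : (1 : ℝ) ≤ n := by exact_mod_cast hn0
  have h1 : Real.log n ≤ (n : ℝ) ^ (a / 2) / (a / 2) :=
    Real.log_le_rpow_div (by linarith) (by linarith)
  calc c * Real.log n ≤ |c| * Real.log n :=
        mul_le_mul_of_nonneg_right (le_abs_self c) (Real.log_nonneg hn')
    _ ≤ |c| * ((n : ℝ) ^ (a / 2) / (a / 2)) := mul_le_mul_of_nonneg_left h1 (abs_nonneg c)
    _ = |c| * (2 / a) * (n : ℝ) ^ (a / 2) := by ring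
    _ ≤ _ := hn

/-- What is used about the parameters at one dimension. -/
structure Large (n : ℕ) : Prop where
  n_pos : 0 < n
  zeta_pos : 0 < zeta n
  zeta_small : zeta n ≤ 1 / 100
  sqrt_inv : 1 / (⌈Real.sqrt n⌉₊ : ℝ) ≤ zeta n / 2
  levels_pos : 0 < levels n
  gap : 6 * eta n / thr n ≤ zeta n / levels n
  eta_small : eta n / thr n ≤ zeta n / 4
  eta_pos : 0 < eta n
  tuples : 3 * (⌈Real.sqrt n⌉₊ : ℝ) * Real.log n + 6 ≤ tau n * zeta n / 12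
  foreign : 2 * (tau n * zeta n) + 7 ≤ 10 * n
  pigeon : (n : ℝ) * Real.log n / 500 / levels n ≤ n / 16
  common : 6 * Real.log n + 6 + 4 * (tau n * zeta n) ≤ tau n * sep n ^ 2 / 8
  packing : (n : ℝ) * Real.log n / 500 + 8 * Real.log n + 16 * n + 3 ≤ n * Real.log n / 8
  exp_gap : (n : ℝ) / 8 + 2 ≤ n / 4
  cube : Fmax n ≤ (n : ℝ) ^ 3

lemma sep_sq (n : ℕ) : sep n ^ 2 = (n : ℝ) ^ (-(1 / 4) : ℝ) := by
  rw [sep, ← Real.rpow_natCast, ← Real.rpow_mul (Nat.cast_nonneg n)]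
  norm_num

lemma tau_zeta {n : ℕ} (hn : 0 < n) : tau n * zeta n = slope * (n : ℝ) ^ (5 / 8 : ℝ) := by
  have hn' : (0 : ℝ) < n := by exact_mod_cast hn
  rw [tau, zeta, mul_assoc]
  congr 1
  nth_rewrite 1 [← Real.rpow_one (n : ℝ)]
  rw [← Real.rpow_add hn']
  norm_num

lemma thr_eq {n : ℕ} : thr n = 1000 * (n : ℝ) ^ (1 / 2 : ℝ) := by
  rw [thr, tau, Real.sqrt_mul (by norm_num [slope]), slope, ← Real.sqrt_eq_rpow]
  congr 1
  rw [Real.sqrt_eq_iff_mul_self_eq_of_pos (by norm_num)]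
  norm_num

theorem eventually_large : ∀ᶠ n : ℕ in atTop, Large n := by
  filter_upwards [eventually_ge_atTop 16, ev_rpow_le (c := 2) (show (3 / 8 : ℝ) < 1 / 2 by norm_num),
    ev_rpow_le (c := 1) (show (15 / 32 : ℝ) < 1 / 2 by norm_num),
    ev_log_le (c := 1) (show (0 : ℝ) < 1 / 16 by norm_num),
    ev_rpow_le (c := 100000000) (show (5 / 8 : ℝ) < 1 by norm_num),
    ev_rpow_le (c := 64) (show (5 / 8 : ℝ) < 3 / 4 by norm_num),
    ev_rpow_le (c := 1) (show (0 : ℝ) < 1 / 8 by norm_num),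
    ev_log_le (c := 1) (show (0 : ℝ) < 1 / 8 by norm_num),
    (Real.tendsto_log_atTop.comp tendsto_natCast_atTop_atTop).eventually (eventually_ge_atTop 300),
    ev_rpow_le (c := 100) (show (0 : ℝ) < 3 / 8 by norm_num)]
    with n hn h38 h1532 hlog16 h58 h5834 h18 hlog8 hlog hz
  have hn' : (16 : ℝ) ≤ n := by exact_mod_cast hn
  have hn0 : (0 : ℝ) < n := by linarith
  have hn1 : (1 : ℝ) ≤ n := by linarith
  have hp : ∀ a : ℝ, 0 < (n : ℝ) ^ a := fun a => Real.rpow_pos_of_pos hn0 a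
  have hmul : ∀ a b : ℝ, (n : ℝ) ^ a * (n : ℝ) ^ b = (n : ℝ) ^ (a + b) :=
    fun a b => (Real.rpow_add hn0 a b).symm
  have hzeta : zeta n = ((n : ℝ) ^ (3 / 8 : ℝ))⁻¹ := by rw [zeta, Real.rpow_neg hn0.le]
  have hL : (n : ℝ) ^ (1 / 16 : ℝ) ≤ levels n := Nat.le_ceil _
  have hL' : (levels n : ℝ) ≤ 2 * (n : ℝ) ^ (1 / 16 : ℝ) := by
    have h1 : (1 : ℝ) ≤ (n : ℝ) ^ (1 / 16 : ℝ) := Real.one_le_rpow hn1 (by norm_num)
    have := Nat.ceil_lt_add_one (hp (1 / 16)).le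
    rw [levels]; linarith
  have hm1 : Real.sqrt n ≤ (⌈Real.sqrt n⌉₊ : ℝ) := Nat.le_ceil _
  have hm2 : (⌈Real.sqrt n⌉₊ : ℝ) ≤ 2 * (n : ℝ) ^ (1 / 2 : ℝ) := by
    rw [← Real.sqrt_eq_rpow]
    have := Nat.ceil_lt_add_one (Real.sqrt_nonneg (n : ℝ))
    have h1 : (1 : ℝ) ≤ Real.sqrt n := Real.one_le_sqrt.2 hn1
    linarith
  have e58 : tau n * zeta n = 1000000 * (n : ℝ) ^ (5 / 8 : ℝ) := by
    rw [tau_zeta (by omega), slope]
  simp only [one_mul, Real.rpow_zero, mul_one, Function.comp_apply, Real.rpow_one] at *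
  refine ⟨by omega, by rw [hzeta]; positivity, ?_, ?_, ?_, ?_, ?_, hp _, ?_, ?_, ?_, ?_, ?_, ?_, ?_⟩
  · rw [hzeta, inv_le_comm₀ (hp _) (by norm_num)]; linarith
  · rw [hzeta, div_le_iff₀ (by linarith [Real.sqrt_pos.2 hn0]), inv_eq_one_div, div_div,
      div_mul_eq_mul_div, one_mul, le_div_iff₀ (by positivity)]
    have h1 : (n : ℝ) ^ (1 / 2 : ℝ) = Real.sqrt n := (Real.sqrt_eq_rpow _).symm
    linarith
  · rw [levels]; exact Nat.ceil_pos.2 (hp _)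
  · rw [hzeta, thr_eq, eta, div_le_div_iff₀ (by positivity) (lt_of_lt_of_le (hp _) hL),
      inv_mul_eq_div, le_div_iff₀ (hp _)]
    calc 6 * (n : ℝ) ^ (1 / 32 : ℝ) * (levels n : ℝ) * (n : ℝ) ^ (3 / 8 : ℝ)
        ≤ 6 * (n : ℝ) ^ (1 / 32 : ℝ) * (2 * (n : ℝ) ^ (1 / 16 : ℝ)) * (n : ℝ) ^ (3 / 8 : ℝ) := by
          gcongr
      _ = 12 * ((n : ℝ) ^ (1 / 32 : ℝ) * (n : ℝ) ^ (1 / 16 : ℝ) * (n : ℝ) ^ (3 / 8 : ℝ)) := by ring
      _ = 12 * (n : ℝ) ^ (15 / 32 : ℝ) := by rw [hmul, hmul]; norm_num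
      _ ≤ 1000 * (n : ℝ) ^ (1 / 2 : ℝ) := by linarith [hp (1 / 2)]
  · rw [hzeta, thr_eq, eta, div_le_div_iff₀ (by positivity) (by norm_num),
      inv_mul_eq_div, le_div_iff₀ (hp _)]
    have h1 : (n : ℝ) ^ (1 / 32 : ℝ) * (n : ℝ) ^ (3 / 8 : ℝ) ≤ (n : ℝ) ^ (15 / 32 : ℝ) := by
      rw [hmul]; exact Real.rpow_le_rpow_of_exponent_le hn1 (by norm_num)
    linarith [hp (1 / 2)]
  · rw [e58]
    have h1 : 3 * (⌈Real.sqrt n⌉₊ : ℝ) * Real.log n ≤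
        6 * (n : ℝ) ^ (1 / 2 : ℝ) * (n : ℝ) ^ (1 / 8 : ℝ) :=
      mul_le_mul (by linarith) hlog8 (Real.log_nonneg hn1) (by positivity)
    rw [mul_assoc _ ((n : ℝ) ^ (1 / 2 : ℝ)), hmul,
      show (1 / 2 : ℝ) + 1 / 8 = 5 / 8 by norm_num] at h1
    have h2 : (1 : ℝ) ≤ (n : ℝ) ^ (5 / 8 : ℝ) := Real.one_le_rpow hn1 (by norm_num)
    linarith
  · rw [e58]; linarith [hp (5 / 8)]
  · rw [div_div, div_le_div_iff₀ (by linarith [hp (1 / 16)]) (by norm_num)]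
    have h1 : Real.log n ≤ (levels n : ℝ) := hlog16.trans hL
    have := mul_le_mul_of_nonneg_left h1 hn0.le
    linarith [mul_nonneg hn0.le (Real.log_nonneg hn1)]
  · rw [e58, sep_sq, tau, slope]
    have e : (n : ℝ) * (n : ℝ) ^ (-(1 / 4) : ℝ) = (n : ℝ) ^ (3 / 4 : ℝ) := by
      nth_rewrite 1 [← Real.rpow_one (n : ℝ)]
      rw [hmul]; norm_num
    have h2 : (n : ℝ) ^ (1 / 8 : ℝ) ≤ (n : ℝ) ^ (5 / 8 : ℝ) :=
      Real.rpow_le_rpow_of_exponent_le hn1 (by norm_num)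
    have h3 : (1 : ℝ) ≤ (n : ℝ) ^ (5 / 8 : ℝ) := Real.one_le_rpow hn1 (by norm_num)
    rw [mul_assoc, e]
    linarith
  · have h2 : Real.log n ≤ n := Real.log_le_self hn0.le
    have h1 : 300 * (n : ℝ) ≤ Real.log n * n := mul_le_mul_of_nonneg_right hlog hn0.le
    linarith
  · linarith
  · have h1 : Real.log n ≤ n := Real.log_le_self hn0.le
    have h2 : 0 ≤ Real.log n := Real.log_nonneg hn1
    rw [Fmax, slope, div_le_iff₀ (by norm_num)]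
    nlinarith [mul_le_mul_of_nonneg_left h1 hn0.le, pow_pos hn0 3,
      mul_le_mul_of_nonneg_left hn1 (mul_nonneg hn0.le hn0.le)]

end Vale.Agent.P230
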