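import Vale.Agent.P230.Average
import Vale.Agent.P230.Numeric

/-!
# P230: the composed kernel and the window it selects
-/

open scoped ENNReal RealInnerProductSpace Topology
open MeasureTheory Metric Set Filter

namespace Vale.Agent.P230

variable {n : ℕ}

/-- The rounding length. -/
noncomputable def xi (n : ℕ) : ℝ := 1 / (n : ℝ) ^ 2

lemma xi_nonneg (n : ℕ) : 0 ≤ xi n := by unfold xi; positivity

lemma measurable_indicator_ball (r : ℝ) (c : ℝ≥0∞) :
    Measurable ((closedBall (0 : E n) r).indicator fun _ => c) :=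
  measurable_const.indicator measurableSet_closedBall

/-- Kernel of the centres relevant to a window. -/
noncomputable def kA (n : ℕ) : E n → ℝ≥0∞ :=
  (closedBall 0 (5 / 4)).indicator fun _ => ENNReal.ofReal (1 / Nmax n)

/-- Kernel of the centres relevant to a subwindow. -/
noncomputable def kK (n : ℕ) : E n → ℝ≥0∞ :=
  (closedBall 0 (1 + small + xi n)).indicator fun _ => ENNReal.ofReal (1 / Kmax n)

/-- Kernel of the cost of a test point. -/
noncomputable def kC (n : ℕ) : E n → ℝ≥0∞ :=
  (closedBall 0 (1 + xi n)).indicator fun z =>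
    ENNReal.ofReal ((1 + n * (1 + xi n - ‖z‖)) / Fmax n)

/-- Kernel of the deep translates. -/
noncomputable def kD (n : ℕ) : E n → ℝ≥0∞ :=
  (closedBall 0 (1 - zeta n / 8 + xi n)).indicator fun _ => 1

lemma measurable_kC (n : ℕ) : Measurable (kC n) :=
  (Measurable.indicator (by fun_prop) measurableSet_closedBall)

/-- The kernel of a test point seen from a subwindow centre. -/
noncomputable def inner' (n : ℕ) (z : E n) : ℝ≥0∞ :=
  kK n z + (volume (closedBall (0 : E n) small))⁻¹ *
    ∫⁻ u in closedBall (0 : E n) small, (kC n (z - u) + kD n (z - u))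

/-- The composed kernel. -/
noncomputable def kernel (n : ℕ) (z : E n) : ℝ≥0∞ :=
  kA n z + (volume (closedBall (0 : E n) wide))⁻¹ *
    ∫⁻ v in closedBall (0 : E n) wide, inner' n (z - v)

lemma measurable_inner' (n : ℕ) : Measurable (inner' n) := by
  refine (measurable_indicator_ball _ _).add (measurable_const.mul ?_)
  exact Measurable.lintegral_prod_right (f := fun z u => kC n (z - u) + kD n (z - u))
    (((measurable_kC n).comp (measurable_fst.sub measurable_snd)).add
      ((measurable_indicator_ball _ _).comp (measurable_fst.sub measurable_snd)))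

lemma measurable_kernel (n : ℕ) : Measurable (kernel n) := by
  refine (measurable_indicator_ball _ _).add (measurable_const.mul ?_)
  exact Measurable.lintegral_prod_right (f := fun z v => inner' n (z - v))
    ((measurable_inner' n).comp (measurable_fst.sub measurable_snd))

lemma lintegral_average {h : E n → ℝ≥0∞} (hh : Measurable h) (S : Set (E n)) :
    ∫⁻ z, ∫⁻ u in S, h (z - u) = volume S * ∫⁻ z, h z := by
  rw [lintegral_lintegral_swap (f := fun z u => h (z - u))
    (hh.comp (measurable_fst.sub measurable_snd)).aemeasurable]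
  simp [lintegral_sub_right_eq_self, mul_comm]

lemma inv_mul_average {S : Set (E n)} (h0 : volume S ≠ 0) (h1 : volume S ≠ ⊤) (a : ℝ≥0∞) :
    (volume S)⁻¹ * (volume S * a) = a := by
  rw [← mul_assoc, ENNReal.inv_mul_cancel h0 h1, one_mul]

lemma volume_ball_ne {r : ℝ} (hr : 0 < r) :
    volume (closedBall (0 : E n) r) ≠ 0 ∧ volume (closedBall (0 : E n) r) ≠ ⊤ :=
  ⟨(measure_closedBall_pos volume _ hr).ne', measure_closedBall_lt_top.ne⟩

lemma lintegral_kernel (n : ℕ) :
    ∫⁻ z, kernel n z = (∫⁻ z, kA n z) + ((∫⁻ z, kK n z) +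
      ((∫⁻ z, kC n z) + ∫⁻ z, kD n z)) := by
  have hw := volume_ball_ne (n := n) (show 0 < wide by norm_num [wide])
  have hs := volume_ball_ne (n := n) (show 0 < small by norm_num [small])
  simp only [kernel]
  have mA : Measurable (kA n) := measurable_indicator_ball _ _
  have mK : Measurable (kK n) := measurable_indicator_ball _ _
  have mD : Measurable (kD n) := measurable_indicator_ball _ _
  rw [lintegral_add_left mA,
    lintegral_const_mul' _ _ (ENNReal.inv_ne_top.2 hw.1), lintegral_average (measurable_inner' n),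
    inv_mul_average hw.1 hw.2]
  simp only [inner']
  rw [lintegral_add_left mK, lintegral_const_mul' _ _ (ENNReal.inv_ne_top.2 hs.1),
    lintegral_average (h := fun z => kC n z + kD n z) ((measurable_kC n).add mD),
    inv_mul_average hs.1 hs.2, lintegral_add_left (measurable_kC n)]

lemma volume_ball_scale (hn : 0 < n) {r : ℝ} (hr : 0 ≤ r) :
    volume (closedBall (0 : E n) r) = ENNReal.ofReal (r ^ n) * volume (closedBall (0 : E n) 1) := by
  have : Nontrivial (E n) := by
    have := Fin.pos_iff_nonempty.1 hn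
    infer_instance
  rw [Measure.addHaar_closedBall' volume (0 : E n) hr, finrank_euclideanSpace_fin]

lemma lintegral_kA (hn : 0 < n) :
    ∫⁻ z, kA n z = ENNReal.ofReal ((5 / 4) ^ n / Nmax n) * volume (closedBall (0 : E n) 1) := by
  rw [kA, lintegral_indicator measurableSet_closedBall, setLIntegral_const,
    volume_ball_scale hn (by norm_num), ← mul_assoc, ← ENNReal.ofReal_mul (by positivity)]
  congr 2
  ring

lemma lintegral_kK (hn : 0 < n) :
    ∫⁻ z, kK n z =
      ENNReal.ofReal ((1 + small + xi n) ^ n / Kmax n) * volume (closedBall (0 : E n) 1) := by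
  have h0 : (0 : ℝ) ≤ 1 + small + xi n := by
    have := xi_nonneg n; unfold small; linarith
  have hK : 0 ≤ Kmax n := by unfold Kmax small; positivity
  rw [kK, lintegral_indicator measurableSet_closedBall, setLIntegral_const,
    volume_ball_scale hn h0, ← mul_assoc, ← ENNReal.ofReal_mul (by positivity)]
  congr 2
  ring

lemma lintegral_kD (hn : 0 < n) (h0 : 0 ≤ 1 - zeta n / 8 + xi n) :
    ∫⁻ z, kD n z =
      ENNReal.ofReal ((1 - zeta n / 8 + xi n) ^ n) * volume (closedBall (0 : E n) 1) := by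
  rw [kD, lintegral_indicator measurableSet_closedBall, setLIntegral_const, one_mul,
    volume_ball_scale hn h0]

lemma lintegral_kC_le (hn : 0 < n) (hF : 0 < Fmax n) (hR : 1 + xi n ≤ 2) :
    ∫⁻ z, kC n z ≤
      ENNReal.ofReal (4 * (1 + xi n) ^ n / Fmax n) * volume (closedBall (0 : E n) 1) := by
  set R := 1 + xi n with hRdef
  have hR0 : 1 ≤ R := by linarith [xi_nonneg n]
  set M := ⌊(n : ℝ) * R⌋₊ + 1 with hM
  set r : ℕ → ℝ := fun k => max (R - k / n) 0
  have hpt : ∀ z, kC n z ≤ ENNReal.ofReal (1 / Fmax n) *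
      ((closedBall (0 : E n) R).indicator (fun _ => 1) z + ∑ k ∈ Finset.range M,
        (closedBall (0 : E n) (r k)).indicator (fun _ => 1) z) := by
    intro z
    by_cases hz : z ∈ closedBall (0 : E n) R
    swap
    · simp [kC, hRdef ▸ hz]
    have hz' : ‖z‖ ≤ R := mem_closedBall_zero_iff.1 hz
    rw [kC, indicator_of_mem hz, indicator_of_mem hz]
    set y := (n : ℝ) * (R - ‖z‖) with hy
    have hy0 : 0 ≤ y := mul_nonneg (by positivity) (by linarith)
    have hsum : ENNReal.ofReal y ≤ ∑ k ∈ Finset.range M,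
        (closedBall (0 : E n) (r k)).indicator (fun _ => (1 : ℝ≥0∞)) z := by
      have hsub : Finset.range (⌊y⌋₊ + 1) ⊆ Finset.range M := by
        refine Finset.range_subset_range.2 (Nat.succ_le_succ (Nat.floor_mono ?_))
        rw [hy]; exact mul_le_mul_of_nonneg_left (by linarith [norm_nonneg z]) (by positivity)
      refine le_trans ?_ (Finset.sum_le_sum_of_subset hsub)
      have hmem : ∀ k ∈ Finset.range (⌊y⌋₊ + 1), z ∈ closedBall (0 : E n) (r k) := by
        intro k hk
        have h1 : (k : ℝ) ≤ y :=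
          (Nat.le_floor_iff hy0).1 (Nat.lt_succ_iff.1 (Finset.mem_range.1 hk))
        rw [mem_closedBall_zero_iff]
        refine le_trans ?_ (le_max_left _ _)
        have : (k : ℝ) / n ≤ R - ‖z‖ := by
          rw [div_le_iff₀ (by exact_mod_cast hn)]; linarith [hy]
        linarith
      rw [Finset.sum_congr rfl fun k hk => indicator_of_mem (hmem k hk) _, Finset.sum_const,
        Finset.card_range, nsmul_eq_mul, mul_one, ← ENNReal.ofReal_natCast]
      exact ENNReal.ofReal_le_ofReal (by push_cast; exact (Nat.lt_floor_add_one y).le)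
    refine le_trans ?_ (mul_le_mul_right (add_le_add le_rfl hsum) _)
    rw [← ENNReal.ofReal_one, ← ENNReal.ofReal_add zero_le_one hy0,
      ← ENNReal.ofReal_mul (by positivity)]
    exact ENNReal.ofReal_le_ofReal (le_of_eq (by rw [hy]; ring))
  refine (lintegral_mono hpt).trans ?_
  rw [lintegral_const_mul' _ _ ENNReal.ofReal_ne_top,
    lintegral_add_left (measurable_indicator_ball R 1),
    lintegral_finsetSum _ fun k _ => measurable_indicator_ball (r k) 1]
  simp only [lintegral_indicator measurableSet_closedBall, setLIntegral_const, one_mul]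
  rw [volume_ball_scale hn (show (0 : ℝ) ≤ R by linarith),
    Finset.sum_congr rfl fun k _ => volume_ball_scale hn (r := r k) (le_max_right _ _),
    ← Finset.sum_mul, ← ENNReal.ofReal_sum_of_nonneg
      (fun k (_ : k ∈ Finset.range M) => pow_nonneg (le_max_right (R - (k : ℝ) / n) 0) n)]
  rw [← add_mul, ← mul_assoc, ← ENNReal.ofReal_add (by positivity)
      (Finset.sum_nonneg fun k _ => pow_nonneg (le_max_right _ _) n),
    ← ENNReal.ofReal_mul (by positivity)]
  refine mul_le_mul_left (ENNReal.ofReal_le_ofReal ?_) _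
  have hgeo : ∑ k ∈ Finset.range M, r k ^ n ≤ R ^ n * 3 := by
    have hterm : ∀ k : ℕ, r k ^ n ≤ R ^ n * Real.exp (-(1 / 2)) ^ k := by
      intro k
      have h1 : r k ≤ R * Real.exp (-((k : ℝ) / n / 2)) := by
        refine max_le ?_ (by positivity)
        have h2 := Real.add_one_le_exp (-((k : ℝ) / n / 2))
        have h3 : R * ((k : ℝ) / n / 2) ≤ k / n := by
          have : (0 : ℝ) ≤ (k : ℝ) / n / 2 := by positivity
          nlinarith
        nlinarith [mul_le_mul_of_nonneg_left h2 (show (0 : ℝ) ≤ R by linarith)]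
      calc r k ^ n ≤ (R * Real.exp (-((k : ℝ) / n / 2))) ^ n :=
            pow_le_pow_left₀ (le_max_right _ _) h1 n
        _ = _ := by
            rw [mul_pow, ← Real.exp_nat_mul, ← Real.exp_nat_mul]
            congr 2
            field_simp
    refine (Finset.sum_le_sum fun k _ => hterm k).trans ?_
    rw [← Finset.mul_sum]
    refine mul_le_mul_of_nonneg_left ?_ (by positivity)
    have he : Real.exp (-(1 / 2)) ≤ 2 / 3 := by
      rw [Real.exp_neg, inv_le_comm₀ (Real.exp_pos _) (by norm_num)]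
      linarith [Real.add_one_le_exp (1 / 2 : ℝ)]
    refine (Finset.sum_le_sum fun k _ => pow_le_pow_left₀ (Real.exp_pos _).le he k).trans ?_
    have : (∑ k ∈ Finset.range M, (2 / 3 : ℝ) ^ k) * (2 / 3 - 1) = (2 / 3) ^ M - 1 := geom_sum_mul _ _
    nlinarith [pow_nonneg (show (0 : ℝ) ≤ 2 / 3 by norm_num) M]
  rw [div_mul_eq_mul_div, one_mul, div_le_div_iff_of_pos_right hF]
  linarith

/-- The constant of the density bound. -/
noncomputable def cst : ℝ := 1 / (10000000 * slope)

/-- The scaled count is below `6 cst n log n` per volume of the unit ball. -/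
noncomputable def rho (n : ℕ) : ℝ≥0∞ :=
  ENNReal.ofReal (6 * cst * n * Real.log n) / volume (closedBall (0 : E n) 1)

/-- The parameters needed for the averaging. -/
structure Fine (n : ℕ) : Prop where
  n_two : 2 ≤ n
  xi_small : xi n ≤ small
  xi_zeta : xi n ≤ zeta n / 16
  zeta_le : zeta n ≤ 1
  pol : (n : ℝ) ^ 2 / (n : ℝ) ^ 4 ≤ 1 / 100
  deep : (n : ℝ) ^ 2 * Real.exp (-((n : ℝ) ^ (5 / 8 : ℝ) / 16)) ≤ 1 / 100
  Fpos : 0 < Fmax n

theorem eventually_fine : ∀ᶠ n : ℕ in atTop, Fine n := by
  have ht : Tendsto (fun n : ℕ => (n : ℝ)) atTop atTop := tendsto_natCast_atTop_atTop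
  filter_upwards [eventually_ge_atTop 2, ht.eventually_ge_atTop 1000000,
    ev_rpow_le (c := 16) (show (3 / 8 : ℝ) < 2 by norm_num),
    ev_log_le (c := 48) (show (0 : ℝ) < 5 / 8 by norm_num)] with n h2 h100 hz hlog
  have hn : (0 : ℝ) < n := by linarith
  refine ⟨h2, ?_, ?_, ?_, ?_, ?_, ?_⟩
  · unfold xi small
    rw [div_le_div_iff₀ (by positivity) (by norm_num)]
    nlinarith
  · unfold xi zeta
    rw [Real.rpow_neg hn.le, div_le_iff₀ (by positivity)]
    rw [show ((n : ℝ) ^ (3 / 8 : ℝ))⁻¹ / 16 * (n : ℝ) ^ 2 =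
      (n : ℝ) ^ 2 / (16 * (n : ℝ) ^ (3 / 8 : ℝ)) by field_simp, le_div_iff₀ (by positivity), one_mul]
    calc 16 * (n : ℝ) ^ (3 / 8 : ℝ) ≤ (n : ℝ) ^ (2 : ℝ) := hz
      _ = _ := Real.rpow_two _
  · exact Real.rpow_le_one_of_one_le_of_nonpos (by linarith) (by norm_num)
  · rw [div_le_iff₀ (by positivity)]
    have h3 : (100 : ℝ) ≤ (n : ℝ) ^ 2 := by nlinarith
    nlinarith [mul_le_mul_of_nonneg_left h3 (sq_nonneg (n : ℝ))]
  · have h1 : (n : ℝ) ^ 2 * Real.exp (-((n : ℝ) ^ (5 / 8 : ℝ) / 16)) ≤
        (n : ℝ) ^ 2 * Real.exp (-(3 * Real.log n)) := by gcongr; linarith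
    refine h1.trans ?_
    rw [Real.exp_neg, show (3 : ℝ) * Real.log n = Real.log ((n : ℝ) ^ 3) by
      rw [Real.log_pow]; norm_num, Real.exp_log (by positivity), ← div_eq_mul_inv,
      div_le_iff₀ (by positivity)]
    nlinarith [pow_pos hn 2]
  · unfold Fmax slope
    have := Real.log_pos (show (1 : ℝ) < n by linarith)
    positivity

lemma kernel_small (h : Fine n) : 3 * (rho n * ∫⁻ z, kernel n z) < ENNReal.ofReal (1 / 4) := by
  have hn : 0 < n := by linarith [h.n_two]
  have hn' : (0 : ℝ) < n := by exact_mod_cast hn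
  have hζ : 0 < zeta n := Real.rpow_pos_of_pos hn' _
  set V := volume (closedBall (0 : E n) 1)
  have hV := volume_ball_ne (n := n) zero_lt_one
  set Λ := 6 * cst * n * Real.log n with hΛ
  have hΛ0 : 0 ≤ Λ := by
    have := Real.log_natCast_nonneg n
    have h6 : (0 : ℝ) ≤ 6 * cst := by norm_num [cst, slope]
    exact mul_nonneg (mul_nonneg h6 hn'.le) this
  have hΛn : Λ ≤ (n : ℝ) ^ 2 := by
    have h1 := Real.log_le_sub_one_of_pos hn'
    have h2 : 6 * cst ≤ 1 := by norm_num [cst, slope]
    have h3 : Real.log n ≤ n := by linarith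
    calc Λ = (6 * cst) * n * Real.log n := hΛ
      _ ≤ 1 * n * n := by
          refine mul_le_mul (mul_le_mul_of_nonneg_right h2 hn'.le) h3
            (Real.log_natCast_nonneg n) (by positivity)
      _ = _ := by ring
  have hN : (n : ℝ) ^ 4 * (5 / 4) ^ n ≤ Nmax n := Nat.le_ceil _
  have hR0 : (0 : ℝ) ≤ 1 - zeta n / 8 + xi n := by linarith [h.zeta_le, xi_nonneg n]
  have hR2 : 1 + xi n ≤ 2 := by
    have := h.xi_small; unfold small at this; linarith
  have hKpos : 0 < Kmax n := by unfold Kmax small; positivity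
  have b1 : (5 / 4 : ℝ) ^ n / Nmax n * Λ ≤ 1 / 100 := by
    refine le_trans ?_ h.pol
    rw [div_mul_eq_mul_div, div_le_div_iff₀ (lt_of_lt_of_le (by positivity) hN) (by positivity)]
    calc (5 / 4 : ℝ) ^ n * Λ * (n : ℝ) ^ 4 = Λ * ((n : ℝ) ^ 4 * (5 / 4) ^ n) := by ring
      _ ≤ (n : ℝ) ^ 2 * Nmax n := mul_le_mul hΛn hN (by positivity) (by positivity)
  have b2 : (1 + small + xi n) ^ n / Kmax n * Λ ≤ 1 / 100 := by
    refine le_trans ?_ h.pol
    have hp : (1 + small + xi n) ^ n ≤ (1 + 2 * small) ^ n :=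
      pow_le_pow_left₀ (by have := xi_nonneg n; unfold small; linarith)
        (by linarith [h.xi_small]) n
    rw [div_mul_eq_mul_div, div_le_div_iff₀ hKpos (by positivity)]
    calc (1 + small + xi n) ^ n * Λ * (n : ℝ) ^ 4
        ≤ (1 + 2 * small) ^ n * Λ * (n : ℝ) ^ 4 := by gcongr
      _ = Λ * Kmax n := by unfold Kmax; ring
      _ ≤ (n : ℝ) ^ 2 * Kmax n := mul_le_mul_of_nonneg_right hΛn hKpos.le
  have b3 : (1 - zeta n / 8 + xi n) ^ n * Λ ≤ 1 / 100 := by
    refine le_trans ?_ h.deep
    rw [mul_comm]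
    refine mul_le_mul hΛn ?_ (pow_nonneg hR0 n) (by positivity)
    refine (pow_le_pow_left₀ hR0 (show _ ≤ Real.exp (-(zeta n / 16)) by
      linarith [Real.add_one_le_exp (-(zeta n / 16)), h.xi_zeta]) n).trans (le_of_eq ?_)
    rw [← Real.exp_nat_mul]
    congr 1
    rw [show (5 / 8 : ℝ) = 1 + -(3 / 8) by norm_num, Real.rpow_add hn', Real.rpow_one, zeta]
    ring
  have b4 : 4 * (1 + xi n) ^ n / Fmax n * Λ ≤ 1 / 100 := by
    have h1 : (1 + xi n) ^ n ≤ 3 := by
      refine (pow_le_pow_left₀ (by linarith [xi_nonneg n])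
        (show _ ≤ Real.exp (xi n) by linarith [Real.add_one_le_exp (xi n)]) n).trans ?_
      rw [← Real.exp_nat_mul]
      refine le_trans (Real.exp_le_exp.2 ?_) (Real.exp_one_lt_d9.le.trans (by norm_num))
      unfold xi
      rw [mul_one_div, div_le_one (by positivity)]
      nlinarith [show (1 : ℝ) ≤ n by exact_mod_cast hn]
    have hlog : 0 < Real.log n := Real.log_pos (by exact_mod_cast h.n_two)
    have e : 4 * (1 + xi n) ^ n / Fmax n * Λ = (1 + xi n) ^ n * (24000 * slope * cst) := by
      rw [hΛ]; unfold Fmax slope; field_simp; ring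
    rw [e]
    refine (mul_le_mul_of_nonneg_right h1 (by unfold cst slope; positivity)).trans ?_
    norm_num [cst, slope]
  have key : ∀ a : ℝ, 0 ≤ a →
      rho n * (ENNReal.ofReal a * V) = ENNReal.ofReal (a * Λ) := by
    intro a ha
    rw [rho, mul_comm (ENNReal.ofReal a), ← mul_assoc, ENNReal.div_mul_cancel hV.1 hV.2,
      ← ENNReal.ofReal_mul hΛ0, mul_comm Λ]
  have htot : rho n * ∫⁻ z, kernel n z ≤ ENNReal.ofReal (4 / 100) := by
    rw [lintegral_kernel, lintegral_kA hn, lintegral_kK hn, lintegral_kD hn hR0]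
    have hF := h.Fpos
    have hx := xi_nonneg n
    have hpA : (0 : ℝ) ≤ (5 / 4) ^ n / Nmax n := by positivity
    have hpK : (0 : ℝ) ≤ (1 + small + xi n) ^ n / Kmax n :=
      div_nonneg (pow_nonneg (by unfold small; linarith) n) hKpos.le
    have hpC : (0 : ℝ) ≤ 4 * (1 + xi n) ^ n / Fmax n := by positivity
    have hpD : (0 : ℝ) ≤ (1 - zeta n / 8 + xi n) ^ n := pow_nonneg hR0 n
    refine (mul_le_mul_right (add_le_add le_rfl (add_le_add le_rfl
      (add_le_add (lintegral_kC_le hn hF hR2) le_rfl))) _).trans ?_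
    simp only [mul_add]
    rw [key _ hpA, key _ hpK, key _ hpC, key _ hpD,
      ← ENNReal.ofReal_add (mul_nonneg hpC hΛ0) (mul_nonneg hpD hΛ0),
      ← ENNReal.ofReal_add (mul_nonneg hpK hΛ0) (by positivity),
      ← ENNReal.ofReal_add (mul_nonneg hpA hΛ0) (by positivity)]
    exact ENNReal.ofReal_le_ofReal (by linarith)
  refine lt_of_le_of_lt (mul_le_mul_right htot _) ?_
  rw [show (3 : ℝ≥0∞) = ENNReal.ofReal 3 by norm_num, ← ENNReal.ofReal_mul (by norm_num)]
  exact (ENNReal.ofReal_lt_ofReal_iff (by norm_num)).2 (by norm_num)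

end Vale.Agent.P230
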