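import Vale.Agent.P230.Defs

/-!
# P230: the finite product measure

Independence on disjoint sets of coordinates, the Harris inequality and the correlation bound for
two events of the form: each of several sets of coordinates is hit.
-/

open scoped BigOperators

namespace Vale.Agent.P230

variable {m : ℕ} {q : Fin m → ℝ} {κ : Type*}

/-- The weight of an outcome. -/
def wt (q : Fin m → ℝ) (ω : Fin m → Bool) : ℝ := ∏ i, if ω i = true then q i else 1 - q i

open scoped Classical in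
lemma pr_eq (q : Fin m → ℝ) (S : Set (Fin m → Bool)) :
    pr q S = ∑ ω, if ω ∈ S then wt q ω else 0 := rfl

lemma wt_nonneg (h0 : ∀ i, 0 ≤ q i) (h1 : ∀ i, q i ≤ 1) (ω : Fin m → Bool) : 0 ≤ wt q ω :=
  Finset.prod_nonneg fun i _ => by split_ifs <;> linarith [h0 i, h1 i]

lemma sum_wt (q : Fin m → ℝ) : ∑ ω, wt q ω = 1 := by
  unfold wt
  rw [← Fintype.prod_sum (f := fun i (b : Bool) => if b = true then q i else 1 - q i)]
  simp

lemma pr_univ (q : Fin m → ℝ) : pr q Set.univ = 1 := by simp [pr_eq, sum_wt]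

lemma pr_nonneg (h0 : ∀ i, 0 ≤ q i) (h1 : ∀ i, q i ≤ 1) (S : Set (Fin m → Bool)) :
    0 ≤ pr q S := by
  classical
  rw [pr_eq]
  exact Finset.sum_nonneg fun ω _ => by split_ifs <;> simp [wt_nonneg h0 h1]

lemma pr_mono (h0 : ∀ i, 0 ≤ q i) (h1 : ∀ i, q i ≤ 1) {S T : Set (Fin m → Bool)} (h : S ⊆ T) :
    pr q S ≤ pr q T := by
  classical
  rw [pr_eq, pr_eq]
  refine Finset.sum_le_sum fun ω _ => ?_
  by_cases hS : ω ∈ S
  · rw [if_pos hS, if_pos (h hS)]
  · rw [if_neg hS]; split_ifs <;> simp [wt_nonneg h0 h1]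

lemma pr_le_one (h0 : ∀ i, 0 ≤ q i) (h1 : ∀ i, q i ≤ 1) (S : Set (Fin m → Bool)) : pr q S ≤ 1 :=
  (pr_mono h0 h1 (Set.subset_univ S)).trans (pr_univ q).le

lemma pr_compl (q : Fin m → ℝ) (S : Set (Fin m → Bool)) : pr q Sᶜ = 1 - pr q S := by
  classical
  rw [← sum_wt q, pr_eq, pr_eq, ← Finset.sum_sub_distrib]
  refine Finset.sum_congr rfl fun ω _ => ?_
  by_cases h : ω ∈ S <;> simp [h]

lemma pr_biUnion_le (h0 : ∀ i, 0 ≤ q i) (h1 : ∀ i, q i ≤ 1) {α : Type*} (s : Finset α)
    (f : α → Set (Fin m → Bool)) : pr q (⋃ a ∈ s, f a) ≤ ∑ a ∈ s, pr q (f a) := by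
  classical
  simp only [pr_eq]
  rw [Finset.sum_comm]
  refine Finset.sum_le_sum fun ω _ => ?_
  by_cases h : ω ∈ ⋃ a ∈ s, f a
  · obtain ⟨a, ha, hω⟩ : ∃ a ∈ s, ω ∈ f a := by simpa using h
    rw [if_pos h]
    refine le_trans (le_of_eq (if_pos hω).symm) (Finset.single_le_sum (f := fun b =>
      if ω ∈ f b then wt q ω else 0) (fun b _ => ?_) ha)
    split_ifs <;> simp [wt_nonneg h0 h1]
  · rw [if_neg h]
    exact Finset.sum_nonneg fun b _ => by split_ifs <;> simp [wt_nonneg h0 h1]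

/-! ## Independence -/

/-- The event is decided by the coordinates in `A`. -/
def DependsOnly (S : Set (Fin m → Bool)) (A : Finset (Fin m)) : Prop :=
  ∀ ω ω' : Fin m → Bool, (∀ i ∈ A, ω i = ω' i) → ω ∈ S → ω' ∈ S

lemma DependsOnly.mono {S : Set (Fin m → Bool)} {A B : Finset (Fin m)} (h : DependsOnly S A)
    (hAB : A ⊆ B) : DependsOnly S B := fun ω ω' h' => h ω ω' fun i hi => h' i (hAB hi)

lemma DependsOnly.inter {S T : Set (Fin m → Bool)} {A B : Finset (Fin m)} (h : DependsOnly S A)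
    (h' : DependsOnly T B) : DependsOnly (S ∩ T) (A ∪ B) := fun ω ω' e hω =>
  ⟨h ω ω' (fun i hi => e i (Finset.mem_union_left _ hi)) hω.1,
    h' ω ω' (fun i hi => e i (Finset.mem_union_right _ hi)) hω.2⟩

lemma DependsOnly.compl {S : Set (Fin m → Bool)} {A : Finset (Fin m)} (h : DependsOnly S A) :
    DependsOnly Sᶜ A := fun ω ω' e hω hω' => hω (h ω' ω (fun i hi => (e i hi).symm) hω')

/-- Events on disjoint sets of coordinates are independent. -/
theorem pr_inter_indep (q : Fin m → ℝ) {S T : Set (Fin m → Bool)} {A B : Finset (Fin m)}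
    (hS : DependsOnly S A) (hT : DependsOnly T B) (hAB : Disjoint A B) :
    pr q (S ∩ T) = pr q S * pr q T := by
  classical
  set e := (Equiv.piEquivPiSubtypeProd (fun i => i ∈ A) (fun _ : Fin m => Bool)).symm
  set u : ({i // i ∈ A} → Bool) → ℝ := fun α => ∏ i, if α i = true then q i else 1 - q i
  set u' : ({i // i ∉ A} → Bool) → ℝ := fun β => ∏ i, if β i = true then q i else 1 - q i
  have hcoord : ∀ α β, ∀ i (hi : i ∈ A), e (α, β) i = α ⟨i, hi⟩ := fun α β i hi => by
    simp [e, hi]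
  have hcoord' : ∀ α β, ∀ i (hi : i ∉ A), e (α, β) i = β ⟨i, hi⟩ := fun α β i hi => by
    simp [e, hi]
  have hwt : ∀ α β, wt q (e (α, β)) = u α * u' β := fun α β => by
    unfold wt
    rw [← Fintype.prod_subtype_mul_prod_subtype (fun i => i ∈ A)]
    refine congrArg₂ (· * ·) ?_ ?_
    · exact Finset.prod_congr (by ext; simp) fun i _ => by rw [hcoord α β i i.2]
    · exact Finset.prod_congr (by ext; simp) fun i _ => by rw [hcoord' α β i i.2]
  set α₀ : {i // i ∈ A} → Bool := fun _ => false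
  set β₀ : {i // i ∉ A} → Bool := fun _ => false
  have hSα : ∀ α β, e (α, β) ∈ S ↔ e (α, β₀) ∈ S := fun α β =>
    ⟨hS _ _ fun i hi => by rw [hcoord α β i hi, hcoord α β₀ i hi],
     hS _ _ fun i hi => by rw [hcoord α β i hi, hcoord α β₀ i hi]⟩
  have hTβ : ∀ α β, e (α, β) ∈ T ↔ e (α₀, β) ∈ T := fun α β => by
    have hi : ∀ i ∈ B, i ∉ A := fun i hi => Finset.disjoint_right.1 hAB hi
    exact ⟨hT _ _ fun i h => by rw [hcoord' α β i (hi i h), hcoord' α₀ β i (hi i h)],
      hT _ _ fun i h => by rw [hcoord' α β i (hi i h), hcoord' α₀ β i (hi i h)]⟩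
  have key : ∀ (f : ({i // i ∈ A} → Bool) → ℝ) (g : ({i // i ∉ A} → Bool) → ℝ)
      (X : Set (Fin m → Bool)), (∀ α β, (if e (α, β) ∈ X then wt q (e (α, β)) else 0) = f α * g β) →
      pr q X = (∑ α, f α) * ∑ β, g β := by
    intro f g X h
    rw [pr_eq, ← e.sum_comp, Fintype.sum_prod_type, Finset.sum_mul_sum]
    exact Finset.sum_congr rfl fun α _ => Finset.sum_congr rfl fun β _ => h α β
  have h1 := key u u' Set.univ fun α β => by simp [hwt]
  rw [pr_univ] at h1
  rw [key (fun α => if e (α, β₀) ∈ S then u α else 0) (fun β => if e (α₀, β) ∈ T then u' β else 0)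
      (S ∩ T) fun α β => by
        simp only [Set.mem_inter_iff, hSα α β, hTβ α β, hwt]
        split_ifs <;> simp_all,
    key (fun α => if e (α, β₀) ∈ S then u α else 0) u' S fun α β => by
        simp only [hSα α β, hwt]; split_ifs <;> simp,
    key u (fun β => if e (α₀, β) ∈ T then u' β else 0) T fun α β => by
        simp only [hTβ α β, hwt]; split_ifs <;> simp]
  linear_combination
    ((∑ α, if e (α, β₀) ∈ S then u α else 0) * ∑ β, if e (α₀, β) ∈ T then u' β else 0) * h1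

/-- Finitely many events on disjoint sets of coordinates are independent. -/
theorem pr_iInter_indep (q : Fin m → ℝ) {α : Type*} [DecidableEq α] (s : Finset α)
    (S : α → Set (Fin m → Bool)) (A : α → Finset (Fin m)) (hS : ∀ a ∈ s, DependsOnly (S a) (A a))
    (hdisj : ∀ a ∈ s, ∀ b ∈ s, a ≠ b → Disjoint (A a) (A b)) :
    pr q (⋂ a ∈ s, S a) = ∏ a ∈ s, pr q (S a) ∧
      DependsOnly (⋂ a ∈ s, S a) (s.biUnion A) := by
  induction s using Finset.induction with
  | empty => exact ⟨by simp [pr_univ], fun ω ω' _ _ => by simp⟩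
  | insert a s ha ih =>
    obtain ⟨h1, h2⟩ := ih (fun b hb => hS b (Finset.mem_insert_of_mem hb))
      (fun b hb c hc => hdisj b (Finset.mem_insert_of_mem hb) c (Finset.mem_insert_of_mem hc))
    rw [Finset.set_biInter_insert, Finset.biUnion_insert]
    have hd : Disjoint (A a) (s.biUnion A) := Finset.disjoint_biUnion_right _ _ _ |>.2
      fun b hb => hdisj a (Finset.mem_insert_self a s) b (Finset.mem_insert_of_mem hb)
        fun h => ha (h ▸ hb)
    exact ⟨by rw [pr_inter_indep q (hS a (Finset.mem_insert_self a s)) h2 hd, h1,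
      Finset.prod_insert ha], (hS a (Finset.mem_insert_self a s)).inter h2⟩

/-- If none of the independent events happens, the probability is small. -/
theorem pr_none_le (h0 : ∀ i, 0 ≤ q i) (h1 : ∀ i, q i ≤ 1) {α : Type*} [DecidableEq α]
    (s : Finset α) (S : α → Set (Fin m → Bool)) (A : α → Finset (Fin m))
    (hS : ∀ a ∈ s, DependsOnly (S a) (A a))
    (hdisj : ∀ a ∈ s, ∀ b ∈ s, a ≠ b → Disjoint (A a) (A b)) {p : ℝ}
    (hp : ∀ a ∈ s, p ≤ pr q (S a)) :
    pr q (⋂ a ∈ s, (S a)ᶜ) ≤ Real.exp (-(s.card * p)) := by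
  rw [(pr_iInter_indep q s (fun a => (S a)ᶜ) A (fun a ha => (hS a ha).compl) hdisj).1]
  have e : Real.exp (-(s.card * p)) = ∏ _a ∈ s, Real.exp (-p) := by
    rw [Finset.prod_const, ← Real.exp_nat_mul]; ring_nf
  rw [e]
  refine Finset.prod_le_prod (fun a _ => pr_nonneg h0 h1 _) fun a ha => ?_
  rw [pr_compl]
  linarith [hp a ha, Real.add_one_le_exp (-p)]

/-! ## Harris -/

/-- The Harris inequality. -/
theorem pr_harris (h0 : ∀ i, 0 ≤ q i) (h1 : ∀ i, q i ≤ 1) {S T : Set (Fin m → Bool)}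
    (hS : IsUpperSet S) (hT : IsUpperSet T) : pr q S * pr q T ≤ pr q (S ∩ T) := by
  classical
  have hmono : ∀ {U : Set (Fin m → Bool)}, IsUpperSet U →
      Monotone fun ω => if ω ∈ U then (1 : ℝ) else 0 := by
    intro U hU ω ω' h
    by_cases hω : ω ∈ U
    · simp [hω, hU h hω]
    · simp only [if_neg hω]; split_ifs <;> norm_num
  have := fkg (μ := wt q) (f := fun ω => if ω ∈ S then (1 : ℝ) else 0)
    (g := fun ω => if ω ∈ T then (1 : ℝ) else 0) (fun ω => wt_nonneg h0 h1 ω)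
    (fun ω => by simp only [Pi.zero_apply]; split_ifs <;> norm_num)
    (fun ω => by simp only [Pi.zero_apply]; split_ifs <;> norm_num) (hmono hS) (hmono hT)
    (fun a b => le_of_eq ?_)
  · rw [sum_wt, one_mul] at this
    simp only [pr_eq]
    refine le_trans (le_of_eq ?_) (this.trans (le_of_eq ?_))
    · simp
    · refine Finset.sum_congr rfl fun ω _ => ?_
      by_cases hωS : ω ∈ S <;> by_cases hωT : ω ∈ T <;> simp [hωS, hωT]
  · unfold wt
    rw [← Finset.prod_mul_distrib, ← Finset.prod_mul_distrib]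
    refine Finset.prod_congr rfl fun i _ => ?_
    simp only [Pi.inf_apply, Pi.sup_apply]
    rcases Bool.eq_false_or_eq_true (a i) with ha | ha <;>
      rcases Bool.eq_false_or_eq_true (b i) with hb | hb <;> simp [ha, hb] <;> ring

/-! ## Sets that are hit -/

/-- Each of the sets `R j`, `j ∈ J`, contains a selected coordinate. -/
def hitAll (R : κ → Finset (Fin m)) (J : Finset κ) : Set (Fin m → Bool) :=
  {ω | ∀ j ∈ J, ∃ i ∈ R j, ω i = true}

lemma isUpperSet_hitAll (R : κ → Finset (Fin m)) (J : Finset κ) : IsUpperSet (hitAll R J) := by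
  intro ω ω' h hω j hj
  obtain ⟨i, hi, hωi⟩ := hω j hj
  exact ⟨i, hi, by have := h i; rw [hωi] at this; exact top_le_iff.1 this⟩

lemma dependsOnly_hitAll [DecidableEq κ] (R : κ → Finset (Fin m)) (J : Finset κ) :
    DependsOnly (hitAll R J) (J.biUnion R) := fun ω ω' e hω j hj => by
  obtain ⟨i, hi, hωi⟩ := hω j hj
  exact ⟨i, hi, by rw [← e i (Finset.mem_biUnion.2 ⟨j, hj, hi⟩)]; exact hωi⟩

lemma hitAll_mono {R R' : κ → Finset (Fin m)} {J J' : Finset κ} (hR : ∀ j ∈ J', R j ⊆ R' j)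
    (hJ : J' ⊆ J) : hitAll R J ⊆ hitAll R' J' := fun ω hω j hj => by
  obtain ⟨i, hi, hωi⟩ := hω j (hJ hj)
  exact ⟨i, hR j hj hi, hωi⟩

/-- The outcome on `C` is exactly `s`. -/
def pattern (C s : Finset (Fin m)) : Set (Fin m → Bool) := {ω | ∀ i ∈ C, (ω i = true ↔ i ∈ s)}

lemma dependsOnly_pattern (C s : Finset (Fin m)) : DependsOnly (pattern C s) C :=
  fun ω ω' e h i hi => by rw [← e i hi]; exact h i hi

lemma pr_pattern (q : Fin m → ℝ) {C s : Finset (Fin m)} (hs : s ⊆ C) :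
    pr q (pattern C s) = (∏ i ∈ s, q i) * ∏ i ∈ C \ s, (1 - q i) := by
  classical
  have hf := Fintype.prod_sum (f := fun k (b : Bool) =>
    if k ∈ C ∧ ¬ (b = true ↔ k ∈ s) then 0 else if b = true then q k else 1 - q k)
  have hl : ∀ k, ∑ b : Bool, (if k ∈ C ∧ ¬ (b = true ↔ k ∈ s) then 0
      else if b = true then q k else 1 - q k) =
      if k ∈ s then q k else if k ∈ C then 1 - q k else 1 := by
    intro k
    by_cases hk : k ∈ s
    · simp [hk, hs hk]
    · by_cases hkC : k ∈ C <;> simp [hk, hkC]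
  simp only [hl] at hf
  have hr : ∀ ω, (if ω ∈ pattern C s then wt q ω else 0) =
      ∏ k, (if k ∈ C ∧ ¬ (ω k = true ↔ k ∈ s) then 0 else if ω k = true then q k else 1 - q k) := by
    intro ω
    by_cases h : ω ∈ pattern C s
    · rw [if_pos h]
      refine Finset.prod_congr rfl fun k _ => ?_
      have hk : ¬ (k ∈ C ∧ ¬ (ω k = true ↔ k ∈ s)) := fun h' => h'.2 (h k h'.1)
      simp only [hk, if_false]
    · rw [if_neg h]
      simp only [pattern, Set.mem_setOf_eq, not_forall] at h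
      obtain ⟨k, hkC, hk⟩ := h
      refine (Finset.prod_eq_zero (Finset.mem_univ k) ?_).symm
      simp [hkC, hk]
  rw [pr_eq, Finset.sum_congr rfl (fun ω _ => hr ω), ← hf,
    ← Finset.prod_sdiff (Finset.subset_univ C), ← Finset.prod_sdiff hs]
  rw [Finset.prod_eq_one (s := Finset.univ \ C) fun k hk => ?_, one_mul, mul_comm]
  · refine congrArg₂ (· * ·) (Finset.prod_congr rfl fun k hk => if_pos hk)
      (Finset.prod_congr rfl fun k hk => ?_)
    obtain ⟨hkC, hks⟩ := Finset.mem_sdiff.1 hk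
    rw [if_neg hks, if_pos hkC]
  · have hkC := (Finset.mem_sdiff.1 hk).2
    rw [if_neg fun h => hkC (hs h), if_neg hkC]

/-- One set is hit with probability at least `μ / (1 + μ)`. -/
lemma pr_hit_one (h0 : ∀ i, 0 ≤ q i) (h1 : ∀ i, q i ≤ 1) (R : Finset (Fin m)) {μ : ℝ} (hμ0 : 0 ≤ μ)
    (hμ : μ ≤ ∑ i ∈ R, q i) : μ / (1 + μ) ≤ pr q {ω | ∃ i ∈ R, ω i = true} := by
  have e : {ω : Fin m → Bool | ∃ i ∈ R, ω i = true} = (⋂ i ∈ R, {ω | ω i = false})ᶜ := by
    ext ω; simp
  rw [e, pr_compl, (pr_iInter_indep q R (fun i => {ω | ω i = false}) (fun i => {i})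
    (fun i _ ω ω' e h => (e i (Finset.mem_singleton_self i)).symm.trans h)
    (fun i _ k _ h => Finset.disjoint_singleton.2 h)).1]
  have hone : ∀ i, pr q {ω | ω i = false} = 1 - q i := by
    intro i
    have : {ω : Fin m → Bool | ω i = false} = pattern {i} ∅ := by
      ext ω; simp [pattern]
    rw [this, pr_pattern q (Finset.empty_subset _)]
    simp
  simp only [hone]
  have h2 : ∏ i ∈ R, (1 - q i) ≤ Real.exp (-μ) := by
    refine (Finset.prod_le_prod (fun i _ => by linarith [h1 i])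
      (fun i _ => show 1 - q i ≤ Real.exp (-q i) by linarith [Real.add_one_le_exp (-q i)])).trans ?_
    rw [← Real.exp_sum, Finset.sum_neg_distrib]
    exact Real.exp_le_exp.2 (neg_le_neg hμ)
  have h3 : Real.exp (-μ) ≤ 1 / (1 + μ) := by
    rw [Real.exp_neg, ← one_div]
    exact one_div_le_one_div_of_le (by linarith) (by linarith [Real.add_one_le_exp μ])
  have h4 : μ / (1 + μ) = 1 - 1 / (1 + μ) := by field_simp; ring
  linarith

/-- The probability that all sets are hit is at least the product. -/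
lemma prod_le_pr_hitAll [DecidableEq κ] (h0 : ∀ i, 0 ≤ q i) (h1 : ∀ i, q i ≤ 1)
    (R : κ → Finset (Fin m)) (J : Finset κ) :
    ∏ j ∈ J, pr q (hitAll R {j}) ≤ pr q (hitAll R J) := by
  induction J using Finset.induction with
  | empty =>
    have : hitAll R (∅ : Finset κ) = Set.univ := by ext ω; simp [hitAll]
    simp [this, pr_univ]
  | insert a J ha ih =>
    rw [Finset.prod_insert ha]
    have e : hitAll R {a} ∩ hitAll R J = hitAll R (insert a J) := by
      ext ω; simp [hitAll]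
    rw [← e]
    exact (mul_le_mul_of_nonneg_left ih (pr_nonneg h0 h1 _)).trans
      (pr_harris h0 h1 (isUpperSet_hitAll R _) (isUpperSet_hitAll R J))

/-- The correlation of two such events. -/
theorem pr_pair [DecidableEq κ] (h0 : ∀ i, 0 ≤ q i) (h1 : ∀ i, q i ≤ 1)
    (R R₁ R' R₁' : κ → Finset (Fin m)) (J J' : Finset κ)
    (hR : ∀ j ∈ J, R j ⊆ R₁ j) (hR' : ∀ j ∈ J', R' j ⊆ R₁' j) (a a' : Fin m → ℝ)
    (ha : ∀ i ∈ J.biUnion R ∩ J'.biUnion R',
      0 ≤ a i ∧ 1 ≤ a i * pr q (hitAll R₁ (J.filter fun j => i ∈ R j)))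
    (ha' : ∀ i ∈ J.biUnion R ∩ J'.biUnion R',
      0 ≤ a' i ∧ 1 ≤ a' i * pr q (hitAll R₁' (J'.filter fun j => i ∈ R' j))) :
    pr q (hitAll R J ∩ hitAll R' J') ≤ pr q (hitAll R₁ J) * pr q (hitAll R₁' J') *
      Real.exp (∑ i ∈ J.biUnion R ∩ J'.biUnion R', q i * (a i * a' i)) := by
  classical
  set C := J.biUnion R ∩ J'.biUnion R' with hC
  -- bound for one side, given the selected common coordinates
  have side : ∀ (R R₁ : κ → Finset (Fin m)) (J : Finset κ) (a : Fin m → ℝ),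
      (∀ j ∈ J, R j ⊆ R₁ j) →
      (∀ i ∈ C, 0 ≤ a i ∧ 1 ≤ a i * pr q (hitAll R₁ (J.filter fun j => i ∈ R j))) →
      ∀ s ⊆ C, pr q (hitAll (fun j => R j \ C) (J.filter fun j => Disjoint (R j) s)) ≤
        pr q (hitAll R₁ J) * ∏ i ∈ s, a i := by
    intro R R₁ J a hR ha s hs
    set J₀ := J.filter fun j => Disjoint (R j) s
    have step : ∀ t ⊆ s, pr q (hitAll R₁ J₀) * ∏ i ∈ t, pr q (hitAll R₁ (J.filter fun j => i ∈ R j))
        ≤ pr q (hitAll R₁ (J₀ ∪ t.biUnion fun i => J.filter fun j => i ∈ R j)) := by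
      intro t
      induction t using Finset.induction with
      | empty => intro _; simp
      | insert x t hx ih =>
        intro ht
        rw [Finset.prod_insert hx, Finset.biUnion_insert, mul_left_comm]
        refine (mul_le_mul_of_nonneg_left (ih ((Finset.subset_insert x t).trans ht))
          (pr_nonneg h0 h1 _)).trans ((pr_harris h0 h1 (isUpperSet_hitAll R₁ _)
          (isUpperSet_hitAll R₁ _)).trans (pr_mono h0 h1 ?_))
        rintro ω ⟨hω, hω'⟩ j hj
        simp only [Finset.mem_union] at hj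
        rcases hj with hj | hj | hj
        · exact hω' j (Finset.mem_union_left _ hj)
        · exact hω j hj
        · exact hω' j (Finset.mem_union_right _ hj)
    have hall : hitAll R₁ (J₀ ∪ s.biUnion fun i => J.filter fun j => i ∈ R j) ⊆ hitAll R₁ J := by
      refine hitAll_mono (fun j _ => le_rfl) fun j hj => ?_
      by_cases h : Disjoint (R j) s
      · exact Finset.mem_union_left _ (Finset.mem_filter.2 ⟨hj, h⟩)
      · obtain ⟨i, hi, hi'⟩ := Finset.not_disjoint_iff.1 h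
        exact Finset.mem_union_right _ (Finset.mem_biUnion.2 ⟨i, hi', Finset.mem_filter.2 ⟨hj, hi⟩⟩)
    have h2 := (step s le_rfl).trans (pr_mono h0 h1 hall)
    have h3 : pr q (hitAll (fun j => R j \ C) J₀) ≤ pr q (hitAll R₁ J₀) := pr_mono h0 h1
      (hitAll_mono (fun j hj => Finset.sdiff_subset.trans (hR j (Finset.mem_filter.1 hj).1)) le_rfl)
    have h4 : (1 : ℝ) ≤ ∏ i ∈ s, (a i * pr q (hitAll R₁ (J.filter fun j => i ∈ R j))) :=
      Finset.one_le_prod fun i hi => (ha i (hs hi)).2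
    have h5 : 0 ≤ ∏ i ∈ s, a i := Finset.prod_nonneg fun i hi => (ha i (hs hi)).1
    refine h3.trans (le_trans ?_ (mul_le_mul_of_nonneg_right h2 h5))
    rw [mul_assoc, ← Finset.prod_mul_distrib]
    refine le_mul_of_one_le_right (pr_nonneg h0 h1 _) ?_
    simpa only [mul_comm] using h4
  -- decomposition by the selected common coordinates
  have hdec : ∀ T : Set (Fin m → Bool), pr q T = ∑ s ∈ C.powerset, pr q (T ∩ pattern C s) := by
    intro T
    simp only [pr_eq]
    rw [Finset.sum_comm]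
    refine Finset.sum_congr rfl fun ω _ => ?_
    rw [Finset.sum_eq_single (C.filter fun i => ω i = true)]
    · have : ω ∈ pattern C (C.filter fun i => ω i = true) := fun i hi => by simp [hi]
      simp [this]
    · intro s hs hne
      refine if_neg fun h => hne ?_
      ext i
      simp only [Finset.mem_filter]
      exact ⟨fun hi => ⟨Finset.mem_powerset.1 hs hi,
        (h.2 i (Finset.mem_powerset.1 hs hi)).2 hi⟩, fun hi => (h.2 i hi.1).1 hi.2⟩
    · simp
  rw [hdec]
  have hterm : ∀ s ∈ C.powerset, pr q ((hitAll R J ∩ hitAll R' J') ∩ pattern C s) ≤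
      pr q (hitAll R₁ J) * pr q (hitAll R₁' J') *
        ((∏ i ∈ s, q i * (a i * a' i)) * ∏ i ∈ C \ s, (1 - q i)) := by
    intro s hs
    have hsC := Finset.mem_powerset.1 hs
    set X := hitAll (fun j => R j \ C) (J.filter fun j => Disjoint (R j) s)
    set Y := hitAll (fun j => R' j \ C) (J'.filter fun j => Disjoint (R' j) s)
    have hsub : (hitAll R J ∩ hitAll R' J') ∩ pattern C s ⊆ (X ∩ Y) ∩ pattern C s := by
      rintro ω ⟨⟨hω, hω'⟩, hp⟩
      refine ⟨⟨?_, ?_⟩, hp⟩ <;> intro j hj <;> obtain ⟨hj, hd⟩ := Finset.mem_filter.1 hj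
      · obtain ⟨i, hi, hωi⟩ := hω j hj
        exact ⟨i, Finset.mem_sdiff.2 ⟨hi, fun h =>
          Finset.disjoint_left.1 hd hi ((hp i h).1 hωi)⟩, hωi⟩
      · obtain ⟨i, hi, hωi⟩ := hω' j hj
        exact ⟨i, Finset.mem_sdiff.2 ⟨hi, fun h =>
          Finset.disjoint_left.1 hd hi ((hp i h).1 hωi)⟩, hωi⟩
    refine (pr_mono h0 h1 hsub).trans ?_
    have hX : DependsOnly X (J.biUnion R \ C) := (dependsOnly_hitAll _ _).mono fun i hi => by
      obtain ⟨j, hj, hi⟩ := Finset.mem_biUnion.1 hi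
      obtain ⟨hi, hiC⟩ := Finset.mem_sdiff.1 hi
      exact Finset.mem_sdiff.2
        ⟨Finset.mem_biUnion.2 ⟨j, (Finset.mem_filter.1 hj).1, hi⟩, hiC⟩
    have hY : DependsOnly Y (J'.biUnion R' \ C) := (dependsOnly_hitAll _ _).mono fun i hi => by
      obtain ⟨j, hj, hi⟩ := Finset.mem_biUnion.1 hi
      obtain ⟨hi, hiC⟩ := Finset.mem_sdiff.1 hi
      exact Finset.mem_sdiff.2
        ⟨Finset.mem_biUnion.2 ⟨j, (Finset.mem_filter.1 hj).1, hi⟩, hiC⟩
    have hd : Disjoint (J.biUnion R \ C) (J'.biUnion R' \ C) :=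
      Finset.disjoint_left.2 fun i hi hi' => (Finset.mem_sdiff.1 hi).2
        (Finset.mem_inter.2 ⟨(Finset.mem_sdiff.1 hi).1, (Finset.mem_sdiff.1 hi').1⟩)
    rw [pr_inter_indep q (hX.inter hY) (dependsOnly_pattern C s)
      (Finset.disjoint_union_left.2 ⟨Finset.sdiff_disjoint, Finset.sdiff_disjoint⟩),
      pr_inter_indep q hX hY hd, pr_pattern q hsC, Finset.prod_mul_distrib,
      Finset.prod_mul_distrib]
    have hX' := side R R₁ J a hR ha s hsC
    have hY' := side R' R₁' J' a' hR' ha' s hsC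
    have h6 : 0 ≤ (∏ i ∈ s, q i) * ∏ i ∈ C \ s, (1 - q i) :=
      mul_nonneg (Finset.prod_nonneg fun i _ => h0 i)
        (Finset.prod_nonneg fun i _ => by linarith [h1 i])
    calc pr q X * pr q Y * ((∏ i ∈ s, q i) * ∏ i ∈ C \ s, (1 - q i))
        ≤ (pr q (hitAll R₁ J) * ∏ i ∈ s, a i) * (pr q (hitAll R₁' J') * ∏ i ∈ s, a' i) *
          ((∏ i ∈ s, q i) * ∏ i ∈ C \ s, (1 - q i)) :=
          mul_le_mul_of_nonneg_right (mul_le_mul hX' hY' (pr_nonneg h0 h1 _)
            ((pr_nonneg h0 h1 _).trans hX')) h6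
      _ = _ := by ring
  refine (Finset.sum_le_sum hterm).trans ?_
  rw [← Finset.mul_sum, ← Finset.prod_add]
  refine mul_le_mul_of_nonneg_left ?_ (mul_nonneg (pr_nonneg h0 h1 _) (pr_nonneg h0 h1 _))
  rw [Real.exp_sum]
  refine Finset.prod_le_prod (fun i hi => ?_) fun i hi => ?_
  · linarith [mul_nonneg (h0 i) (mul_nonneg (ha i hi).1 (ha' i hi).1), h1 i]
  · linarith [Real.add_one_le_exp (q i * (a i * a' i)), h0 i]

end Vale.Agent.P230
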