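import Vale.Agent.P230.Window
import Vale.Agent.P230.Prob

/-!
# P230: random facets and the core estimate give the density bound
-/

open scoped ENNReal RealInnerProductSpace Topology Pointwise
open MeasureTheory Metric Set Filter

namespace Vale.Agent.P230

variable {n : ℕ}

lemma thr_pos_of_pos (hn : 0 < n) : 0 < thr n := by
  unfold thr tau slope
  have : (0 : ℝ) < n := by exact_mod_cast hn
  positivity

lemma body_convex (F : Facets n) (ω : Fin F.m → Bool) : Convex ℝ (body F ω) := by
  refine (convex_closedBall 0 1).inter ?_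
  simp only [Set.ofPred_forall]
  exact convex_iInter fun i => convex_iInter fun _ =>
    convex_halfSpace_le (f := fun x => ⟪F.vec i, x⟫)
      ⟨fun x y => inner_add_right _ x y, fun c x => inner_smul_right _ x c⟩ _

lemma body_compact (F : Facets n) (ω : Fin F.m → Bool) : IsCompact (body F ω) := by
  refine (isCompact_closedBall _ _).inter_right ?_
  simp only [Set.ofPred_forall]
  exact isClosed_iInter fun i => isClosed_iInter fun _ =>
    isClosed_le (continuous_const.inner continuous_id) continuous_const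

lemma body_interior (hn : 0 < n) (F : Facets n) (ω : Fin F.m → Bool) :
    (interior (body F ω)).Nonempty := by
  refine ⟨0, interior_maximal (t := ball (0 : E n) (1 / 4)) ?_ isOpen_ball
    (mem_ball_self (by norm_num))⟩
  intro x hx
  have hx' := mem_ball_zero_iff.1 hx
  refine ⟨mem_closedBall_zero_iff.2 (by linarith), fun i _ => ?_⟩
  calc ⟪F.vec i, x⟫ ≤ ‖F.vec i‖ * ‖x‖ := real_inner_le_norm _ _
    _ ≤ 4 * thr n * (1 / 4) := mul_le_mul (F.norm_le i) hx'.le (norm_nonneg _)
        (by linarith [thr_pos_of_pos hn])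
    _ = thr n := by ring

/-- The shrinking factor that makes room for the rounding. -/
noncomputable def shr (n : ℕ) : ℝ := 1 - 4 * xi n

lemma body_room (hn : 0 < n) (hs : 0 ≤ shr n) (F : Facets n) (ω : Fin F.m → Bool) {y e : E n}
    (hy : y ∈ body F ω) (he : ‖e‖ ≤ xi n) : shr n • y + e ∈ body F ω := by
  have h1 := mem_closedBall_zero_iff.1 hy.1
  refine ⟨mem_closedBall_zero_iff.2 ?_, fun i hi => ?_⟩
  · refine (norm_add_le _ _).trans ?_
    rw [norm_smul, Real.norm_of_nonneg hs]
    have := mul_le_mul_of_nonneg_left h1 hs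
    have := xi_nonneg n
    unfold shr at *
    linarith
  · rw [inner_add_right, inner_smul_right]
    have h2 : ⟪F.vec i, e⟫ ≤ 4 * thr n * xi n := (real_inner_le_norm _ _).trans
      (mul_le_mul (F.norm_le i) he (norm_nonneg _) (by linarith [thr_pos_of_pos hn]))
    have h3 := mul_le_mul_of_nonneg_left (hy.2 i hi) hs
    unfold shr at *
    linarith

lemma shr_pow (h : Fine n) : 0 < shr n ∧ 1 / 2 ≤ shr n ^ n := by
  have h1 := h.xi_small
  have h2 := xi_nonneg n
  have hn : (2 : ℝ) ≤ n := by exact_mod_cast h.n_two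
  have hx : (n : ℝ) * (4 * xi n) ≤ 1 / 2 := by
    have h7 : (n : ℝ) * xi n = 1 / n := by unfold xi; field_simp
    have h3 : xi n ≤ 1 / 1000000 := h1
    have h8 : 1 / (n : ℝ) ≤ 1 / 8 := by
      refine div_le_div_of_nonneg_left zero_le_one (by norm_num) ?_
      by_contra hc
      push Not at hc
      unfold xi at h3
      rw [div_le_div_iff₀ (by positivity) (by norm_num)] at h3
      nlinarith
    calc (n : ℝ) * (4 * xi n) = 4 * ((n : ℝ) * xi n) := by ring
      _ ≤ 1 / 2 := by rw [h7]; linarith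
  refine ⟨by unfold shr; unfold small at h1; linarith, ?_⟩
  have := one_add_mul_le_pow (a := -(4 * xi n)) (by unfold small at h1; linarith) n
  rw [show (1 : ℝ) + -(4 * xi n) = shr n by unfold shr; ring] at this
  nlinarith

/-- With probability at least one half the body keeps a third of the ball. -/
lemma pr_small_le (hn : 0 < n) (F : Facets n) :
    pr F.q {ω | 3 * volume.real (body F ω) < volume.real (closedBall (0 : E n) 1)} ≤ 1 / 2 := by
  classical
  set B := closedBall (0 : E n) 1 with hB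
  set H : Fin F.m → Set (E n) := fun i => {x | thr n < ⟪F.vec i, x⟫} with hH
  have h0 := F.q_nonneg
  have h1 : ∀ i, F.q i ≤ 1 := fun i => (F.q_le i).trans (by norm_num)
  have hBtop : volume B ≠ ⊤ := measure_closedBall_lt_top.ne
  have hHm : ∀ i, MeasurableSet (H i) := fun i =>
    (isOpen_lt continuous_const (continuous_const.inner continuous_id)).measurableSet
  have hcut : ∀ ω, volume.real B - volume.real (body F ω) ≤
      ∑ i, if ω i = true then volume.real (B ∩ H i) else 0 := by
    intro ω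
    rw [← Finset.sum_filter]
    have hsub : B ⊆ body F ω ∪ ⋃ i ∈ Finset.univ.filter (fun i => ω i = true), B ∩ H i := by
      intro x hx
      by_cases hb : x ∈ body F ω
      · exact Or.inl hb
      · refine Or.inr ?_
        simp only [body, Set.mem_inter_iff, not_and, Set.mem_ofPred_eq, not_forall, not_le] at hb
        obtain ⟨i, hi, hlt⟩ := hb hx
        exact Set.mem_biUnion (Finset.mem_filter.2 ⟨Finset.mem_univ i, hi⟩) ⟨hx, hlt⟩
    have hfin : volume (body F ω ∪ ⋃ i ∈ Finset.univ.filter (fun i => ω i = true), B ∩ H i) ≠ ⊤ := by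
      refine ne_top_of_le_ne_top hBtop (measure_mono (Set.union_subset Set.inter_subset_left ?_))
      exact Set.iUnion₂_subset fun i _ => Set.inter_subset_left
    have := (measureReal_mono hsub hfin).trans ((measureReal_union_le _ _).trans
      (add_le_add le_rfl (measureReal_biUnion_finset_le _ _)))
    linarith
  have hq : ∀ i, ∑ ω, (if ω i = true then wt F.q ω else 0) = F.q i := by
    intro i
    have := pr_pattern F.q (C := {i}) (s := {i}) subset_rfl
    simp only [Finset.prod_singleton, Finset.sdiff_self, Finset.prod_empty, mul_one] at this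
    rw [← this, pr_eq]
    refine Finset.sum_congr rfl fun ω _ => ?_
    simp [pattern]
  have hmass : ∑ i, F.q i * volume.real (B ∩ H i) ≤ volume.real B / 3 := by
    have hfinH : ∀ i, volume (B ∩ H i) ≠ ⊤ := fun i =>
      ne_top_of_le_ne_top hBtop (measure_mono Set.inter_subset_left)
    have e : ∀ i, ∫ x in B, (H i).indicator (fun _ => F.q i) x =
        F.q i * volume.real (B ∩ H i) := fun i => by
      rw [setIntegral_indicator (hHm i), setIntegral_const, smul_eq_mul, mul_comm]
    have hint : ∀ i, IntegrableOn ((H i).indicator fun _ => F.q i) B := fun i =>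
      (integrableOn_const hBtop).indicator (hHm i)
    rw [← Finset.sum_congr rfl fun i _ => e i, ← integral_finsetSum _ fun i _ => hint i]
    have hle : ∀ x ∈ B, ∑ i, (H i).indicator (fun _ => F.q i) x ≤ 1 / 3 := by
      intro x hx
      have hx1 : ‖x‖ ≤ 1 := mem_closedBall_zero_iff.1 hx
      have em : ∑ i, (H i).indicator (fun _ => F.q i) x = mass F.vec F.q (half x (thr n)) := by
        unfold mass
        refine Finset.sum_congr rfl fun i _ => ?_
        by_cases hc : thr n < ⟪F.vec i, x⟫ <;> simp [Set.indicator, hH, half, hc]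
      rw [em]
      by_cases hx0 : x = 0
      · subst hx0
        simp [mass, half, (thr_pos_of_pos hn).not_gt]
      · refine (F.upper x hx1).trans (div_le_div_of_nonneg_right ?_ (by norm_num))
        refine Real.exp_le_one_iff.2 (neg_nonpos.2 (mul_nonneg ?_ ?_))
        · unfold tau slope; positivity
        · rw [sub_nonneg, one_le_div (by positivity)]
          exact pow_le_one₀ (norm_nonneg _) hx1
    refine (setIntegral_mono_on (integrable_finsetSum _ fun i _ => hint i)
      (integrableOn_const hBtop) measurableSet_closedBall hle).trans ?_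
    rw [setIntegral_const, smul_eq_mul]
    linarith
  have hmain : pr F.q {ω | 3 * volume.real (body F ω) < volume.real B} *
      (2 / 3 * volume.real B) ≤ volume.real B / 3 := by
    refine le_trans ?_ hmass
    simp only [← hq, Finset.sum_mul]
    rw [Finset.sum_comm, pr_eq, Finset.sum_mul]
    refine Finset.sum_le_sum fun ω _ => ?_
    have hw := wt_nonneg h0 h1 ω
    have hrhs : ∑ i, (if ω i = true then wt F.q ω else 0) * volume.real (B ∩ H i) =
        wt F.q ω * ∑ i, if ω i = true then volume.real (B ∩ H i) else 0 := by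
      rw [Finset.mul_sum]
      exact Finset.sum_congr rfl fun i _ => by split_ifs <;> simp
    rw [hrhs]
    split_ifs with h
    · refine mul_le_mul_of_nonneg_left ?_ hw
      have h' : 3 * volume.real (body F ω) < volume.real B := h
      linarith [hcut ω]
    · simp only [zero_mul]
      exact mul_nonneg hw (Finset.sum_nonneg fun i _ => by split_ifs <;> positivity)
  have hBpos : 0 < volume.real B :=
    ENNReal.toReal_pos (measure_closedBall_pos volume _ one_pos).ne' hBtop
  nlinarith

/-- The spacing of the grid of rounded centres. -/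
noncomputable def mesh (n : ℕ) : ℝ := 1 / (n : ℝ) ^ 3

/-- Rounding to the grid. -/
noncomputable def roundPt (z : E n) : E n :=
  WithLp.toLp 2 fun i => (round (z i / mesh n) : ℝ) * mesh n

open scoped Classical in
/-- The grid points that occur as rounded centres. -/
noncomputable def gridPts (n : ℕ) : Finset (E n) :=
  (Fintype.piFinset fun _ : Fin n => Finset.Icc (-(2 * (n : ℤ) ^ 3)) (2 * (n : ℤ) ^ 3)).image
    fun k : Fin n → ℤ => WithLp.toLp 2 fun i => (k i : ℝ) * mesh n

lemma norm_roundPt_sub (hn : 0 < n) (z : E n) : ‖roundPt z - z‖ ≤ xi n := by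
  have hm : 0 < mesh n := by unfold mesh; positivity
  rw [EuclideanSpace.norm_eq]
  have hb : ∀ i, ‖(roundPt z - z) i‖ ≤ mesh n := fun i => by
    simp only [roundPt, PiLp.sub_apply, Real.norm_eq_abs]
    have h1 := abs_sub_round (z i / mesh n)
    calc |(round (z i / mesh n) : ℝ) * mesh n - z i|
        = |z i / mesh n - round (z i / mesh n)| * mesh n := by
          rw [← abs_of_pos hm, ← abs_mul, abs_of_pos hm, sub_mul, div_mul_cancel₀ _ hm.ne',
            abs_sub_comm]
      _ ≤ 1 * mesh n := by gcongr; linarith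
      _ = mesh n := one_mul _
  refine (Real.sqrt_le_sqrt (Finset.sum_le_sum fun i _ =>
    pow_le_pow_left₀ (norm_nonneg _) (hb i) 2)).trans ?_
  rw [Finset.sum_const, Finset.card_univ, Fintype.card_fin, nsmul_eq_mul,
    Real.sqrt_le_left (xi_nonneg n)]
  unfold mesh xi
  have h1 : (1 : ℝ) ≤ n := by exact_mod_cast hn
  rw [div_pow, div_pow, one_pow, mul_one_div, div_le_div_iff₀ (by positivity) (by positivity)]
  calc (n : ℝ) * ((n : ℝ) ^ 2) ^ 2 = (n : ℝ) ^ 5 := by ring
    _ ≤ 1 * ((n : ℝ) ^ 3) ^ 2 := by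
        rw [one_mul, ← pow_mul]
        exact pow_le_pow_right₀ h1 (by norm_num)

lemma roundPt_mem (hn : 0 < n) {z : E n} (hz : ‖z‖ ≤ 5 / 4) : roundPt z ∈ gridPts n := by
  classical
  refine Finset.mem_image.2 ⟨fun i => round (z i / mesh n), ?_, rfl⟩
  rw [Fintype.mem_piFinset]
  intro i
  have h1 := abs_sub_round (z i / mesh n)
  have h2 : |z i / mesh n| ≤ 5 / 4 * (n : ℝ) ^ 3 := by
    unfold mesh
    rw [div_div_eq_mul_div, div_one, abs_mul, abs_of_nonneg (show (0 : ℝ) ≤ (n : ℝ) ^ 3 by positivity)]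
    exact mul_le_mul_of_nonneg_right ((abs_coord_le_norm z i).trans hz) (by positivity)
  have h3 : |(round (z i / mesh n) : ℝ)| ≤ ((2 * (n : ℤ) ^ 3 : ℤ) : ℝ) := by
    have h4 := abs_sub_abs_le_abs_sub (round (z i / mesh n) : ℝ) (z i / mesh n)
    rw [abs_sub_comm] at h4
    have h5 : (1 : ℝ) ≤ (n : ℝ) ^ 3 := one_le_pow₀ (by exact_mod_cast hn)
    push_cast
    linarith
  rw [← Int.cast_abs, Int.cast_le, abs_le] at h3
  exact Finset.mem_Icc.2 h3

open scoped Classical in
/-- The candidate configurations. -/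
noncomputable def configs (n : ℕ) : Finset (Finset (E n)) :=
  (gridPts n).powerset.filter fun Φ => Φ.card ≤ Nmax n

lemma card_configs_le (n : ℕ) :
    ((configs n).card : ℝ) ≤ 1 + ((5 * (n : ℝ) ^ 3 + 1) ^ n) ^ Nmax n := by
  classical
  have hsub : configs n ⊆ insert ∅ ((Finset.univ : Finset (Fin (Nmax n) → gridPts n)).image
      fun f => Finset.univ.image fun i => (f i : E n)) := by
    intro Φ hΦ
    obtain ⟨hsub, hcard⟩ := Finset.mem_filter.1 hΦ
    have hsub' := Finset.mem_powerset.1 hsub
    rcases Φ.eq_empty_or_nonempty with rfl | ⟨x₀, hx₀⟩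
    · exact Finset.mem_insert_self _ _
    refine Finset.mem_insert_of_mem (Finset.mem_image.2 ⟨fun i =>
      if h : (i : ℕ) < Φ.card then ⟨Φ.equivFin.symm ⟨i, h⟩, hsub' (Φ.equivFin.symm ⟨i, h⟩).2⟩
      else ⟨x₀, hsub' hx₀⟩, Finset.mem_univ _, ?_⟩)
    ext x
    simp only [Finset.mem_image, Finset.mem_univ, true_and]
    constructor
    · rintro ⟨i, rfl⟩
      split_ifs with h
      · exact (Φ.equivFin.symm ⟨i, h⟩).2
      · exact hx₀
    · intro hx
      refine ⟨⟨(Φ.equivFin ⟨x, hx⟩ : Fin Φ.card), lt_of_lt_of_le (Fin.isLt _) hcard⟩, ?_⟩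
      simp
  have h1 := (Finset.card_le_card hsub).trans (Finset.card_insert_le _ _)
  have h2 := h1.trans (Nat.add_le_add_right Finset.card_image_le 1)
  rw [Finset.card_univ, Fintype.card_fun, Fintype.card_fin, Fintype.card_coe] at h2
  have h3 : (gridPts n).card ≤ (5 * n ^ 3 + 1) ^ n := by
    refine Finset.card_image_le.trans ?_
    rw [Fintype.card_piFinset, Finset.prod_const, Finset.card_univ, Fintype.card_fin, Int.card_Icc]
    refine Nat.pow_le_pow_left ?_ n
    rw [show (n : ℤ) ^ 3 = ((n ^ 3 : ℕ) : ℤ) by push_cast; ring]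
    omega
  have h4 := h2.trans (Nat.add_le_add_right (Nat.pow_le_pow_left h3 (Nmax n)) 1)
  calc ((configs n).card : ℝ) ≤ ((((5 * n ^ 3 + 1) ^ n) ^ Nmax n + 1 : ℕ) : ℝ) := by
        exact_mod_cast h4
    _ = _ := by push_cast; ring

lemma union_small (hn : 7 ≤ n) :
    ((configs n).card : ℝ) * Real.exp (-((Nmax n : ℝ) * (n : ℝ) ^ 5)) < 1 / 2 := by
  have h7 : (7 : ℝ) ≤ n := by exact_mod_cast hn
  have hN : (1 : ℝ) ≤ Nmax n := by
    have : 0 < Nmax n := Nat.ceil_pos.2 (by positivity)
    exact_mod_cast this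
  set N := (Nmax n : ℝ)
  have h1 : ((5 * (n : ℝ) ^ 3 + 1) ^ n) ^ Nmax n ≤ Real.exp (5 * N * (n : ℝ) ^ 4) := by
    rw [← pow_mul]
    refine (pow_le_pow_left₀ (by positivity) (Real.add_one_le_exp (5 * (n : ℝ) ^ 3)) _).trans
      (le_of_eq ?_)
    rw [← Real.exp_nat_mul]
    push_cast
    congr 1
    ring
  have h2 : ((configs n).card : ℝ) ≤ 2 * Real.exp (5 * N * (n : ℝ) ^ 4) := by
    refine (card_configs_le n).trans ?_
    linarith [Real.one_le_exp (show (0 : ℝ) ≤ 5 * N * (n : ℝ) ^ 4 by positivity)]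
  refine lt_of_le_of_lt (mul_le_mul_of_nonneg_right h2 (Real.exp_pos _).le) ?_
  rw [mul_assoc, ← Real.exp_add]
  have h3 : 5 * N * (n : ℝ) ^ 4 + -(N * (n : ℝ) ^ 5) ≤ -2 := by
    have h4 : 2 ≤ ((n : ℝ) - 5) * (N * (n : ℝ) ^ 4) := by
      have : 1 ≤ N * (n : ℝ) ^ 4 := one_le_mul_of_one_le_of_one_le hN (one_le_pow₀ (by linarith))
      nlinarith
    linarith
  have he : Real.exp (-2) < 1 / 4 := by
    rw [show (-2 : ℝ) = -1 + -1 by norm_num, Real.exp_add]
    have := Real.exp_neg_one_lt_half
    nlinarith [Real.exp_pos (-1)]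
  linarith [Real.exp_le_exp.2 h3]

lemma count_scaled (h : Fine n) (F : Facets n) (ω : Fin F.m → Bool)
    (hvol : volume (closedBall (0 : E n) 1) ≤ 3 * volume (body F ω)) {X : Set (E n)}
    (hX : ∀ s : Set (E n), Bornology.IsBounded s → (X ∩ s).Finite)
    (hlim : Filter.limsup (fun R : ℝ => volume (body F ω) *
      (({x ∈ X | ∀ i, |x i| ≤ R}.ncard : ℕ) : ℝ≥0∞) / ENNReal.ofReal ((2 * R) ^ n)) atTop <
      ENNReal.ofReal (cst * n * Real.log n)) :
    ∀ᶠ R : ℝ in atTop, (({x ∈ (fun x => shr n • x) '' X | ∀ i, |x i| ≤ R}.ncard : ℕ) : ℝ≥0∞) ≤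
      rho n * ENNReal.ofReal (2 * R) ^ n := by
  obtain ⟨hs, hpow⟩ := shr_pow h
  obtain ⟨R₀, hR₀⟩ := eventually_atTop.1 (eventually_lt_of_limsup_lt hlim)
  filter_upwards [eventually_ge_atTop (max R₀ 1)] with R hR
  have hs1 : shr n ≤ 1 := by unfold shr; linarith [xi_nonneg n]
  set R' := R / shr n with hR'
  have hRR : R ≤ R' := by
    rw [hR', le_div_iff₀ hs]; nlinarith [le_max_right R₀ 1]
  have hb := hR₀ R' ((le_max_left _ _).trans (hR.trans hRR))
  have hR1 : 1 ≤ R := (le_max_right _ _).trans hR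
  have hcard : ({x ∈ (fun x => shr n • x) '' X | ∀ i, |x i| ≤ R}).ncard ≤
      ({x ∈ X | ∀ i, |x i| ≤ R'}).ncard := by
    refine le_trans (Set.ncard_le_ncard (t := (fun x => shr n • x) '' {x ∈ X | ∀ i, |x i| ≤ R'}) ?_
      ((cube_inter_finite hX R').image _)) (Set.ncard_image_le (cube_inter_finite hX R'))
    rintro _ ⟨⟨x, hx, rfl⟩, hxi⟩
    refine ⟨x, ⟨hx, fun i => ?_⟩, rfl⟩
    have := hxi i
    simp only [PiLp.smul_apply, smul_eq_mul, abs_mul, abs_of_pos hs] at this
    rw [hR', le_div_iff₀ hs]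
    linarith
  refine (Nat.cast_le.2 hcard).trans ?_
  set N : ℝ≥0∞ := (({x ∈ X | ∀ i, |x i| ≤ R'}.ncard : ℕ) : ℝ≥0∞)
  set V := volume (closedBall (0 : E n) 1) with hVdef
  have hV := volume_ball_ne (n := n) zero_lt_one
  set D := cst * n * Real.log n with hD
  have hD0 : 0 ≤ D := by
    have h1 : (0 : ℝ) ≤ cst := by norm_num [cst, slope]
    exact mul_nonneg (mul_nonneg h1 (Nat.cast_nonneg n)) (Real.log_natCast_nonneg n)
  have hP : (0 : ℝ) < (2 * R') ^ n := pow_pos (by linarith) n
  rw [ENNReal.div_lt_iff (Or.inl (ENNReal.ofReal_pos.2 hP).ne') (Or.inl ENNReal.ofReal_ne_top)] at hb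
  have h1 : V * N ≤ ENNReal.ofReal (6 * D * (2 * R) ^ n) :=
    calc V * N ≤ 3 * volume (body F ω) * N := by gcongr
      _ = 3 * (volume (body F ω) * N) := mul_assoc _ _ _
      _ ≤ 3 * (ENNReal.ofReal D * ENNReal.ofReal ((2 * R') ^ n)) :=
          mul_le_mul_right hb.le _
      _ ≤ ENNReal.ofReal (6 * D * (2 * R) ^ n) := by
          rw [show (3 : ℝ≥0∞) = ENNReal.ofReal 3 by norm_num, ← ENNReal.ofReal_mul hD0,
            ← ENNReal.ofReal_mul (by norm_num)]
          refine ENNReal.ofReal_le_ofReal ?_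
          have h2 : (2 * R') ^ n ≤ 2 * (2 * R) ^ n := by
            rw [hR', ← mul_div_assoc, div_pow, div_le_iff₀ (pow_pos hs n)]
            nlinarith [pow_nonneg (show 0 ≤ 2 * R by linarith) n]
          nlinarith [mul_le_mul_of_nonneg_left h2 hD0]
  rw [← ENNReal.ofReal_pow (by linarith), rho, ← hVdef,
    show (6 : ℝ) * cst * n * Real.log n = 6 * D by rw [hD]; ring, div_eq_mul_inv,
    mul_right_comm, ← div_eq_mul_inv, ← ENNReal.ofReal_mul (by positivity),
    ENNReal.le_div_iff_mul_le (Or.inl hV.1) (Or.inl hV.2), mul_comm N]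
  exact h1

/-- M5: the reduction. -/
theorem densityProp_of (hG : GaussProp) (hC : CoreProp) : DensityProp := by
  classical
  refine ⟨cst, by norm_num [cst, slope], ?_⟩
  filter_upwards [hG, hC, eventually_fine, eventually_ge_atTop 7] with n hF hcore h hn7
  obtain ⟨F⟩ := hF
  have hn : 0 < n := by omega
  have h0 := F.q_nonneg
  have h1 : ∀ i, F.q i ≤ 1 := fun i => (F.q_le i).trans (by norm_num)
  obtain ⟨ω, hω1, hω2⟩ : ∃ ω, ¬ 3 * volume.real (body F ω) < volume.real (closedBall (0 : E n) 1) ∧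
      ∀ Φ ∈ configs n, GoodConfig Φ → ω ∉ Covers F Φ := by
    by_contra hno
    push Not at hno
    let ev : Option (Finset (E n)) → Set (Fin F.m → Bool) := fun a =>
      a.elim {ω | 3 * volume.real (body F ω) < volume.real (closedBall (0 : E n) 1)}
        fun Φ => Covers F Φ
    have hsub : (Set.univ : Set (Fin F.m → Bool)) ⊆
        ⋃ a ∈ insert none (((configs n).filter GoodConfig).image some), ev a := by
      intro ω _
      by_cases hb : 3 * volume.real (body F ω) < volume.real (closedBall (0 : E n) 1)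
      · exact Set.mem_iUnion₂.2 ⟨none, Finset.mem_insert_self _ _, hb⟩
      · obtain ⟨Φ, hΦ, hg, hc⟩ := hno ω (not_lt.1 hb)
        exact Set.mem_iUnion₂.2 ⟨some Φ, Finset.mem_insert_of_mem
          (Finset.mem_image_of_mem some (Finset.mem_filter.2 ⟨hΦ, hg⟩)), hc⟩
    have hle := (pr_mono h0 h1 hsub).trans (pr_biUnion_le h0 h1 _ _)
    rw [pr_univ, Finset.sum_insert (by simp), Finset.sum_image fun a _ b _ e => Option.some_inj.1 e]
      at hle
    simp only [ev, Option.elim_none, Option.elim_some] at hle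
    have hA := pr_small_le hn F
    have hB : ∑ Φ ∈ (configs n).filter GoodConfig, pr F.q (Covers F Φ) ≤
        ((configs n).card : ℝ) * Real.exp (-((Nmax n : ℝ) * (n : ℝ) ^ 5)) := by
      refine (Finset.sum_le_card_nsmul _ _ _ fun Φ hΦ =>
        hcore F Φ (Finset.mem_filter.1 hΦ).2).trans ?_
      rw [nsmul_eq_mul]
      exact mul_le_mul_of_nonneg_right
        (Nat.cast_le.2 (Finset.card_filter_le _ _)) (Real.exp_pos _).le
    linarith [union_small hn7]
  refine ⟨body F ω, body_convex F ω, body_compact F ω, body_interior hn F ω, fun X hX hcov => ?_⟩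
  by_contra hlt
  push Not at hlt
  have hvol : volume (closedBall (0 : E n) 1) ≤ 3 * volume (body F ω) := by
    have hfin : volume (body F ω) ≠ ⊤ :=
      ne_top_of_le_ne_top measure_closedBall_lt_top.ne (measure_mono Set.inter_subset_left)
    rw [← ENNReal.toReal_le_toReal measure_closedBall_lt_top.ne
      (ENNReal.mul_ne_top (by norm_num) hfin), ENNReal.toReal_mul]
    exact not_lt.1 hω1
  obtain ⟨hs, -⟩ := shr_pow h
  have hY : ∀ s : Set (E n), Bornology.IsBounded s → ((fun x => shr n • x) '' X ∩ s).Finite := by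
    intro s hsb
    refine ((hX _ (hsb.smul₀ (shr n)⁻¹)).image fun x => shr n • x).subset ?_
    rintro _ ⟨⟨x, hx, rfl⟩, hxs⟩
    exact ⟨x, ⟨hx, shr n • x, hxs, inv_smul_smul₀ hs.ne' x⟩, rfl⟩
  obtain ⟨w, Φ, hgood, hmem, hrep⟩ :=
    exists_window h hY (count_scaled h F ω hvol hX hlt) roundPt (norm_roundPt_sub hn)
  have hcovers : ω ∈ Covers F Φ := by
    intro y hy
    obtain ⟨x, hx, hk⟩ := hcov ((shr n)⁻¹ • (y + w))
    set k := (shr n)⁻¹ • (y + w) - x with hk'
    have hid : y = shr n • k + (shr n • x - w) := by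
      rw [hk', smul_sub, smul_inv_smul₀ hs.ne']; abel
    have hd : ‖shr n • x - w‖ ≤ 5 / 4 := by
      rw [show shr n • x - w = y + -(shr n • k) by rw [hid]; abel]
      refine (norm_add_le _ _).trans ?_
      rw [norm_neg, norm_smul, Real.norm_of_nonneg hs.le]
      have h2 := mem_closedBall_zero_iff.1 hy
      have h3 : shr n * ‖k‖ ≤ 1 * 1 :=
        mul_le_mul (by unfold shr; linarith [xi_nonneg n]) (mem_closedBall_zero_iff.1 hk.1)
          (norm_nonneg _) zero_le_one
      unfold wide small at h2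
      linarith
    refine ⟨roundPt (shr n • x - w), hmem _ ⟨x, hx, rfl⟩ hd, ?_⟩
    rw [show y - roundPt (shr n • x - w) =
      shr n • k + -(roundPt (shr n • x - w) - (shr n • x - w)) by rw [hid]; abel]
    exact body_room hn hs.le F ω hk (by rw [norm_neg]; exact norm_roundPt_sub hn _)
  refine hω2 Φ (Finset.mem_filter.2 ⟨Finset.mem_powerset.2 fun p hp => ?_, hgood.card_le⟩) hgood
    hcovers
  obtain ⟨x, hx, rfl⟩ := hrep p hp
  exact roundPt_mem hn hx

end Vale.Agent.P230
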