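import Vale.Agent.P230.Geom
import Vale.Agent.P230.Prob
import Vale.Agent.P230.Numeric

/-!
# P230: the second moment inside one subwindow

With probability at least `exp (-n / 4)` some test point of a subwindow is missed by all
translates, using only facets from a prescribed set `Q`.
-/

open scoped BigOperators RealInnerProductSpace ENNReal Classical
open MeasureTheory

namespace Vale.Agent.P230

variable {n : ℕ}

/-- The facets cutting `z`. -/
noncomputable def cutters (F : Facets n) (z : E n) : Finset (Fin F.m) :=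
  Finset.univ.filter fun i => F.vec i ∈ half z (thr n)

lemma sum_cutters (F : Facets n) (z : E n) :
    ∑ i ∈ cutters F z, F.q i = mass F.vec F.q (half z (thr n)) := by
  simp [cutters, mass, Finset.sum_filter]

/-- The translates that could contain a test point. -/
noncomputable def rel (Φ : Finset (E n)) (y : E n) : Finset (E n) :=
  Φ.filter fun x => ‖y - x‖ ≤ 1

/-- The vectors `y - x` cut by one facet. -/
noncomputable def cutSet (F : Facets n) (Φ : Finset (E n)) (y : E n) (i : Fin F.m) :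
    Finset (E n) :=
  ((rel Φ y).image fun x => y - x).filter fun z => F.vec i ∈ half z (thr n)

/-- The squared depth allowed at a level. -/
noncomputable def level (n t : ℕ) : ℝ := 1 - zeta n - (t : ℝ) * (zeta n / levels n)

/-- A facet is admitted at level `t` if what it cuts stays near the boundary. -/
def Admitted (F : Facets n) (Φ : Finset (E n)) (y : E n) (t : ℕ) (i : Fin F.m) : Prop :=
  ∀ w ∈ convexHull ℝ (cutSet F Φ y i : Set (E n)), level n t ≤ ‖w‖ ^ 2

/-- The facets that may cut `y - x`. -/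
noncomputable def region (F : Facets n) (Φ : Finset (E n)) (Q : Finset (Fin F.m)) (y : E n)
    (t : ℕ) (x : E n) : Finset (Fin F.m) :=
  (cutters F (y - x)).filter fun i => i ∈ Q ∧ Admitted F Φ y t i

/-- The probability that `y` is missed by all translates, at level `t`. -/
noncomputable def missProb (F : Facets n) (Φ : Finset (E n)) (Q : Finset (Fin F.m)) (y : E n)
    (t : ℕ) : ℝ :=
  pr F.q (hitAll (region F Φ Q y t) (rel Φ y))

/-- Some point of the subwindow is missed, using facets of `Q`. -/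
def Missed (F : Facets n) (Φ : Finset (E n)) (Q : Finset (Fin F.m)) (v : E n) :
    Set (Fin F.m → Bool) :=
  {ω | ∃ y ∈ Metric.closedBall v small, ∀ x ∈ rel Φ y,
    ∃ i ∈ Q, ω i = true ∧ thr n < ⟪F.vec i, y - x⟫}

lemma dependsOnly_missed (F : Facets n) (Φ : Finset (E n)) (Q : Finset (Fin F.m)) (v : E n) :
    DependsOnly (Missed F Φ Q v) Q := by
  rintro ω ω' e ⟨y, hy, h⟩
  refine ⟨y, hy, fun x hx => ?_⟩
  obtain ⟨i, hi, hω, hc⟩ := h x hx
  exact ⟨i, hi, by rw [← e i hi]; exact hω, hc⟩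

section

variable {F : Facets n} {Φ : Finset (E n)} {Q : Finset (Fin F.m)}

lemma sum_union_le' {α : Type*} [DecidableEq α] (s t : Finset α) {f : α → ℝ} (hf : ∀ i, 0 ≤ f i) :
    ∑ i ∈ s ∪ t, f i ≤ ∑ i ∈ s, f i + ∑ i ∈ t, f i := by
  rw [← Finset.sum_union_inter]
  linarith [Finset.sum_nonneg (fun i (_ : i ∈ s ∩ t) => hf i)]

lemma sum_biUnion_le' {α β : Type*} [DecidableEq α] [DecidableEq β] (s : Finset β)
    (t : β → Finset α) {f : α → ℝ} (hf : ∀ i, 0 ≤ f i) :
    ∑ i ∈ s.biUnion t, f i ≤ ∑ b ∈ s, ∑ i ∈ t b, f i := by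
  induction s using Finset.induction with
  | empty => simp
  | insert b s hb ih =>
    rw [Finset.biUnion_insert, Finset.sum_insert hb]
    exact (sum_union_le' _ _ hf).trans (by linarith)

lemma q_le_one (F : Facets n) (i : Fin F.m) : F.q i ≤ 1 := (F.q_le i).trans (by norm_num)

lemma thr_pos (hn : Large n) : 0 < thr n :=
  Real.sqrt_pos.2 (mul_pos (by norm_num [slope]) (by exact_mod_cast hn.n_pos))

lemma thr_sq (n : ℕ) : thr n ^ 2 = tau n :=
  Real.sq_sqrt (mul_nonneg (by norm_num [slope]) (Nat.cast_nonneg n))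

lemma tau_nonneg (n : ℕ) : 0 ≤ tau n := mul_nonneg (by norm_num [slope]) (Nat.cast_nonneg n)

lemma rel_card_le {y : E n} (hy : cost Φ y ≤ Fmax n) : ((rel Φ y).card : ℝ) ≤ Fmax n := by
  refine le_trans ?_ hy
  rw [cost, Finset.card_eq_sum_ones, Nat.cast_sum]
  refine Finset.sum_le_sum fun x hx => ?_
  have : 0 ≤ (n : ℝ) * (1 - ‖y - x‖) :=
    mul_nonneg (Nat.cast_nonneg n) (by linarith [(Finset.mem_filter.1 hx).2])
  push_cast
  linarith

lemma rel_card_cube (hn : Large n) {y : E n} (hy : cost Φ y ≤ Fmax n) :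
    (rel Φ y).card ≤ n ^ 3 := by
  have := (rel_card_le hy).trans hn.cube
  exact_mod_cast this

lemma level_succ (n t : ℕ) : level n (t + 1) = level n t - zeta n / levels n := by
  simp [level]; ring

lemma level_anti (hn : Large n) {s t : ℕ} (h : s ≤ t) : level n t ≤ level n s := by
  have h1 : 0 ≤ zeta n / levels n := div_nonneg hn.zeta_pos.le (Nat.cast_nonneg _)
  have h2 : (s : ℝ) * (zeta n / levels n) ≤ (t : ℝ) * (zeta n / levels n) :=
    mul_le_mul_of_nonneg_right (by exact_mod_cast h) h1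
  unfold level; linarith

lemma level_ge (hn : Large n) {t : ℕ} (ht : t ≤ levels n) : 1 - 2 * zeta n ≤ level n t := by
  refine le_trans ?_ (level_anti hn ht)
  have : (0 : ℝ) < levels n := by exact_mod_cast hn.levels_pos
  unfold level
  rw [mul_div_cancel₀ _ this.ne']
  linarith

lemma region_mono (hn : Large n) {s t : ℕ} (h : s ≤ t) (y x : E n) :
    region F Φ Q y s x ⊆ region F Φ Q y t x := fun i hi => by
  simp only [region, Finset.mem_filter] at hi ⊢
  exact ⟨hi.1, hi.2.1, fun w hw => (level_anti hn h).trans (hi.2.2 w hw)⟩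

/-- The facets not admitted at level zero have small weight. -/
lemma not_admitted_mass (hn : Large n) {y : E n} (hy : cost Φ y ≤ Fmax n) :
    ∑ i ∈ Finset.univ.filter (fun i => ¬ Admitted F Φ y 0 i), F.q i ≤
      Real.exp (-(tau n * zeta n / 6)) / 403 := by
  set m := ⌈Real.sqrt n⌉₊ with hmdef
  have hm : 0 < m := Nat.ceil_pos.2 (Real.sqrt_pos.2 (by exact_mod_cast hn.n_pos))
  set S := (rel Φ y).image fun x => y - x with hS
  have hS1 : ∀ z ∈ S, ‖z‖ ≤ 1 := fun z hz => by
    obtain ⟨x, hx, rfl⟩ := Finset.mem_image.1 hz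
    exact (Finset.mem_filter.1 hx).2
  set avg : (Fin m → E n) → E n := fun t => (m : ℝ)⁻¹ • ∑ k, t k
  set Tu := (Fintype.piFinset fun _ : Fin m => S).filter
    (fun t => ‖avg t‖ ^ 2 ≤ 1 - zeta n / 2) with hTu
  have hsub : Finset.univ.filter (fun i => ¬ Admitted F Φ y 0 i) ⊆
      Tu.biUnion fun t => cutters F (avg t) := by
    intro i hi
    simp only [Admitted, Finset.mem_filter, Finset.mem_univ, true_and, not_forall, not_le] at hi
    obtain ⟨w, hw, hwl⟩ := hi
    obtain ⟨t, ht, htn⟩ := maurey (fun z hz => hS1 z (Finset.mem_filter.1 hz).1) hw hm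
    refine Finset.mem_biUnion.2 ⟨t, Finset.mem_filter.2 ⟨Fintype.mem_piFinset.2 fun k =>
      (Finset.mem_filter.1 (ht k)).1, ?_⟩, Finset.mem_filter.2 ⟨Finset.mem_univ _, ?_⟩⟩
    · simp only [level, Nat.cast_zero, zero_mul, sub_zero] at hwl
      have := hn.sqrt_inv
      rw [← hmdef] at this
      linarith
    · have hk : ∀ k, thr n < ⟪F.vec i, t k⟫ := fun k => (Finset.mem_filter.1 (ht k)).2
      show thr n < ⟪F.vec i, avg t⟫
      simp only [avg, real_inner_smul_right, inner_sum]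
      have : ∑ _k : Fin m, thr n < ∑ k, ⟪F.vec i, t k⟫ :=
        Finset.sum_lt_sum_of_nonempty ⟨⟨0, hm⟩, Finset.mem_univ _⟩ fun k _ => hk k
      rw [Finset.sum_const, Finset.card_univ, Fintype.card_fin, nsmul_eq_mul] at this
      rw [inv_mul_eq_div, lt_div_iff₀ (by exact_mod_cast hm)]
      linarith
  have hterm : ∀ t ∈ Tu, ∑ i ∈ cutters F (avg t), F.q i ≤
      Real.exp (-(tau n * zeta n / 4)) / 3 := by
    intro t ht
    obtain ⟨-, htn⟩ := Finset.mem_filter.1 ht
    have h1 : ‖avg t‖ ≤ 1 := by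
      have : ‖avg t‖ ^ 2 ≤ 1 ^ 2 := by linarith [hn.zeta_pos]
      exact (pow_le_pow_iff_left₀ (norm_nonneg _) zero_le_one two_ne_zero).1 this
    rw [sum_cutters]
    rcases eq_or_ne (avg t) 0 with h0 | h0
    · have : mass F.vec F.q (half (avg t) (thr n)) = 0 := by
        simp [mass, half, h0, (thr_pos hn).le.not_gt]
      rw [this]; positivity
    refine (F.upper _ h1).trans (div_le_div_of_nonneg_right (Real.exp_le_exp.2 ?_) (by norm_num))
    have h2 : 0 < ‖avg t‖ ^ 2 := by positivity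
    have h3 : 1 + zeta n / 2 ≤ 1 / ‖avg t‖ ^ 2 := by
      rw [le_div_iff₀ h2]
      nlinarith [hn.zeta_pos]
    have := mul_le_mul_of_nonneg_left h3 (tau_nonneg n)
    linarith
  refine (Finset.sum_le_sum_of_subset_of_nonneg hsub fun i _ _ => F.q_nonneg i).trans ?_
  refine (sum_biUnion_le' _ _ fun i => F.q_nonneg i).trans ?_
  refine (Finset.sum_le_card_nsmul _ _ _ hterm).trans ?_
  have hcard : (Tu.card : ℝ) ≤ Real.exp (3 * (m : ℝ) * Real.log n) := by
    have h1 : Tu.card ≤ (n ^ 3) ^ m := (Finset.card_filter_le _ _).trans (by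
      rw [Fintype.card_piFinset_const]
      exact Nat.pow_le_pow_left (Finset.card_image_le.trans (rel_card_cube hn hy)) _)
    refine le_trans (Nat.cast_le.2 h1) (le_of_eq ?_)
    rw [show 3 * (m : ℝ) * Real.log n = ((3 * m : ℕ) : ℝ) * Real.log n by push_cast; ring,
      Real.exp_nat_mul, Real.exp_log (by exact_mod_cast hn.n_pos)]
    push_cast; rw [← pow_mul]
  rw [nsmul_eq_mul]
  refine (mul_le_mul_of_nonneg_right hcard (by positivity)).trans ?_
  rw [mul_div_assoc', ← Real.exp_add, div_le_div_iff₀ (by norm_num) (by norm_num)]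
  have h403 : (403 : ℝ) ≤ Real.exp 6 := by
    have := Real.exp_one_gt_d9
    have e : Real.exp 6 = Real.exp 1 ^ 6 := by rw [← Real.exp_nat_mul]; norm_num
    rw [e]
    exact le_trans (by norm_num : (403 : ℝ) ≤ 2.7182818283 ^ 6)
      (pow_le_pow_left₀ (by norm_num) this.le 6)
  calc Real.exp (3 * (m : ℝ) * Real.log n + -(tau n * zeta n / 4)) * 403
      ≤ Real.exp (3 * (m : ℝ) * Real.log n + -(tau n * zeta n / 4)) * Real.exp 6 :=
        mul_le_mul_of_nonneg_left h403 (Real.exp_pos _).le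
    _ = Real.exp (3 * (m : ℝ) * Real.log n + -(tau n * zeta n / 4) + 6) := (Real.exp_add _ _).symm
    _ ≤ Real.exp (-(tau n * zeta n / 6)) := Real.exp_le_exp.2 (by
        have := hn.tuples; rw [← hmdef] at this; linarith)
    _ ≤ Real.exp (-(tau n * zeta n / 6)) * 3 := le_mul_of_one_le_right (Real.exp_pos _).le (by norm_num)

/-- The hypothesis on the set `Q` of usable facets. -/
def Usable (F : Facets n) (Φ : Finset (E n)) (Q : Finset (Fin F.m)) (v : E n) : Prop :=
  ∀ y ∈ Metric.closedBall v small, ∀ x ∈ rel Φ y,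
    ∑ i ∈ cutters F (y - x) \ Q, F.q i ≤ Real.exp (-(10 * (n : ℝ)))

/-- A test point is missed with probability at least `exp (-f)`. -/
lemma missProb_zero (hn : Large n) {v y : E n} (hQ : Usable F Φ Q v) (hy : y ∈ goodPts Φ v) :
    Real.exp (-((n : ℝ) * Real.log n / 500)) ≤ missProb F Φ Q y 0 := by
  obtain ⟨hyv, hcost, hdeep⟩ := hy
  set c : E n → ℝ := fun x => 2 * slope * (1 + (n : ℝ) * (1 - ‖y - x‖))
  have hsingle : ∀ x ∈ rel Φ y, Real.exp (-c x) ≤ pr F.q (hitAll (region F Φ Q y 0) {x}) := by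
    intro x hx
    set r := ‖y - x‖ with hr
    obtain ⟨hxΦ, hr1⟩ := Finset.mem_filter.1 hx
    have hr0 : 1 - zeta n / 8 ≤ r := hdeep x hxΦ
    have hz := hn.zeta_small
    have hrpos : 0 < r := by linarith
    have he : tau n / 2 * (1 / r ^ 2 - 1) ≤ tau n * zeta n / 6 := by
      have h1 : 1 / r ^ 2 - 1 ≤ zeta n / 3 := by
        have hr2 : 3 / 4 ≤ r ^ 2 := by nlinarith
        rw [div_sub_one (by positivity), div_le_iff₀ (by positivity)]
        nlinarith [hn.zeta_pos, mul_le_mul_of_nonneg_left hr2 hn.zeta_pos.le,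
          mul_le_mul (show 1 - r ≤ zeta n / 8 by linarith) (show 1 + r ≤ 2 by linarith)
            (by linarith) (by linarith [hn.zeta_pos])]
      have := mul_le_mul_of_nonneg_left h1 (half_pos (a := tau n) (mul_pos (by norm_num [slope])
        (by exact_mod_cast hn.n_pos))).le
      linarith
    have he' : tau n / 2 * (1 / r ^ 2 - 1) ≤ c x - 6 := by
      have h1 : 1 / r ^ 2 - 1 ≤ 4 * (1 - r) := by
        have hr2 : 3 / 4 ≤ r ^ 2 := by nlinarith
        rw [div_sub_one (by positivity), div_le_iff₀ (by positivity)]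
        nlinarith [mul_le_mul_of_nonneg_left hr2 (show 0 ≤ 1 - r by linarith),
          mul_le_mul_of_nonneg_left (show 1 + r ≤ 2 by linarith) (show 0 ≤ 1 - r by linarith)]
      have := mul_le_mul_of_nonneg_left h1 (mul_nonneg (tau_nonneg n) (by norm_num : (0:ℝ) ≤ 1 / 2))
      simp only [c, tau, slope] at this ⊢
      linarith
    set e := tau n / 2 * (1 / r ^ 2 - 1) with hedef
    set μ := Real.exp (-e) / 201 with hμ
    have hfull := F.lower (y - x) (by rw [← hr]; linarith) hr1
    rw [← hr, ← hedef, ← sum_cutters] at hfull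
    have hsplit : ∑ i ∈ cutters F (y - x), F.q i ≤ ∑ i ∈ region F Φ Q y 0 x, F.q i +
        (∑ i ∈ cutters F (y - x) \ Q, F.q i +
          ∑ i ∈ Finset.univ.filter (fun i => ¬ Admitted F Φ y 0 i), F.q i) := by
      refine (Finset.sum_le_sum_of_subset_of_nonneg (t := region F Φ Q y 0 x ∪
        ((cutters F (y - x) \ Q) ∪ Finset.univ.filter (fun i => ¬ Admitted F Φ y 0 i)))
        (fun i hi => ?_) fun i _ _ => F.q_nonneg i).trans ((sum_union_le' _ _ F.q_nonneg).trans
          (add_le_add le_rfl (sum_union_le' _ _ F.q_nonneg)))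
      simp only [region, Finset.mem_union, Finset.mem_filter, Finset.mem_sdiff, Finset.mem_univ,
        true_and]
      tauto
    have hbad := not_admitted_mass (F := F) hn hcost
    have hfor := hQ y hyv x hx
    have h10 : Real.exp (-(10 * (n : ℝ))) ≤ Real.exp (-(tau n * zeta n / 6)) / 403 := by
      have h403 : (403 : ℝ) ≤ Real.exp 7 := by
        have e : Real.exp 7 = Real.exp 1 ^ 7 := by rw [← Real.exp_nat_mul]; norm_num
        rw [e]
        exact le_trans (by norm_num : (403 : ℝ) ≤ 2.7182818283 ^ 7)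
          (pow_le_pow_left₀ (by norm_num) Real.exp_one_gt_d9.le 7)
      rw [le_div_iff₀ (by norm_num)]
      refine (mul_le_mul_of_nonneg_left h403 (Real.exp_pos _).le).trans ?_
      rw [← Real.exp_add]
      refine Real.exp_le_exp.2 ?_
      have := hn.foreign
      linarith [mul_nonneg (tau_nonneg n) hn.zeta_pos.le]
    have hexp : Real.exp (-(tau n * zeta n / 6)) ≤ Real.exp (-e) :=
      Real.exp_le_exp.2 (by linarith)
    have hμle : μ ≤ ∑ i ∈ region F Φ Q y 0 x, F.q i := by
      simp only [μ]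
      linarith [Real.exp_pos (-e)]
    have h := pr_hit_one F.q_nonneg (q_le_one F) (region F Φ Q y 0 x) (by positivity) hμle
    have he0 : 0 ≤ e := by
      have : 1 ≤ 1 / r ^ 2 := by rw [le_div_iff₀ (by positivity), one_mul]; nlinarith
      exact mul_nonneg (by linarith [tau_nonneg n]) (by linarith)
    have h6 : Real.exp (-c x) ≤ μ / (1 + μ) := by
      have h1 : Real.exp (-c x) ≤ Real.exp (-e) * Real.exp (-6) := by
        rw [← Real.exp_add]; exact Real.exp_le_exp.2 (by linarith)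
      have h2 : Real.exp (-6) ≤ 1 / 202 := by
        rw [Real.exp_neg, ← one_div]
        refine one_div_le_one_div_of_le (by norm_num) ?_
        have e : Real.exp 6 = Real.exp 1 ^ 6 := by rw [← Real.exp_nat_mul]; norm_num
        rw [e]
        exact le_trans (by norm_num : (202 : ℝ) ≤ 2.7182818283 ^ 6)
          (pow_le_pow_left₀ (by norm_num) Real.exp_one_gt_d9.le 6)
      have h3 : μ ≤ 1 / 201 := by
        simp only [μ]
        exact div_le_div_of_nonneg_right (Real.exp_le_one_iff.2 (by linarith)) (by norm_num)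
      calc Real.exp (-c x) ≤ Real.exp (-e) * (1 / 202) :=
            h1.trans (mul_le_mul_of_nonneg_left h2 (Real.exp_pos _).le)
        _ = μ / (1 + 1 / 201) := by simp only [μ]; ring
        _ ≤ μ / (1 + μ) := div_le_div_of_nonneg_left (by positivity) (by positivity) (by linarith)
    refine h6.trans (h.trans (le_of_eq ?_))
    simp [hitAll]
  have hsum : ∑ x ∈ rel Φ y, c x ≤ (n : ℝ) * Real.log n / 500 := by
    have : ∑ x ∈ rel Φ y, c x = 2 * slope * cost Φ y := by
      rw [cost, Finset.mul_sum]; rfl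
    rw [this]
    refine (mul_le_mul_of_nonneg_left hcost (by norm_num [slope])).trans (le_of_eq ?_)
    rw [Fmax, slope]; ring
  calc Real.exp (-((n : ℝ) * Real.log n / 500)) ≤ Real.exp (-∑ x ∈ rel Φ y, c x) :=
        Real.exp_le_exp.2 (neg_le_neg hsum)
    _ = ∏ x ∈ rel Φ y, Real.exp (-c x) := by rw [← Finset.sum_neg_distrib, Real.exp_sum]
    _ ≤ ∏ x ∈ rel Φ y, pr F.q (hitAll (region F Φ Q y 0) {x}) :=
        Finset.prod_le_prod (fun x _ => (Real.exp_pos _).le) hsingle
    _ ≤ missProb F Φ Q y 0 := prod_le_pr_hitAll F.q_nonneg (q_le_one F) _ _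

/-- Two consecutive levels with nearly the same probability. -/
lemma exists_level (hn : Large n) {v y : E n} (hQ : Usable F Φ Q v) (hy : y ∈ goodPts Φ v) :
    ∃ t < levels n, Real.exp (-((n : ℝ) * Real.log n / 500)) ≤ missProb F Φ Q y t ∧
      missProb F Φ Q y (t + 1) ≤ Real.exp ((n : ℝ) / 16) * missProb F Φ Q y t := by
  have h0 := missProb_zero hn hQ hy
  have hmono : ∀ t, missProb F Φ Q y 0 ≤ missProb F Φ Q y t := fun t =>
    pr_mono F.q_nonneg (q_le_one F)
      (hitAll_mono (fun x _ => region_mono hn (Nat.zero_le t) y x) le_rfl)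
  by_contra hc
  push Not at hc
  have step : ∀ t ≤ levels n,
      missProb F Φ Q y 0 * Real.exp ((t : ℝ) * (n / 16)) ≤ missProb F Φ Q y t := by
    intro t
    induction t with
    | zero => intro _; simp
    | succ t ih =>
      intro ht
      have h1 := ih (Nat.le_of_succ_le ht)
      have h2 := hc t ht (h0.trans (hmono t))
      push_cast
      rw [add_mul, one_mul, Real.exp_add, ← mul_assoc]
      have := mul_le_mul_of_nonneg_right h1 (Real.exp_pos ((n : ℝ) / 16)).le
      linarith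
  have hL := step _ le_rfl
  have hpos : 0 < levels n := hn.levels_pos
  have h1 : missProb F Φ Q y (levels n) ≤ 1 := pr_le_one F.q_nonneg (q_le_one F) _
  -- the last step is strict
  obtain ⟨t, ht⟩ : ∃ t, levels n = t + 1 := ⟨levels n - 1, by omega⟩
  have h2 := hc t (by omega) (h0.trans (hmono t))
  have h3 := step t (by omega)
  have h4 : Real.exp (-((n : ℝ) * Real.log n / 500)) * Real.exp (((t : ℝ) + 1) * (n / 16)) <
      missProb F Φ Q y (t + 1) := by
    rw [add_mul, one_mul, Real.exp_add, ← mul_assoc]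
    refine lt_of_le_of_lt ?_ h2
    rw [mul_comm _ (Real.exp ((n : ℝ) / 16))]
    refine mul_le_mul_of_nonneg_left ?_ (Real.exp_pos _).le
    exact (mul_le_mul_of_nonneg_right h0 (Real.exp_pos _).le).trans h3
  have h5 : (1 : ℝ) ≤ Real.exp (-((n : ℝ) * Real.log n / 500)) * Real.exp (((t : ℝ) + 1) * (n / 16)) := by
    rw [← Real.exp_add]
    refine Real.one_le_exp ?_
    have := hn.pigeon
    rw [ht] at this
    push_cast at this
    rw [div_le_iff₀ (by positivity)] at this
    linarith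
  rw [← ht] at h4
  linarith

/-- A facet of a region makes the other requirements at most `17 exp (2 τ ζ)` times likelier. -/
lemma amplification (hn : Large n) {v y : E n} (hQ : Usable F Φ Q v) (hy : y ∈ goodPts Φ v)
    {t : ℕ} (ht : t < levels n) {i : Fin F.m} {x₀ : E n} (hx₀ : x₀ ∈ rel Φ y)
    (hi : i ∈ region F Φ Q y t x₀) :
    1 ≤ 17 * Real.exp (2 * (tau n * zeta n)) *
      pr F.q (hitAll (region F Φ Q y (t + 1)) ((rel Φ y).filter fun x => i ∈ region F Φ Q y t x)) := by
  obtain ⟨hyv, hcost, -⟩ := hy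
  simp only [region, Finset.mem_filter] at hi
  obtain ⟨hcut, hiQ, hadm⟩ := hi
  have hz₀ : y - x₀ ∈ cutSet F Φ y i :=
    Finset.mem_filter.2 ⟨Finset.mem_image_of_mem _ hx₀, (Finset.mem_filter.1 hcut).2⟩
  obtain ⟨w, hw, hwmin⟩ := exists_min_point ⟨_, hz₀⟩
  have hlev := level_ge hn ht.le
  have hzeta := hn.zeta_small
  have hw2 : level n t ≤ ‖w‖ ^ 2 := hadm w hw
  have hwpos : 0 < ‖w‖ := by
    by_contra h
    have : ‖w‖ = 0 := le_antisymm (not_lt.1 h) (norm_nonneg w)
    rw [this] at hw2; nlinarith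
  set Z := (rel Φ y).image fun x => y - x with hZ
  have hZ1 : ∀ z ∈ Z, ‖z‖ ≤ 1 := fun z hz => by
    obtain ⟨x, hx, rfl⟩ := Finset.mem_image.1 hz
    exact (Finset.mem_filter.1 hx).2
  have hcutZ : cutSet F Φ y i ⊆ Z := Finset.filter_subset _ _
  have hw1 : ‖w‖ ≤ 1 := by
    have := convexHull_min (fun z hz => mem_closedBall_zero_iff.2 (hZ1 z (hcutZ hz)))
      (convex_closedBall _ _) hw
    exact mem_closedBall_zero_iff.1 this
  have hT := thr_pos hn
  have heT : eta n / thr n ≤ zeta n / 4 := hn.eta_small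
  have heta : 2 * eta n ≤ thr n * (zeta n / 2) := by
    rw [div_le_iff₀ hT] at heT; linarith
  set a := ((thr n + 2 * eta n) / ‖w‖ ^ 2) • w with ha
  have hanorm : ‖a‖ = (thr n + 2 * eta n) / ‖w‖ := by
    rw [ha, norm_smul, Real.norm_eq_abs, abs_of_nonneg (by have := hn.eta_pos; positivity)]
    field_simp
  have hw90 : 9 / 10 ≤ ‖w‖ := by nlinarith
  have ha2 : ‖a‖ ≤ 2 * thr n := by
    rw [hanorm, div_le_iff₀ hwpos]
    nlinarith [mul_le_mul_of_nonneg_left hw90 hT.le, mul_le_mul_of_nonneg_left hzeta hT.le]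
  have haw : ∀ z ∈ cutSet F Φ y i, thr n + 2 * eta n ≤ ⟪a, z⟫ := fun z hz => by
    rw [ha, real_inner_smul_left]
    have h1 : 0 ≤ (thr n + 2 * eta n) / ‖w‖ ^ 2 := by have := hn.eta_pos; positivity
    calc thr n + 2 * eta n = (thr n + 2 * eta n) / ‖w‖ ^ 2 * ‖w‖ ^ 2 := by field_simp
      _ ≤ _ := mul_le_mul_of_nonneg_left (hwmin z hz) h1
  -- the facets near `a`
  set I := Q.filter fun l => ∀ z ∈ Z, |⟪F.vec l - a, z⟫| ≤ eta n with hI
  have hIsub : ∀ x ∈ (rel Φ y).filter (fun x => i ∈ region F Φ Q y t x),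
      I ⊆ region F Φ Q y (t + 1) x := by
    intro x hx l hl
    obtain ⟨hxrel, hxi⟩ := Finset.mem_filter.1 hx
    simp only [region, Finset.mem_filter] at hxi
    obtain ⟨hlQ, hlZ⟩ := Finset.mem_filter.1 hl
    have hxz : y - x ∈ cutSet F Φ y i :=
      Finset.mem_filter.2 ⟨Finset.mem_image_of_mem _ hxrel, (Finset.mem_filter.1 hxi.1).2⟩
    refine Finset.mem_filter.2 ⟨Finset.mem_filter.2 ⟨Finset.mem_univ _, ?_⟩, hlQ, fun u hu => ?_⟩
    · have h1 := abs_le.1 (hlZ _ (hcutZ hxz))
      rw [inner_sub_left] at h1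
      show thr n < ⟪F.vec l, y - x⟫
      linarith [haw _ hxz, hn.eta_pos, h1.1]
    · have hslab : Convex ℝ {p : E n | |⟪F.vec l - a, p⟫| ≤ eta n} := by
        intro p hp p' hp' c c' hc hc' hcc
        simp only [Set.mem_setOf_eq, inner_add_right, real_inner_smul_right] at *
        rw [abs_le] at *
        have e : c' = 1 - c := by linarith
        subst e
        constructor <;> nlinarith
      have hhalf : Convex ℝ {p : E n | thr n < ⟪F.vec l, p⟫} := by
        intro p hp p' hp' c c' hc hc' hcc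
        simp only [Set.mem_setOf_eq, inner_add_right, real_inner_smul_right] at *
        rcases hc.eq_or_lt with rfl | hc0
        · rw [zero_add] at hcc; subst hcc; linarith
        · nlinarith [mul_lt_mul_of_pos_left hp hc0, mul_le_mul_of_nonneg_left hp'.le hc']
      have h1 : |⟪F.vec l - a, u⟫| ≤ eta n :=
        convexHull_min (fun z hz => hlZ z (Finset.mem_filter.1 hz).1) hslab hu
      have h2 : thr n < ⟪F.vec l, u⟫ :=
        convexHull_min (fun z hz => (Finset.mem_filter.1 hz).2) hhalf hu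
      have h3 : ⟪a, u⟫ ≤ (thr n + 2 * eta n) / ‖w‖ * ‖u‖ := by
        rw [← hanorm]; exact real_inner_le_norm a u
      rw [inner_sub_left] at h1
      have h4 : (thr n - eta n) * ‖w‖ ≤ (thr n + 2 * eta n) * ‖u‖ := by
        have h5 := (abs_le.1 h1).2
        rw [div_mul_eq_mul_div, le_div_iff₀ hwpos] at h3
        nlinarith [mul_le_mul_of_nonneg_right (show thr n - eta n ≤ ⟪a, u⟫ by linarith) hwpos.le]
      set s := eta n / thr n with hs
      have hs0 : 0 ≤ s := div_nonneg hn.eta_pos.le hT.le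
      have hse : eta n = s * thr n := by rw [hs]; field_simp
      have h6 : (1 - s) * ‖w‖ ≤ (1 + 2 * s) * ‖u‖ := by
        rw [hse] at h4
        nlinarith
      have h7 : (1 - 6 * s) * ‖w‖ ^ 2 ≤ ‖u‖ ^ 2 := by
        have h8 : (1 - 3 * s) * ‖w‖ ≤ ‖u‖ := by
          by_contra hc'
          push Not at hc'
          nlinarith [mul_lt_mul_of_pos_left hc' (show 0 < 1 + 2 * s by linarith),
            mul_nonneg (mul_nonneg hs0 hs0) hwpos.le]
        have h9 : 0 ≤ 1 - 3 * s := by linarith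
        have h10 := mul_self_le_mul_self (mul_nonneg h9 hwpos.le) h8
        nlinarith [mul_nonneg (mul_nonneg hs0 hs0) (sq_nonneg ‖w‖)]
      rw [level_succ]
      have hgap : 6 * s ≤ zeta n / levels n := by
        rw [hs, mul_div_assoc']; exact hn.gap
      have h11 : ‖w‖ ^ 2 ≤ 1 := pow_le_one₀ hwpos.le hw1
      have := mul_le_mul_of_nonneg_left h11 (show 0 ≤ 6 * s by linarith)
      linarith
  -- the weight of `I`
  have hmassI : Real.exp (-(2 * (tau n * zeta n))) / 16 ≤ ∑ l ∈ I, F.q l := by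
    have h1 := F.shift Z (Finset.card_image_le.trans (rel_card_cube hn hcost)) hZ1 a ha2
    have h2 : mass F.vec F.q {g | ∀ z ∈ Z, |⟪g - a, z⟫| ≤ eta n} ≤
        ∑ l ∈ I, F.q l + ∑ l ∈ cutters F (y - x₀) \ Q, F.q l := by
      rw [show mass F.vec F.q {g | ∀ z ∈ Z, |⟪g - a, z⟫| ≤ eta n} = ∑ l ∈ Finset.univ.filter
          (fun l => ∀ z ∈ Z, |⟪F.vec l - a, z⟫| ≤ eta n), F.q l by
            simp [mass, Finset.sum_filter]
            exact Finset.sum_congr rfl fun l _ => by congr]
      refine le_trans (Finset.sum_le_sum_of_subset_of_nonneg ?_ fun l _ _ => F.q_nonneg l)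
        (sum_union_le' _ _ fun l => F.q_nonneg l)
      intro l hl
      simp only [Finset.mem_filter, Finset.mem_univ, true_and, Set.mem_setOf_eq] at hl
      by_cases hlQ : l ∈ Q
      · exact Finset.mem_union_left _ (Finset.mem_filter.2 ⟨hlQ, hl⟩)
      · refine Finset.mem_union_right _ (Finset.mem_sdiff.2
          ⟨Finset.mem_filter.2 ⟨Finset.mem_univ _, ?_⟩, hlQ⟩)
        have h1 := abs_le.1 (hl _ (hcutZ hz₀))
        rw [inner_sub_left] at h1
        show thr n < ⟪F.vec l, y - x₀⟫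
        linarith [haw _ hz₀, hn.eta_pos, h1.1]
    have h3 : ‖a‖ ^ 2 ≤ tau n * (1 + 4 * zeta n) := by
      rw [hanorm, div_pow, div_le_iff₀ (by positivity), ← thr_sq]
      calc (thr n + 2 * eta n) ^ 2 ≤ (thr n * (1 + zeta n / 2)) ^ 2 :=
            pow_le_pow_left₀ (by linarith [hn.eta_pos]) (by linarith) 2
        _ ≤ thr n ^ 2 * (1 + 4 * zeta n) * (1 - 2 * zeta n) := by
            rw [mul_pow, mul_assoc]
            refine mul_le_mul_of_nonneg_left ?_ (sq_nonneg _)
            nlinarith [hn.zeta_pos]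
        _ ≤ _ := mul_le_mul_of_nonneg_left (hlev.trans hw2) (by nlinarith [hn.zeta_pos])
    have h4 : Real.exp (-(2 * (tau n * zeta n))) / 8 ≤ Real.exp ((tau n - ‖a‖ ^ 2) / 2) / 8 :=
      div_le_div_of_nonneg_right (Real.exp_le_exp.2 (by linarith)) (by norm_num)
    have h5 := hQ y hyv x₀ hx₀
    have h6 : Real.exp (-(10 * (n : ℝ))) ≤ Real.exp (-(2 * (tau n * zeta n))) / 16 := by
      have h16 : (16 : ℝ) ≤ Real.exp 7 := by
        have e : Real.exp 7 = Real.exp 1 ^ 7 := by rw [← Real.exp_nat_mul]; norm_num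
        rw [e]
        exact le_trans (by norm_num : (16 : ℝ) ≤ 2.7182818283 ^ 7)
          (pow_le_pow_left₀ (by norm_num) Real.exp_one_gt_d9.le 7)
      rw [le_div_iff₀ (by norm_num)]
      refine (mul_le_mul_of_nonneg_left h16 (Real.exp_pos _).le).trans ?_
      rw [← Real.exp_add]
      exact Real.exp_le_exp.2 (by linarith [hn.foreign])
    linarith
  set μ := Real.exp (-(2 * (tau n * zeta n))) / 16 with hμ
  have h := pr_hit_one F.q_nonneg (q_le_one F) I (by positivity) hmassI
  have hμ1 : μ ≤ 1 / 16 := div_le_div_of_nonneg_right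
    (Real.exp_le_one_iff.2 (by linarith [mul_nonneg (tau_nonneg n) hn.zeta_pos.le])) (by norm_num)
  have h7 : μ / (1 + 1 / 16) ≤ μ / (1 + μ) :=
    div_le_div_of_nonneg_left (by positivity) (by positivity) (by linarith)
  have h8 : pr F.q {ω | ∃ l ∈ I, ω l = true} ≤ pr F.q (hitAll (region F Φ Q y (t + 1))
      ((rel Φ y).filter fun x => i ∈ region F Φ Q y t x)) := by
    refine pr_mono F.q_nonneg (q_le_one F) fun ω ⟨l, hl, hωl⟩ x hx => ⟨l, hIsub x hx hl, hωl⟩
  calc (1 : ℝ) = 17 * Real.exp (2 * (tau n * zeta n)) * (μ / (1 + 1 / 16)) := by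
        rw [hμ, Real.exp_neg]; field_simp; norm_num
    _ ≤ _ := mul_le_mul_of_nonneg_left ((h7.trans h).trans h8) (by positivity)

/-- The correlation of two separated test points. -/
lemma pair_bound (hn : Large n) {v y y' : E n} (hQ : Usable F Φ Q v) (hy : y ∈ goodPts Φ v)
    (hy' : y' ∈ goodPts Φ v)
    (hsep : ∀ x ∈ rel Φ y, ∀ x' ∈ rel Φ y', sep n ≤ ‖(y - x) - (y' - x')‖)
    {t t' : ℕ} (ht : t < levels n) (ht' : t' < levels n) :
    pr F.q (hitAll (region F Φ Q y t) (rel Φ y) ∩ hitAll (region F Φ Q y' t') (rel Φ y')) ≤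
      missProb F Φ Q y (t + 1) * missProb F Φ Q y' (t' + 1) * Real.exp 1 := by
  set A := 17 * Real.exp (2 * (tau n * zeta n)) with hA
  have hA0 : 0 ≤ A := by positivity
  refine (pr_pair F.q_nonneg (q_le_one F) (region F Φ Q y t) (region F Φ Q y (t + 1))
    (region F Φ Q y' t') (region F Φ Q y' (t' + 1)) (rel Φ y) (rel Φ y')
    (fun x _ => region_mono hn t.le_succ y x) (fun x _ => region_mono hn t'.le_succ y' x)
    (fun _ => A) (fun _ => A) (fun i hi => ⟨hA0, ?_⟩) (fun i hi => ⟨hA0, ?_⟩)).trans ?_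
  · obtain ⟨x₀, hx₀, hi₀⟩ := Finset.mem_biUnion.1 (Finset.mem_inter.1 hi).1
    exact amplification hn hQ hy ht hx₀ hi₀
  · obtain ⟨x₀, hx₀, hi₀⟩ := Finset.mem_biUnion.1 (Finset.mem_inter.1 hi).2
    exact amplification hn hQ hy' ht' hx₀ hi₀
  refine mul_le_mul_of_nonneg_left (Real.exp_le_exp.2 ?_)
    (mul_nonneg (pr_nonneg F.q_nonneg (q_le_one F) _) (pr_nonneg F.q_nonneg (q_le_one F) _))
  rw [← Finset.sum_mul]
  set C := (rel Φ y).biUnion (region F Φ Q y t) ∩ (rel Φ y').biUnion (region F Φ Q y' t')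
  set mid : E n × E n → E n := fun p => (2 : ℝ)⁻¹ • ((y - p.1) + (y' - p.2))
  have hsub : C ⊆ ((rel Φ y) ×ˢ (rel Φ y')).biUnion fun p => cutters F (mid p) := by
    intro i hi
    obtain ⟨h1, h2⟩ := Finset.mem_inter.1 hi
    obtain ⟨x, hx, hix⟩ := Finset.mem_biUnion.1 h1
    obtain ⟨x', hx', hix'⟩ := Finset.mem_biUnion.1 h2
    have e1 : thr n < ⟪F.vec i, y - x⟫ :=
      (Finset.mem_filter.1 (Finset.mem_filter.1 hix).1).2
    have e2 : thr n < ⟪F.vec i, y' - x'⟫ :=
      (Finset.mem_filter.1 (Finset.mem_filter.1 hix').1).2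
    refine Finset.mem_biUnion.2 ⟨(x, x'), Finset.mem_product.2 ⟨hx, hx'⟩,
      Finset.mem_filter.2 ⟨Finset.mem_univ _, ?_⟩⟩
    show thr n < ⟪F.vec i, mid (x, x')⟫
    simp only [mid, real_inner_smul_right, inner_add_right]
    linarith
  have hpair : ∀ p ∈ (rel Φ y) ×ˢ (rel Φ y'), ∑ i ∈ cutters F (mid p), F.q i ≤
      Real.exp (-(tau n * sep n ^ 2 / 8)) / 3 := by
    rintro ⟨x, x'⟩ hp
    obtain ⟨hx, hx'⟩ := Finset.mem_product.1 hp
    have hs0 : 0 ≤ sep n := Real.rpow_nonneg (Nat.cast_nonneg n) _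
    have h1 := norm_mid_sq_le hs0 (hsep x hx x' hx')
    have a1 : ‖y - x‖ ^ 2 ≤ 1 := pow_le_one₀ (norm_nonneg _) (Finset.mem_filter.1 hx).2
    have a2 : ‖y' - x'‖ ^ 2 ≤ 1 := pow_le_one₀ (norm_nonneg _) (Finset.mem_filter.1 hx').2
    have h2 : ‖mid (x, x')‖ ^ 2 ≤ 1 - sep n ^ 2 / 4 := by simp only [mid]; linarith
    have h3 : ‖mid (x, x')‖ ≤ 1 := by
      have : ‖mid (x, x')‖ ^ 2 ≤ 1 ^ 2 := by linarith [sq_nonneg (sep n)]
      exact (pow_le_pow_iff_left₀ (norm_nonneg _) zero_le_one two_ne_zero).1 this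
    rw [sum_cutters]
    rcases eq_or_ne (mid (x, x')) 0 with h0 | h0
    · have : mass F.vec F.q (half (mid (x, x')) (thr n)) = 0 := by
        simp [mass, half, h0, (thr_pos hn).le.not_gt]
      rw [this]; positivity
    refine (F.upper _ h3).trans (div_le_div_of_nonneg_right (Real.exp_le_exp.2 ?_) (by norm_num))
    have h4 : 0 < ‖mid (x, x')‖ ^ 2 := by positivity
    have h5 : 1 + sep n ^ 2 / 4 ≤ 1 / ‖mid (x, x')‖ ^ 2 := by
      rw [le_div_iff₀ h4]
      nlinarith [sq_nonneg (sep n)]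
    have := mul_le_mul_of_nonneg_left h5 (tau_nonneg n)
    linarith
  have hq : ∑ i ∈ C, F.q i ≤ (n : ℝ) ^ 6 * (Real.exp (-(tau n * sep n ^ 2 / 8)) / 3) := by
    refine (Finset.sum_le_sum_of_subset_of_nonneg hsub fun i _ _ => F.q_nonneg i).trans ?_
    refine (sum_biUnion_le' _ _ fun i => F.q_nonneg i).trans ?_
    refine (Finset.sum_le_card_nsmul _ _ _ hpair).trans ?_
    rw [nsmul_eq_mul]
    refine mul_le_mul_of_nonneg_right ?_ (by positivity)
    rw [Finset.card_product]
    have h1 := rel_card_cube hn hy.2.1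
    have h2 := rel_card_cube hn hy'.2.1
    have h3 : ((rel Φ y).card * (rel Φ y').card : ℕ) ≤ n ^ 3 * n ^ 3 := Nat.mul_le_mul h1 h2
    refine le_trans (Nat.cast_le.2 h3) (le_of_eq ?_)
    push_cast; ring
  refine (mul_le_mul_of_nonneg_right hq (mul_nonneg hA0 hA0)).trans ?_
  have h6 : (n : ℝ) ^ 6 = Real.exp (6 * Real.log n) := by
    rw [show (6 : ℝ) = ((6 : ℕ) : ℝ) by norm_num, Real.exp_nat_mul,
      Real.exp_log (by exact_mod_cast hn.n_pos)]
  have hexp : Real.exp (6 * Real.log n) * Real.exp (-(tau n * sep n ^ 2 / 8)) *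
      (Real.exp (2 * (tau n * zeta n)) * Real.exp (2 * (tau n * zeta n))) * Real.exp 6 ≤ 1 := by
    rw [← Real.exp_add, ← Real.exp_add, ← Real.exp_add, ← Real.exp_add, Real.exp_le_one_iff]
    have := hn.common
    linarith
  have h97 : (97 : ℝ) ≤ Real.exp 6 := by
    have e : Real.exp 6 = Real.exp 1 ^ 6 := by rw [← Real.exp_nat_mul]; norm_num
    rw [e]
    exact le_trans (by norm_num : (97 : ℝ) ≤ 2.7182818283 ^ 6)
      (pow_le_pow_left₀ (by norm_num) Real.exp_one_gt_d9.le 6)
  rw [h6, hA]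
  have h0 : 0 ≤ Real.exp (6 * Real.log n) * Real.exp (-(tau n * sep n ^ 2 / 8)) *
      (Real.exp (2 * (tau n * zeta n)) * Real.exp (2 * (tau n * zeta n))) := by positivity
  nlinarith [mul_le_mul_of_nonneg_left h97 h0]

/-- The second moment bound for one subwindow. -/
theorem missed_prob (hn : Large n) {v : E n} (hQ : Usable F Φ Q v)
    (hK : ((near Φ v).card : ℝ) ≤ Kmax n)
    (hvol : volume (Metric.closedBall (0 : E n) small) ≤ 2 * volume (goodPts Φ v)) :
    Real.exp (-((n : ℝ) / 4)) ≤ pr F.q (Missed F Φ Q v) := by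
  set f := (n : ℝ) * Real.log n / 500 with hf
  set M := ⌈Real.exp f⌉₊ with hM
  have hM0 : 0 < M := Nat.ceil_pos.2 (Real.exp_pos _)
  have hMle : (M : ℝ) ≤ 2 * Real.exp f := by
    have h1 := Nat.ceil_lt_add_one (Real.exp_pos f).le
    have hf0 : 0 ≤ f := by
      have : (1 : ℝ) ≤ n := by exact_mod_cast hn.n_pos
      rw [hf]; exact div_nonneg (mul_nonneg (by linarith) (Real.log_nonneg this)) (by norm_num)
    have h2 := Real.one_le_exp hf0
    rw [hM]; linarith
  set C : E n → Finset (E n) := fun y₀ =>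
    ((near Φ v) ×ˢ (rel Φ y₀)).image fun p => y₀ + (p.1 - p.2) with hC
  set K := (near Φ v).card * n ^ 3
  have hCK : ∀ y₀ ∈ goodPts Φ v, (C y₀).card ≤ K := fun y₀ hy₀ => by
    refine Finset.card_image_le.trans ?_
    rw [Finset.card_product]
    exact Nat.mul_le_mul_left _ (rel_card_cube hn hy₀.2.1)
  have hlt : ((M * K : ℕ) : ℝ≥0∞) * volume (Metric.closedBall (0 : E n) (sep n)) <
      volume (goodPts Φ v) := by
    have hs : 0 ≤ sep n := Real.rpow_nonneg (Nat.cast_nonneg n) _
    have hsm : (0 : ℝ) ≤ small := by norm_num [small]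
    rw [Measure.addHaar_closedBall' volume _ hs]
    rw [Measure.addHaar_closedBall' volume _ hsm] at hvol
    simp only [finrank_euclideanSpace_fin] at hvol ⊢
    set V := volume (Metric.closedBall (0 : E n) 1)
    have hV0 : V ≠ 0 := (Metric.measure_closedBall_pos volume _ one_pos).ne'
    have hVtop : V ≠ ⊤ := measure_closedBall_lt_top.ne
    have key : 2 * (((M * K : ℕ) : ℝ) * sep n ^ n) < small ^ n := by
      have hn0 : (0 : ℝ) < n := by exact_mod_cast hn.n_pos
      have hK' : ((M * K : ℕ) : ℝ) ≤ 2 * Real.exp f * (Kmax n * (n : ℝ) ^ 3) := by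
        simp only [K]; push_cast
        exact mul_le_mul hMle (mul_le_mul_of_nonneg_right hK (by positivity)) (by positivity)
          (by positivity)
      have hKm : Kmax n ≤ (n : ℝ) ^ 4 * Real.exp 1 ^ n := by
        unfold Kmax
        refine mul_le_mul_of_nonneg_left (pow_le_pow_left₀ (by norm_num [small]) ?_ n) (by positivity)
        linarith [Real.exp_one_gt_d9, show 2 * small ≤ 1 by norm_num [small]]
      have hsep : sep n ^ n = Real.exp (-((n : ℝ) * Real.log n / 8)) := by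
        rw [sep, Real.rpow_def_of_pos hn0, ← Real.exp_nat_mul]
        congr 1; ring
      have hsmall : Real.exp (-(14 * (n : ℝ))) ≤ small ^ n := by
        rw [show -(14 * (n : ℝ)) = (n : ℝ) * (-14) by ring, Real.exp_nat_mul]
        refine pow_le_pow_left₀ (Real.exp_pos _).le ?_ n
        rw [Real.exp_neg, small, inv_eq_one_div]
        refine one_div_le_one_div_of_le (by norm_num) ?_
        have e : Real.exp 14 = Real.exp 1 ^ 14 := by rw [← Real.exp_nat_mul]; norm_num
        rw [e]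
        exact le_trans (by norm_num : (1000000 : ℝ) ≤ 2.7182818283 ^ 14)
          (pow_le_pow_left₀ (by norm_num) Real.exp_one_gt_d9.le 14)
      refine lt_of_le_of_lt (mul_le_mul_of_nonneg_left
        (mul_le_mul_of_nonneg_right (hK'.trans (mul_le_mul_of_nonneg_left
          (mul_le_mul_of_nonneg_right hKm (by positivity)) (by positivity))) (by positivity))
        zero_le_two) (lt_of_lt_of_le ?_ hsmall)
      have h4 : (4 : ℝ) < Real.exp 2 := by
        have e : Real.exp 2 = Real.exp 1 ^ 2 := by rw [← Real.exp_nat_mul]; norm_num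
        rw [e]
        exact lt_of_lt_of_le (by norm_num : (4 : ℝ) < 2.7182818283 ^ 2)
          (pow_le_pow_left₀ (by norm_num) Real.exp_one_gt_d9.le 2)
      have h7 : (n : ℝ) ^ 7 = Real.exp (7 * Real.log n) := by
        rw [show (7 : ℝ) = ((7 : ℕ) : ℝ) by norm_num, Real.exp_nat_mul, Real.exp_log hn0]
      have hstep : Real.exp 2 * (Real.exp f * Real.exp (7 * Real.log n) * Real.exp (n : ℝ) *
          Real.exp (-((n : ℝ) * Real.log n / 8))) ≤ Real.exp (-(14 * (n : ℝ))) := by
        rw [← Real.exp_add, ← Real.exp_add, ← Real.exp_add, ← Real.exp_add]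
        refine Real.exp_le_exp.2 ?_
        have := hn.packing
        rw [← hf] at this
        linarith [Real.log_nonneg (show (1 : ℝ) ≤ n by exact_mod_cast hn.n_pos)]
      have e : 2 * (2 * Real.exp f * ((n : ℝ) ^ 4 * Real.exp 1 ^ n * (n : ℝ) ^ 3) * sep n ^ n) =
          4 * (Real.exp f * Real.exp (7 * Real.log n) * Real.exp (n : ℝ) *
          Real.exp (-((n : ℝ) * Real.log n / 8))) := by
        rw [hsep, ← Real.exp_nat_mul, mul_one, ← h7]; ring
      rw [e]
      refine lt_of_lt_of_le ?_ hstep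
      exact mul_lt_mul_of_pos_right h4 (by positivity)
    by_contra hc
    push Not at hc
    have h2 := hvol.trans (mul_le_mul_right hc 2)
    rw [← mul_assoc, ← mul_assoc, ← ENNReal.ofReal_natCast,
      show (2 : ℝ≥0∞) = ENNReal.ofReal 2 by simp, ← ENNReal.ofReal_mul zero_le_two,
      ← ENNReal.ofReal_mul (by positivity), ENNReal.mul_le_mul_iff_left hV0 hVtop,
      ENNReal.ofReal_le_ofReal_iff (by positivity)] at h2
    linarith
  obtain ⟨p, hpG, hpsep⟩ := exists_separated C hCK hlt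
  have hsep : ∀ a b, a ≠ b → ∀ x ∈ rel Φ (p a), ∀ x' ∈ rel Φ (p b),
      sep n ≤ ‖(p a - x) - (p b - x')‖ := by
    have key : ∀ a b, a < b → ∀ x ∈ rel Φ (p a), ∀ x' ∈ rel Φ (p b),
        sep n ≤ ‖(p a - x) - (p b - x')‖ := by
      intro a b hab x hx x' hx'
      have hx'n : x' ∈ near Φ v := by
        obtain ⟨h1, h2⟩ := Finset.mem_filter.1 hx'
        refine Finset.mem_filter.2 ⟨h1, ?_⟩
        have h3 : ‖v - p b‖ ≤ small := by
          rw [← dist_eq_norm, dist_comm]; exact Metric.mem_closedBall.1 (hpG b).1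
        linarith [norm_sub_le_norm_sub_add_norm_sub v (p b) x']
      have := hpsep a b hab (p a + (x' - x))
        (Finset.mem_image.2 ⟨(x', x), Finset.mem_product.2 ⟨hx'n, hx⟩, rfl⟩)
      rw [← norm_neg] at this
      refine le_of_lt (lt_of_lt_of_eq this ?_)
      congr 1; abel
    intro a b hab x hx x' hx'
    rcases lt_or_gt_of_ne hab with h | h
    · exact key a b h x hx x' hx'
    · rw [← norm_neg, neg_sub]; exact key b a h x' hx' x hx
  choose t ht hlow hrat using fun a => exists_level hn hQ (hpG a)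
  set ev : Fin M → Set (Fin F.m → Bool) := fun a =>
    hitAll (region F Φ Q (p a) (t a)) (rel Φ (p a))
  set P : Fin M → ℝ := fun a => missProb F Φ Q (p a) (t a)
  have hP : ∀ a, 0 < P a := fun a => (Real.exp_pos _).trans_le (hlow a)
  have hev : ∀ a, pr F.q (ev a) = P a := fun a => rfl
  set X : (Fin F.m → Bool) → ℝ := fun ω => ∑ a, if ω ∈ ev a then (P a)⁻¹ else 0
  have hX1 : ∑ ω, wt F.q ω * X ω = M := by
    simp only [X, Finset.mul_sum]
    rw [Finset.sum_comm]
    have : ∀ a, ∑ ω, wt F.q ω * (if ω ∈ ev a then (P a)⁻¹ else 0) = 1 := fun a => by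
      have e : ∑ ω, wt F.q ω * (if ω ∈ ev a then (P a)⁻¹ else 0) = pr F.q (ev a) * (P a)⁻¹ := by
        rw [pr_eq, Finset.sum_mul]
        exact Finset.sum_congr rfl fun ω _ => by split_ifs <;> simp
      rw [e, hev, mul_inv_cancel₀ (hP a).ne']
    rw [Finset.sum_congr rfl fun a _ => this a]
    simp
  have hX2 : ∑ ω, wt F.q ω * X ω ^ 2 ≤ (M : ℝ) ^ 2 * Real.exp ((n : ℝ) / 8 + 2) := by
    have hexp : ∑ ω, wt F.q ω * X ω ^ 2 =
        ∑ a, ∑ b, pr F.q (ev a ∩ ev b) * ((P a)⁻¹ * (P b)⁻¹) := by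
      simp only [X, sq, Finset.mul_sum, pr_eq, Finset.sum_mul]
      rw [Finset.sum_comm]
      refine Finset.sum_congr rfl fun a _ => ?_
      rw [Finset.sum_comm]
      refine Finset.sum_congr rfl fun b _ => Finset.sum_congr rfl fun ω _ => ?_
      simp only [Set.mem_inter_iff]
      by_cases h1 : ω ∈ ev a <;> by_cases h2 : ω ∈ ev b <;> simp [h1, h2, mul_comm (P a)⁻¹]
    rw [hexp]
    set D := Real.exp ((n : ℝ) / 8 + 1) with hD
    have hterm : ∀ a b, pr F.q (ev a ∩ ev b) * ((P a)⁻¹ * (P b)⁻¹) ≤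
        D + if a = b then Real.exp f else 0 := by
      intro a b
      by_cases hab : a = b
      · subst hab
        rw [if_pos rfl, Set.inter_self, hev, ← mul_assoc, mul_inv_cancel₀ (hP a).ne', one_mul]
        have : (P a)⁻¹ ≤ Real.exp f := by
          rw [← inv_inv (Real.exp f), ← Real.exp_neg]
          exact inv_anti₀ (Real.exp_pos _) (hlow a)
        linarith [Real.exp_pos ((n : ℝ) / 8 + 1)]
      · rw [if_neg hab, add_zero, ← mul_inv, ← div_eq_mul_inv,
          div_le_iff₀ (mul_pos (hP a) (hP b))]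
        refine (pair_bound hn hQ (hpG a) (hpG b) (hsep a b hab) (ht a) (ht b)).trans ?_
        have h1 := mul_le_mul (hrat a) (hrat b) (pr_nonneg F.q_nonneg (q_le_one F) _)
          (mul_nonneg (Real.exp_pos _).le (hP a).le)
        refine (mul_le_mul_of_nonneg_right h1 (Real.exp_pos 1).le).trans (le_of_eq ?_)
        rw [hD, show (n : ℝ) / 8 + 1 = n / 16 + n / 16 + 1 by ring, Real.exp_add, Real.exp_add]
        ring
    refine (Finset.sum_le_sum fun a _ => Finset.sum_le_sum fun b _ => hterm a b).trans ?_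
    simp only [Finset.sum_add_distrib, Finset.sum_const, Finset.card_univ, Fintype.card_fin,
      nsmul_eq_mul, Finset.sum_ite_eq, Finset.mem_univ, if_true]
    have h1 : Real.exp f ≤ M := Nat.le_ceil _
    have h2 : Real.exp ((n : ℝ) / 8 + 2) = D * Real.exp 1 := by
      rw [hD, ← Real.exp_add]; ring_nf
    have h3 : (1 : ℝ) ≤ D := Real.one_le_exp (by positivity)
    have h4 : 2 ≤ Real.exp 1 := by linarith [Real.exp_one_gt_d9]
    rw [h2]
    nlinarith [mul_le_mul_of_nonneg_left h1 (Nat.cast_nonneg (α := ℝ) M),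
      mul_le_mul_of_nonneg_left h3 (sq_nonneg (M : ℝ)),
      mul_le_mul_of_nonneg_left h4 (mul_nonneg (sq_nonneg (M : ℝ)) (zero_le_one.trans h3))]
  set U := Missed F Φ Q v
  have hsupp : ∀ ω, ω ∉ U → X ω = 0 := by
    intro ω hω
    refine Finset.sum_eq_zero fun a _ => if_neg fun h => hω ⟨p a, (hpG a).1, fun x hx => ?_⟩
    obtain ⟨i, hi, hωi⟩ := h x hx
    simp only [region, Finset.mem_filter] at hi
    exact ⟨i, hi.2.1, hωi, (Finset.mem_filter.1 hi.1).2⟩
  have hwt : ∀ ω, 0 ≤ wt F.q ω := wt_nonneg F.q_nonneg (q_le_one F)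
  have hCS : (M : ℝ) ^ 2 ≤ pr F.q U * ∑ ω, wt F.q ω * X ω ^ 2 := by
    rw [← hX1, pr_eq]
    refine Finset.sum_sq_le_sum_mul_sum_of_sq_le_mul _ (fun ω _ => by split_ifs <;> simp [hwt])
      (fun ω _ => mul_nonneg (hwt ω) (sq_nonneg _)) fun ω _ => ?_
    by_cases hω : ω ∈ U
    · rw [if_pos hω]; exact le_of_eq (by ring)
    · rw [if_neg hω, hsupp ω hω]; simp
  have hfin := hCS.trans (mul_le_mul_of_nonneg_left hX2 (pr_nonneg F.q_nonneg (q_le_one F) _))
  have hM2 : (0 : ℝ) < (M : ℝ) ^ 2 := by positivity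
  have h5 : 1 ≤ pr F.q U * Real.exp ((n : ℝ) / 8 + 2) := by
    by_contra hc
    push Not at hc
    nlinarith [mul_lt_mul_of_pos_left hc hM2]
  calc Real.exp (-((n : ℝ) / 4)) ≤ Real.exp (-((n : ℝ) / 8 + 2)) :=
        Real.exp_le_exp.2 (by linarith [hn.exp_gap])
    _ ≤ pr F.q U := by
        rw [Real.exp_neg, inv_le_iff_one_le_mul₀ (Real.exp_pos _)]; exact h5

end

end Vale.Agent.P230
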