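import Vale.Agent.P230.Average

/-!
# P230: every convex body has a translative covering of density at most `200 n log n`

The order of growth of Rogers' bound, with a crude constant: greedy covering of a net of the period box
by slightly shrunk translates, and one further translate for each net point left over.
-/

open scoped ENNReal Pointwise
open MeasureTheory Metric Set Filter

namespace Vale.Agent.P230.Upper

variable {n : ℕ}

/-- The box `[a, b]^n`. -/
def box (n : ℕ) (a b : ℝ) : Set (E n) := {x | ∀ i, a ≤ x i ∧ x i ≤ b}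

lemma volume_box (a b : ℝ) : volume (box n a b) = ENNReal.ofReal (b - a) ^ n := by
  have e : box n a b = (MeasurableEquiv.toLp 2 (Fin n → ℝ)).symm ⁻¹'
      (Set.univ.pi fun _ => Set.Icc a b) := by
    ext x
    simp [box]
    exact ⟨fun h => ⟨fun i => (h i).1, fun i => (h i).2⟩, fun h i => ⟨h.1 i, h.2 i⟩⟩
  rw [e, (EuclideanSpace.volume_preserving_symm_measurableEquiv_toLp (Fin n)).measure_preimage
    (MeasurableSet.univ_pi fun _ => measurableSet_Icc).nullMeasurableSet, volume_pi_pi]
  simp [Real.volume_Icc, Finset.prod_const]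

lemma isClosed_box (a b : ℝ) : IsClosed (box n a b) := by
  have : box n a b = ⋂ i, (fun x : E n => x i) ⁻¹' Icc a b := by ext x; simp [box]
  rw [this]
  exact isClosed_iInter fun i => isClosed_Icc.preimage (PiLp.continuous_apply 2 _ i)

/-- A convex body has a centre of symmetry up to a factor `2 · 2ⁿ` in volume. -/
lemma exists_centre {K : Set (E n)} (hc : Convex ℝ K) (hk : IsCompact K) (h0 : volume K ≠ 0) :
    ∃ c : E n, volume K / (2 * 2 ^ n) < volume {z : E n | c + z ∈ K ∧ c - z ∈ K} := by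
  have hKm := hk.measurableSet
  set s : Set (E n × E n) := {p | p.2 ∈ K ∧ p.1 - p.2 ∈ K}
  have hs : MeasurableSet s :=
    (measurable_snd hKm).inter ((measurable_fst.sub measurable_snd) hKm)
  have hy : ∫⁻ y : E n, volume ((fun x => (x, y)) ⁻¹' s) = volume K * volume K := by
    rw [← lintegral_indicator_const hKm (volume K)]
    refine lintegral_congr fun y => ?_
    by_cases hy : y ∈ K
    · rw [indicator_of_mem hy]
      have : (fun x => (x, y)) ⁻¹' s = (fun x => x + -y) ⁻¹' K := by
        ext x; simp [s, hy, sub_eq_add_neg]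
      rw [this, measure_preimage_add_right]
    · rw [indicator_of_notMem hy]
      have : (fun x => (x, y)) ⁻¹' s = ∅ := by ext x; simp [s, hy]
      simp [this]
  have hx : ∫⁻ x : E n, volume (Prod.mk x ⁻¹' s) = volume K * volume K := by
    rw [← hy, ← Measure.prod_apply hs, Measure.prod_apply_symm hs]
  have hsupp : ∀ x ∉ (2 : ℝ) • K, volume (Prod.mk x ⁻¹' s) = 0 := by
    intro x hxn
    have : Prod.mk x ⁻¹' s = ∅ := by
      refine eq_empty_of_forall_notMem fun y hy => hxn ?_
      refine ⟨(1 / 2 : ℝ) • y + (1 / 2 : ℝ) • (x - y),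
        hc hy.1 hy.2 (by norm_num) (by norm_num) (by norm_num), ?_⟩
      simp only [smul_add, smul_smul]; norm_num
    simp [this]
  have hvol2 : volume ((2 : ℝ) • K) = 2 ^ n * volume K := by
    rw [Measure.addHaar_smul_of_nonneg _ (by norm_num), finrank_euclideanSpace_fin]
    simp [ENNReal.ofReal_pow]
  by_contra hno
  simp only [not_exists, not_lt] at hno
  have hle : ∀ x, volume (Prod.mk x ⁻¹' s) ≤ volume K / (2 * 2 ^ n) := by
    intro x
    refine le_trans (le_of_eq ?_) (hno ((1 / 2 : ℝ) • x))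
    rw [← measure_preimage_add volume ((1 / 2 : ℝ) • x) (Prod.mk x ⁻¹' s)]
    congr 1
    ext z
    have : x - ((1 / 2 : ℝ) • x + z) = (1 / 2 : ℝ) • x - z := by module
    simp only [s, mem_preimage, mem_ofPred_eq, this]
  have hb : volume K * volume K ≤ volume K / (2 * 2 ^ n) * (2 ^ n * volume K) := by
    rw [← hx, ← hvol2, ← lintegral_indicator_const (hk.smul (2 : ℝ)).measurableSet]
    refine lintegral_mono fun x => ?_
    by_cases h : x ∈ (2 : ℝ) • K
    · rw [indicator_of_mem h]; exact hle x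
    · simp [hsupp x h]
  have hfin : volume K ≠ ⊤ := hk.measure_lt_top.ne
  have h2 := ENNReal.toReal_mono (by
    exact ENNReal.mul_ne_top (ENNReal.div_ne_top hfin (by positivity))
      (ENNReal.mul_ne_top (by finiteness) hfin)) hb
  simp only [ENNReal.toReal_mul, ENNReal.toReal_div, ENNReal.toReal_pow,
    ENNReal.toReal_ofNat] at h2
  have hp : 0 < (volume K).toReal := ENNReal.toReal_pos h0 hfin
  have he : (volume K).toReal / (2 * 2 ^ n) * (2 ^ n * (volume K).toReal) =
      (volume K).toReal * (volume K).toReal / 2 := by field_simp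
  nlinarith

open scoped Classical in
/-- Some translate covers at least the average share of a finite set. -/
lemma exists_good {B K' : Set (E n)} (hB : MeasurableSet B) (hBne : B.Nonempty)
    (hBt : volume B ≠ ⊤) (hK' : MeasurableSet K') (hK't : volume K' ≠ ⊤) (Q : Finset (E n))
    (hQ : ∀ p ∈ Q, ∀ x, p - x ∈ K' → x ∈ B) :
    ∃ x ∈ B, (Q.card : ℝ) * volume.real K' ≤
      ((Q.filter fun p => p - x ∈ K').card : ℝ) * volume.real B := by
  classical
  set f : E n → ℕ := fun x => (Q.filter fun p => p - x ∈ K').card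
  have hbdd : BddAbove (f '' B) :=
    ⟨Q.card, by rintro _ ⟨x, -, rfl⟩; exact Finset.card_filter_le _ _⟩
  obtain ⟨x, hxB, hx⟩ := Nat.sSup_mem (hBne.image f) hbdd
  have hmax : ∀ y ∈ B, f y ≤ f x := fun y hy => hx ▸ le_csSup hbdd ⟨y, hy, rfl⟩
  refine ⟨x, hxB, ?_⟩
  have hm : ∀ p : E n, MeasurableSet ((fun x => p - x) ⁻¹' K') := fun p =>
    (measurable_const.sub measurable_id) hK'
  have key : (Q.card : ℝ≥0∞) * volume K' ≤ (f x : ℝ≥0∞) * volume B :=
    calc (Q.card : ℝ≥0∞) * volume K'
        = ∑ p ∈ Q, ∫⁻ y, ((fun x => p - x) ⁻¹' K').indicator 1 y := by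
          rw [← nsmul_eq_mul, ← Finset.sum_const]
          refine Finset.sum_congr rfl fun p _ => ?_
          rw [lintegral_indicator_one (hm p), (Measure.measurePreserving_sub_left volume p).measure_preimage
            hK'.nullMeasurableSet]
      _ = ∫⁻ y, ∑ p ∈ Q, ((fun x => p - x) ⁻¹' K').indicator 1 y :=
          (lintegral_finsetSum _ fun p _ => measurable_one.indicator (hm p)).symm
      _ ≤ ∫⁻ y, B.indicator (fun _ => (f x : ℝ≥0∞)) y := by
          refine lintegral_mono fun y => ?_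
          by_cases hy : y ∈ B
          · rw [indicator_of_mem hy]
            refine le_trans (le_of_eq ?_) (Nat.cast_le.2 (hmax y hy))
            simp [f, indicator_apply, Finset.sum_boole]
          · rw [indicator_of_notMem hy]
            refine le_of_eq (Finset.sum_eq_zero fun p hp => indicator_of_notMem ?_ _)
            exact fun h => hy (hQ p hp y h)
      _ = (f x : ℝ≥0∞) * volume B := lintegral_indicator_const hB _
  have := ENNReal.toReal_mono (ENNReal.mul_ne_top (ENNReal.natCast_ne_top _) hBt) key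
  simp only [ENNReal.toReal_mul, ENNReal.toReal_natCast] at this
  simpa only [measureReal_def] using this

open scoped Classical in
/-- Greedy choice of translates. -/
lemma greedy {B K' : Set (E n)} (hB : MeasurableSet B) (hBne : B.Nonempty) (hBt : volume B ≠ ⊤)
    (hB0 : 0 < volume.real B) (hK' : MeasurableSet K') (hK't : volume K' ≠ ⊤) (Q : Finset (E n))
    (hQ : ∀ p ∈ Q, ∀ x, p - x ∈ K' → x ∈ B) (hq : volume.real K' ≤ volume.real B) (M : ℕ) :
    ∃ G R : Finset (E n), ↑G ⊆ B ∧ G.card ≤ M ∧ R ⊆ Q ∧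
      (R.card : ℝ) ≤ Q.card * (1 - volume.real K' / volume.real B) ^ M ∧
      ∀ p ∈ Q, p ∉ R → ∃ x ∈ G, p - x ∈ K' := by
  induction M with
  | zero => exact ⟨∅, Q, by simp, by simp, subset_rfl, by simp, fun p h h' => absurd h h'⟩
  | succ M ih =>
    obtain ⟨G, R, hG, hGc, hR, hRc, hcov⟩ := ih
    obtain ⟨x, hxB, hx⟩ := exists_good hB hBne hBt hK' hK't R fun p hp => hQ p (hR hp)
    refine ⟨insert x G, R.filter (fun p => p - x ∉ K'), ?_, ?_, ?_, ?_, ?_⟩
    · simp [Set.insert_subset_iff, hxB, hG]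
    · exact (Finset.card_insert_le _ _).trans (by omega)
    · exact (Finset.filter_subset _ _).trans hR
    · have hsplit : ((R.filter fun p => p - x ∈ K').card : ℝ) +
          (R.filter fun p => p - x ∉ K').card = R.card := by
        exact_mod_cast Finset.card_filter_add_card_filter_not (s := R) _
      have h1 : (R.card : ℝ) * (volume.real K' / volume.real B) ≤
          (R.filter fun p => p - x ∈ K').card := by
        rw [← mul_div_assoc, div_le_iff₀ hB0]; exact hx
      have h2 : 0 ≤ 1 - volume.real K' / volume.real B := by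
        rw [sub_nonneg, div_le_one hB0]; exact hq
      rw [pow_succ, ← mul_assoc]
      nlinarith [mul_le_mul_of_nonneg_right hRc h2]
    · intro p hp hpR
      by_cases hpR' : p ∈ R
      · refine ⟨x, Finset.mem_insert_self _ _, ?_⟩
        by_contra h
        exact hpR (Finset.mem_filter.2 ⟨hpR', h⟩)
      · obtain ⟨y, hy, hy'⟩ := hcov p hp hpR'
        exact ⟨y, Finset.mem_insert_of_mem hy, hy'⟩

/-- A maximal packing by translates of `T` is a net for `T - T`. -/
lemma exists_net {A B T : Set (E n)} (hT : MeasurableSet T) (hBt : volume B ≠ ⊤)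
    (hT0 : 0 < volume.real T) (hsub : ∀ p ∈ A, ∀ t ∈ T, p + t ∈ B) :
    ∃ P : Finset (E n), ↑P ⊆ A ∧ (P.card : ℝ) * volume.real T ≤ volume.real B ∧
      ∀ y ∈ A, ∃ p ∈ P, ∃ t ∈ T, ∃ t' ∈ T, y + t = p + t' := by
  classical
  let pack : Finset (E n) → Prop := fun P => ↑P ⊆ A ∧
    (↑P : Set (E n)).PairwiseDisjoint fun p => (fun z => -p + z) ⁻¹' T
  have hbound : ∀ P, pack P → (P.card : ℝ) * volume.real T ≤ volume.real B := by
    rintro P ⟨hPA, hPd⟩
    have e : volume (⋃ p ∈ P, (fun z => -p + z) ⁻¹' T) = (P.card : ℝ≥0∞) * volume T := by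
      rw [measure_biUnion_finset hPd fun p _ => (measurable_const.add measurable_id) hT,
        Finset.sum_congr rfl fun p _ => measure_preimage_add volume (-p) T, Finset.sum_const,
        nsmul_eq_mul]
    have hU : (⋃ p ∈ P, (fun z => -p + z) ⁻¹' T) ⊆ B := by
      intro z hz
      obtain ⟨p, hp, hz'⟩ := mem_iUnion₂.1 hz
      simpa using hsub p (hPA hp) _ hz'
    have := ENNReal.toReal_mono hBt (e ▸ measure_mono hU)
    rw [ENNReal.toReal_mul, ENNReal.toReal_natCast] at this
    exact this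
  set N : Set ℕ := Finset.card '' {P | pack P}
  have hNne : N.Nonempty := ⟨0, ∅, ⟨by simp, by simp⟩, rfl⟩
  have hNb : BddAbove N := by
    refine ⟨⌈volume.real B / volume.real T⌉₊, ?_⟩
    rintro _ ⟨P, hP, rfl⟩
    have := (le_div_iff₀ hT0).2 (hbound P hP)
    exact_mod_cast this.trans (Nat.le_ceil _)
  obtain ⟨P, hP, hPmax⟩ := Nat.sSup_mem hNne hNb
  refine ⟨P, hP.1, hbound P hP, fun y hy => ?_⟩
  have hTne : T.Nonempty := nonempty_of_measure_ne_zero fun h => by
    rw [measureReal_def, h] at hT0; simp at hT0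
  by_cases hyP : y ∈ P
  · obtain ⟨t, ht⟩ := hTne
    exact ⟨y, hyP, t, ht, t, ht, rfl⟩
  by_contra hno
  push Not at hno
  have hdis : ∀ p ∈ P, Disjoint ((fun z => -y + z) ⁻¹' T) ((fun z => -p + z) ⁻¹' T) := by
    intro p hp
    rw [Set.disjoint_left]
    intro z h1 h2
    exact hno p hp _ h1 _ h2 (by simp)
  have hP' : pack (insert y P) := by
    refine ⟨by simp [Set.insert_subset_iff, hy, hP.1], ?_⟩
    rw [Finset.coe_insert]
    exact hP.2.insert fun p hp _ => hdis p hp
  have h1 := le_csSup hNb ⟨_, hP', rfl⟩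
  rw [Finset.card_insert_of_notMem hyP, ← hPmax] at h1
  omega

/-- The final arithmetic of `exists_period`. -/
lemma finish {n : ℕ} {x M R V P : ℝ} (hn : 2 ≤ n) (hV : 0 ≤ V) (hP : 0 ≤ P) (hx : x ≤ M + R)
    (hM : M * V ≤ (16 * n * Real.log (16 * n) + 1) * P) (hR : R * V ≤ P) :
    x * V ≤ 100 * n * Real.log n * P := by
  have hn2 : (2 : ℝ) ≤ n := by exact_mod_cast hn
  have hn0 : (0 : ℝ) < n := by linarith
  have hlog2 : (1 : ℝ) / 2 ≤ Real.log n := by
    refine le_trans ?_ (Real.log_le_log (by norm_num) hn2)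
    linarith [Real.log_two_gt_d9]
  have hℓ : Real.log (16 * n) ≤ 5 * Real.log n := by
    rw [Real.log_mul (by norm_num) hn0.ne', show (16 : ℝ) = 2 ^ 4 by norm_num, Real.log_pow]
    push_cast
    linarith [Real.log_le_log (by norm_num) hn2]
  have hfin : 16 * (n : ℝ) * Real.log (16 * n) + 2 ≤ 100 * n * Real.log n := by
    nlinarith [mul_le_mul_of_nonneg_left hℓ hn0.le,
      mul_le_mul hn2 hlog2 (by norm_num) hn0.le]
  calc x * V ≤ (M + R) * V := mul_le_mul_of_nonneg_right hx hV
    _ ≤ (16 * n * Real.log (16 * n) + 2) * P := by linarith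
    _ ≤ _ := mul_le_mul_of_nonneg_right hfin hP

/-- One period of the covering. -/
lemma exists_period (hn : 2 ≤ n) {K : Set (E n)} (hc : Convex ℝ K) (hk : IsCompact K)
    (hi : (interior K).Nonempty) :
    ∃ L : ℝ, 0 < L ∧ ∃ F : Finset (E n), (∀ x ∈ F, ∀ i, |x i| ≤ 2 * L) ∧
      (∀ y ∈ box n 0 L, ∃ x ∈ F, y - x ∈ K) ∧
      (F.card : ℝ) * volume.real K ≤ 100 * n * Real.log n * L ^ n := by
  have hV0' : volume K ≠ 0 := (Measure.measure_pos_of_nonempty_interior volume hi).ne'
  have hVt : volume K ≠ ⊤ := hk.measure_lt_top.ne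
  set V := volume.real K
  have hV : 0 < V := ENNReal.toReal_pos hV0' hVt
  obtain ⟨r, hr, hKr⟩ := hk.isBounded.exists_pos_norm_le
  obtain ⟨c, hcS⟩ := exists_centre hc hk hV0'
  set S := {z : E n | c + z ∈ K ∧ c - z ∈ K}
  have hSm : IsClosed S := (hk.isClosed.preimage (continuous_const.add continuous_id)).inter
    (hk.isClosed.preimage (continuous_const.sub continuous_id))
  have hSb : ∀ z ∈ S, ‖z‖ ≤ r := by
    intro z hz
    have e : z = (1 / 2 : ℝ) • (c + z) - (1 / 2 : ℝ) • (c - z) := by module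
    rw [e]
    refine (norm_sub_le _ _).trans ?_
    rw [norm_smul, norm_smul]
    norm_num
    linarith [hKr _ hz.1, hKr _ hz.2]
  have hSne : S.Nonempty := nonempty_of_measure_ne_zero (ne_bot_of_gt hcS)
  have hcK : c ∈ K := by
    obtain ⟨z, hz⟩ := hSne
    have := hc hz.1 hz.2 (show (0 : ℝ) ≤ 1 / 2 by norm_num) (show (0 : ℝ) ≤ 1 / 2 by norm_num)
      (by norm_num)
    convert this using 1
    module
  have hn0 : (0 : ℝ) < n := by positivity
  have hn2 : (2 : ℝ) ≤ n := by exact_mod_cast hn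
  set L : ℝ := 4 * n * r
  have hL : 0 < L := by positivity
  have hrL : r ≤ L := le_mul_of_one_le_left hr.le (by linarith)
  set B := box n (-r) (L + r)
  have hBvol : volume.real B = (L + 2 * r) ^ n := by
    rw [measureReal_def, volume_box, ENNReal.toReal_pow, ENNReal.toReal_ofReal (by linarith)]
    ring_nf
  have hBt : volume B ≠ ⊤ := by rw [volume_box]; finiteness
  have hB0 : 0 < volume.real B := by rw [hBvol]; positivity
  have hBle : volume.real B ≤ 2 * L ^ n := by
    rw [hBvol, show L + 2 * r = L * (1 + 1 / (2 * n)) by simp only [L]; field_simp; ring,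
      mul_pow, mul_comm]
    refine mul_le_mul_of_nonneg_right ?_ (by positivity)
    refine (pow_le_pow_left₀ (by positivity) ((add_comm _ _).le.trans
      (Real.add_one_le_exp _)) _).trans ?_
    rw [← Real.exp_nat_mul, show (n : ℝ) * (1 / (2 * n)) = 1 / 2 by field_simp]
    exact (Real.exp_bound_div_one_sub_of_interval (by norm_num) (by norm_num)).trans (by norm_num)
  have hmemB : ∀ p ∈ box n 0 L, ∀ t : E n, ‖t‖ ≤ r → p + t ∈ B := by
    intro p hp t ht i
    have := abs_le.1 ((abs_coord_le_norm t i).trans ht)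
    obtain ⟨h1, h2⟩ := hp i
    simp only [PiLp.add_apply]
    constructor <;> linarith
  -- the packing
  set T := (1 / (2 * n) : ℝ) • S
  have hTm : MeasurableSet T := hSm.measurableSet.const_smul₀ _
  have hTvol : volume.real T = (1 / (2 * n) : ℝ) ^ n * volume.real S := by
    simp only [T, measureReal_def, Measure.addHaar_smul_of_nonneg volume
      (show (0 : ℝ) ≤ 1 / (2 * n) by positivity), finrank_euclideanSpace_fin, ENNReal.toReal_mul]
    rw [ENNReal.toReal_ofReal (by positivity)]
  have hSt : volume S ≠ ⊤ :=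
    ne_top_of_le_ne_top (measure_closedBall_lt_top (μ := volume) (x := (0 : E n)) (r := r)).ne
      (measure_mono fun z hz => mem_closedBall_zero_iff.2 (hSb z hz))
  have hSvol : V / (2 * 2 ^ n) ≤ volume.real S := by
    have := ENNReal.toReal_mono hSt hcS.le
    simpa [V, measureReal_def, ENNReal.toReal_div, ENNReal.toReal_mul] using this
  have hSvol0 : 0 < volume.real S := lt_of_lt_of_le (by positivity) hSvol
  have hT0 : 0 < volume.real T := by rw [hTvol]; positivity
  have hTb : ∀ t ∈ T, ‖t‖ ≤ r := by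
    rintro _ ⟨z, hz, rfl⟩
    rw [norm_smul, Real.norm_eq_abs, abs_of_nonneg (by positivity)]
    calc 1 / (2 * (n : ℝ)) * ‖z‖ ≤ 1 * ‖z‖ := by
          refine mul_le_mul_of_nonneg_right ?_ (norm_nonneg _)
          rw [div_le_one (by positivity)]; linarith
      _ ≤ r := by rw [one_mul]; exact hSb z hz
  obtain ⟨P, hPA, hPc, hnet⟩ :=
    exists_net hTm hBt hT0 fun p hp t ht => hmemB p hp t (hTb t ht)
  -- the shrunk body
  set K' := ((1 / n : ℝ) • c) +ᵥ ((1 - 1 / n : ℝ) • K)
  have h1n : (1 : ℝ) / n ≤ 1 / 2 := by gcongr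
  have hK'sub : K' ⊆ K := by
    rintro _ ⟨_, ⟨u, hu, rfl⟩, rfl⟩
    exact hc hcK hu (by positivity) (by linarith) (by ring)
  have hK'm : MeasurableSet K' := ((hk.smul _).vadd _).measurableSet
  have hK't : volume K' ≠ ⊤ := ne_top_of_le_ne_top hVt (measure_mono hK'sub)
  have hK'vol : V / 8 ≤ volume.real K' := by
    simp only [K', measureReal_def, measure_vadd, Measure.addHaar_smul_of_nonneg volume
      (show (0 : ℝ) ≤ 1 - 1 / n by linarith), finrank_euclideanSpace_fin, ENNReal.toReal_mul]
    rw [ENNReal.toReal_ofReal (pow_nonneg (by linarith) _)]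
    have hq : (1 : ℝ) / 8 ≤ (1 - 1 / n) ^ n := by
      have hd : 1 + 1 / ((n : ℝ) - 1) ≤ Real.exp (1 / ((n : ℝ) - 1)) :=
        (add_comm _ _).le.trans (Real.add_one_le_exp _)
      have hsplit : (1 - 1 / (n : ℝ)) ^ n * (1 + 1 / ((n : ℝ) - 1)) ^ n = 1 := by
        rw [← mul_pow]
        have hne : (n : ℝ) - 1 ≠ 0 := by linarith
        rw [show (1 - 1 / (n : ℝ)) * (1 + 1 / ((n : ℝ) - 1)) = 1 by field_simp; ring, one_pow]
      have h4 : (1 + 1 / ((n : ℝ) - 1)) ^ n ≤ 8 := by
        have hn1 : (0 : ℝ) < (n : ℝ) - 1 := by linarith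
        refine (pow_le_pow_left₀ (by positivity) hd _).trans ?_
        rw [← Real.exp_nat_mul]
        have h2 : (n : ℝ) * (1 / ((n : ℝ) - 1)) ≤ 1 + 1 := by
          rw [mul_one_div, div_le_iff₀ hn1]; linarith
        refine (Real.exp_le_exp.2 h2).trans ?_
        rw [Real.exp_add]
        nlinarith [Real.exp_one_lt_d9, Real.exp_pos 1]
      nlinarith [pow_nonneg (show (0 : ℝ) ≤ 1 - 1 / n by linarith) n]
    have := mul_le_mul_of_nonneg_right hq hV.le
    simp only [V, measureReal_def] at this ⊢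
    linarith
  have hKB : ∀ p ∈ box n 0 L, ∀ x, p - x ∈ K → x ∈ B := fun p hp x hx => by
    simpa using hmemB p hp (-(p - x)) (by rw [norm_neg]; exact hKr _ hx)
  have hBne : B.Nonempty := ⟨0, fun i => ⟨by simp; linarith, by simp; linarith⟩⟩
  have hVB : V ≤ L ^ n := by
    have hsub : K ⊆ box n (-r) r := fun u hu i =>
      abs_le.1 ((abs_coord_le_norm u i).trans (hKr u hu))
    have h := ENNReal.toReal_mono (by rw [volume_box]; finiteness) (measure_mono (μ := volume) hsub)
    rw [volume_box, ENNReal.toReal_pow, ENNReal.toReal_ofReal (by linarith)] at h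
    refine h.trans (pow_le_pow_left₀ (by linarith) ?_ _)
    simp only [L]; nlinarith
  have hvB : volume.real K' ≤ volume.real B := by
    refine (measureReal_mono hK'sub hVt).trans (hVB.trans ?_)
    rw [hBvol]; gcongr; linarith
  set ℓ : ℝ := Real.log (16 * n)
  have hℓ0 : 0 ≤ ℓ := Real.log_nonneg (by linarith)
  set q : ℝ := volume.real K' / volume.real B
  have hK'0 : 0 < volume.real K' := lt_of_lt_of_le (by positivity) hK'vol
  have hq0 : 0 < q := div_pos hK'0 hB0
  set M := ⌈(n : ℝ) * ℓ / q⌉₊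
  classical
  obtain ⟨G, R, hGB, hGc, hRP, hRc, hcov⟩ := greedy (isClosed_box _ _).measurableSet hBne hBt hB0
    hK'm hK't P (fun p hp x hx => hKB p (hPA hp) x (hK'sub hx)) hvB M
  refine ⟨L, hL, G ∪ R.image (fun p => p - c), ?_, ?_, ?_⟩
  · have hB2 : ∀ x ∈ B, ∀ i, |x i| ≤ 2 * L := fun x hx i => by
      rw [abs_le]; constructor <;> linarith [(hx i).1, (hx i).2]
    intro x hx
    rcases Finset.mem_union.1 hx with h | h
    · exact hB2 x (hGB h)
    · obtain ⟨p, hp, rfl⟩ := Finset.mem_image.1 h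
      exact hB2 _ (hKB p (hPA (hRP hp)) _ (by simpa using hcK))
  · intro y hy
    obtain ⟨p, hp, t, ht, t', ht', e⟩ := hnet y hy
    obtain ⟨z, hz, rfl⟩ := ht
    obtain ⟨z', hz', rfl⟩ := ht'
    have hw : c + (1 / 2 : ℝ) • (z' - z) ∈ K := by
      have := hc hz'.1 hz.2 (show (0 : ℝ) ≤ 1 / 2 by norm_num)
        (show (0 : ℝ) ≤ 1 / 2 by norm_num) (by norm_num)
      convert this using 1
      module
    have ey : y = p + (1 / n : ℝ) • ((1 / 2 : ℝ) • (z' - z)) := by
      rw [eq_sub_of_add_eq e, smul_smul, show (1 / n : ℝ) * (1 / 2) = 1 / (2 * n) by ring]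
      module
    by_cases hpR : p ∈ R
    · refine ⟨p - c, Finset.mem_union_right _ (Finset.mem_image_of_mem _ hpR), ?_⟩
      have := hc hw hcK (show (0 : ℝ) ≤ 1 / n by positivity)
        (show (0 : ℝ) ≤ 1 - 1 / n by linarith) (by ring)
      convert this using 1
      rw [ey]; module
    · obtain ⟨x, hx, _, ⟨u, hu, rfl⟩, hu'⟩ := hcov p hp hpR
      refine ⟨x, Finset.mem_union_left _ hx, ?_⟩
      have := hc hw hu (show (0 : ℝ) ≤ 1 / n by positivity)
        (show (0 : ℝ) ≤ 1 - 1 / n by linarith) (by ring)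
      convert this using 1
      simp only [vadd_eq_add] at hu'
      rw [ey, eq_add_of_sub_eq hu'.symm]; module
  · have hM : (M : ℝ) * V ≤ (16 * n * ℓ + 1) * L ^ n := by
      have h1 : (M : ℝ) ≤ n * ℓ / q + 1 := (Nat.ceil_lt_add_one (by positivity)).le
      have h2 : (n : ℝ) * ℓ / q * V ≤ 16 * n * ℓ * L ^ n := by
        simp only [q]
        rw [div_div_eq_mul_div, div_mul_eq_mul_div, div_le_iff₀ hK'0]
        calc n * ℓ * volume.real B * V ≤ n * ℓ * (2 * L ^ n) * (8 * volume.real K') := by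
              gcongr; linarith
          _ = _ := by ring
      nlinarith [mul_le_mul_of_nonneg_right h1 hV.le]
    have hR : (R.card : ℝ) * V ≤ L ^ n := by
      have hpow : (1 - q) ^ M ≤ ((16 * (n : ℝ)) ^ n)⁻¹ := by
        calc (1 - q) ^ M ≤ Real.exp (-q) ^ M := pow_le_pow_left₀
              (by rw [sub_nonneg, div_le_one hB0]; exact hvB) (Real.one_sub_le_exp_neg q) _
          _ ≤ Real.exp (-((n : ℝ) * ℓ)) := by
              rw [← Real.exp_nat_mul, Real.exp_le_exp]
              have := (div_le_iff₀ hq0).1 (Nat.le_ceil ((n : ℝ) * ℓ / q))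
              simp only [M]
              linarith
          _ = _ := by
              rw [Real.exp_neg, Real.exp_nat_mul, Real.exp_log (by positivity)]
      have hP : (P.card : ℝ) * (V / (2 * 2 ^ n) * (1 / (2 * n) : ℝ) ^ n) ≤ 2 * L ^ n := by
        refine le_trans ?_ (hPc.trans hBle)
        rw [hTvol, mul_comm ((1 / (2 * n) : ℝ) ^ n)]
        gcongr
      have e16 : (1 : ℝ) / (16 * n) ^ n = (1 / 4 : ℝ) ^ n * ((1 / (2 * n)) ^ n * (1 / 2) ^ n) := by
        rw [← mul_pow, ← mul_pow, ← one_div_pow]; congr 1; field_simp; ring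
      calc (R.card : ℝ) * V ≤ P.card * ((16 * (n : ℝ)) ^ n)⁻¹ * V := by
            refine mul_le_mul_of_nonneg_right (hRc.trans ?_) hV.le
            exact mul_le_mul_of_nonneg_left hpow (by positivity)
        _ = 2 * (1 / 4 : ℝ) ^ n * (P.card * (V / (2 * 2 ^ n) * (1 / (2 * n) : ℝ) ^ n)) := by
            rw [← one_div, e16, one_div_pow 2]; ring
        _ ≤ 2 * (1 / 4 : ℝ) ^ n * (2 * L ^ n) := by gcongr
        _ ≤ 2 * (1 / 4 : ℝ) * (2 * L ^ n) := by
            gcongr; exact pow_le_of_le_one (by norm_num) (by norm_num) (by omega)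
        _ = _ := by ring
    have hcard : ((G ∪ R.image fun p => p - c).card : ℝ) ≤ M + R.card := by
      exact_mod_cast (Finset.card_union_le _ _).trans (add_le_add hGc Finset.card_image_le)
    exact finish hn hV.le (by positivity) hcard hM hR

/-- Every convex body has a translative covering of density at most `200 n log n`. -/
theorem exists_covering (hn : 2 ≤ n) {K : Set (E n)} (hc : Convex ℝ K) (hk : IsCompact K)
    (hi : (interior K).Nonempty) :
    ∃ X : Set (E n), (∀ s : Set (E n), Bornology.IsBounded s → (X ∩ s).Finite) ∧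
      (∀ y : E n, ∃ x ∈ X, y - x ∈ K) ∧
      limsup (fun R : ℝ => volume K * (({x ∈ X | ∀ i, |x i| ≤ R}.ncard : ℕ) : ℝ≥0∞) /
          ENNReal.ofReal ((2 * R) ^ n)) atTop ≤ ENNReal.ofReal (200 * n * Real.log n) := by
  obtain ⟨L, hL, F, hFb, hFcov, hFc⟩ := exists_period hn hc hk hi
  let sh : (Fin n → ℤ) → E n := fun z => WithLp.toLp 2 fun i => L * (z i : ℝ)
  set X : Set (E n) := {x | ∃ f ∈ F, ∃ z, x = f + sh z}
  have hcount : ∀ R : ℝ, 0 ≤ R → {x ∈ X | ∀ i, |x i| ≤ R}.Finite ∧
      ({x ∈ X | ∀ i, |x i| ≤ R}.ncard : ℝ) ≤ F.card * (2 * (R / L) + 7) ^ n := by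
    intro R hR
    classical
    set m := ⌈R / L + 2⌉
    set J := (F ×ˢ Fintype.piFinset fun _ : Fin n => Finset.Icc (-m) m).image
      fun p => p.1 + sh p.2
    have hsub : {x ∈ X | ∀ i, |x i| ≤ R} ⊆ ↑J := by
      rintro x ⟨⟨f, hf, z, rfl⟩, hx⟩
      refine Finset.mem_image.2 ⟨(f, z), Finset.mem_product.2 ⟨hf, ?_⟩, rfl⟩
      refine Fintype.mem_piFinset.2 fun i => Finset.mem_Icc.2 (abs_le.1 ?_)
      have h1 : |L * (z i : ℝ)| ≤ R + 2 * L := by
        have h2 := hx i
        simp only [PiLp.add_apply, sh] at h2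
        have h3 := hFb f hf i
        rw [abs_le] at h2 h3 ⊢
        constructor <;> linarith [h2.1, h2.2, h3.1, h3.2]
      rw [abs_mul, abs_of_pos hL, mul_comm, ← le_div_iff₀ hL] at h1
      have : (|z i| : ℝ) ≤ m := h1.trans (by
        rw [add_div, mul_div_assoc, div_self hL.ne', mul_one]; exact Int.le_ceil _)
      exact_mod_cast this
    refine ⟨J.finite_toSet.subset hsub, ?_⟩
    have hm0 : 0 ≤ m := Int.ceil_nonneg (by positivity)
    have hJ : J.card ≤ F.card * (2 * m + 1).toNat ^ n := by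
      refine Finset.card_image_le.trans (le_of_eq ?_)
      simp [Finset.card_product, Fintype.card_piFinset, Int.card_Icc]
      left; congr 1; omega
    refine le_trans (Nat.cast_le.2 ((Set.ncard_le_ncard hsub J.finite_toSet).trans
      ((Set.ncard_coe_finset J).trans_le hJ))) ?_
    push_cast
    gcongr
    have h7 : ((2 * m + 1).toNat : ℝ) = 2 * (m : ℝ) + 1 := by
      rw [← Int.cast_natCast, Int.toNat_of_nonneg (by omega)]; push_cast; ring
    rw [h7]
    linarith [Int.ceil_lt_add_one (R / L + 2)]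
  refine ⟨X, fun s hs => ?_, fun y => ?_, ?_⟩
  · obtain ⟨R, hR, hsR⟩ := hs.exists_pos_norm_le
    refine (hcount R hR.le).1.subset fun x hx => ⟨hx.1, fun i => ?_⟩
    exact (abs_coord_le_norm x i).trans (hsR x hx.2)
  · set z : Fin n → ℤ := fun i => ⌊y i / L⌋
    obtain ⟨x, hx, hxK⟩ := hFcov (y - sh z) fun i => by
      simp only [PiLp.sub_apply, sh, z]
      have h1 := (le_div_iff₀ hL).1 (Int.floor_le (y i / L))
      have h2 := (div_lt_iff₀ hL).1 (Int.lt_floor_add_one (y i / L))
      constructor <;> linarith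
    exact ⟨x + sh z, ⟨x, hx, z, rfl⟩, by rwa [add_comm x, ← sub_sub]⟩
  · refine Filter.limsup_le_of_le (h := ?_)
    filter_upwards [eventually_ge_atTop (7 * L * n), eventually_gt_atTop (0 : ℝ)] with R hR hR0
    obtain ⟨-, hc'⟩ := hcount R hR0.le
    have hp : 0 < (2 * R) ^ n := by positivity
    have hgrow : (2 * (R / L) + 7) ^ n * L ^ n ≤ 2 * (2 * R) ^ n := by
      rw [← mul_pow, show (2 * (R / L) + 7) * L = 2 * R * (1 + 7 * L / (2 * R)) by field_simp,
        mul_pow, mul_comm]
      refine mul_le_mul_of_nonneg_right ?_ hp.le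
      refine (pow_le_pow_left₀ (by positivity) ((add_comm _ _).le.trans
        (Real.add_one_le_exp _)) _).trans ?_
      rw [← Real.exp_nat_mul]
      have h12 : (n : ℝ) * (7 * L / (2 * R)) ≤ 1 / 2 := by
        rw [← mul_div_assoc, div_le_iff₀ (by positivity)]; linarith
      exact (Real.exp_le_exp.2 h12).trans
        ((Real.exp_bound_div_one_sub_of_interval (by norm_num) (by norm_num)).trans (by norm_num))
    set N := ({x ∈ X | ∀ i, |x i| ≤ R}.ncard)
    have key : volume.real K * N ≤ 200 * n * Real.log n * (2 * R) ^ n := by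
      have hlog : 0 ≤ Real.log n := Real.log_natCast_nonneg n
      refine le_of_mul_le_mul_right ?_ (pow_pos hL n)
      calc volume.real K * N * L ^ n
          ≤ volume.real K * (F.card * (2 * (R / L) + 7) ^ n) * L ^ n := by gcongr
        _ = (F.card * volume.real K) * ((2 * (R / L) + 7) ^ n * L ^ n) := by ring
        _ ≤ (100 * n * Real.log n * L ^ n) * (2 * (2 * R) ^ n) := by gcongr
        _ = _ := by ring
    rw [ENNReal.div_le_iff (by simpa using hp) (by finiteness),
      ← ENNReal.ofReal_mul (by positivity), ← ENNReal.ofReal_natCast,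
      ← ofReal_measureReal hk.measure_lt_top.ne, ← ENNReal.ofReal_mul measureReal_nonneg]
    exact ENNReal.ofReal_le_ofReal key

end Vale.Agent.P230.Upper
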