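import Vale.Agent.P230.Kernel

/-!
# P230: a sparse set has a window whose rounded centres form a good configuration
-/

open scoped ENNReal RealInnerProductSpace
open MeasureTheory Metric Set Filter

namespace Vale.Agent.P230

variable {n : ℕ}

lemma two_mul_ofReal {a b : ℝ} (h : 2 * a = b) :
    (2 : ℝ≥0∞) * ENNReal.ofReal a = ENNReal.ofReal b := by
  rw [← ENNReal.ofReal_ofNat 2, ← ENNReal.ofReal_mul (by norm_num), h]

lemma measure_exceed_le {α : Type*} [MeasurableSpace α] {μ : Measure α} {f : α → ℝ≥0∞}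
    {B : Set α} (hf : Measurable f) (hB : μ B ≠ ⊤) {t : ℝ≥0∞} (ht0 : t ≠ 0) (htt : t ≠ ⊤)
    (h : 2 * ∫⁻ x in B, f x ∂μ ≤ t * μ B) :
    μ B ≤ 2 * μ (B ∩ {x | f x < t}) := by
  have hbad : MeasurableSet {x | t ≤ f x} := measurableSet_le measurable_const hf
  have h1 : t * μ ({x | t ≤ f x} ∩ B) ≤ ∫⁻ x in B, f x ∂μ := by
    rw [← Measure.restrict_apply hbad]
    exact mul_meas_ge_le_lintegral₀ hf.aemeasurable t
  have h2 : 2 * μ ({x | t ≤ f x} ∩ B) ≤ μ B := by
    refine (ENNReal.mul_le_mul_iff_right ht0 htt).1 ?_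
    calc t * (2 * μ ({x | t ≤ f x} ∩ B)) = 2 * (t * μ ({x | t ≤ f x} ∩ B)) := by ring
      _ ≤ 2 * ∫⁻ x in B, f x ∂μ := by gcongr
      _ ≤ _ := h
  set a := μ ({x | t ≤ f x} ∩ B) with ha
  have hsplit : μ B ≤ μ (B ∩ {x | f x < t}) + a := by
    refine (measure_mono fun x hx => ?_).trans (measure_union_le _ _)
    rcases lt_or_ge (f x) t with hl | hl
    · exact Or.inl ⟨hx, hl⟩
    · exact Or.inr ⟨hl, hx⟩
  have ha' : 2 * a ≠ ⊤ := ne_top_of_le_ne_top hB h2
  refine ENNReal.le_of_add_le_add_right ha' ?_
  calc μ B + 2 * a ≤ μ B + μ B := by gcongr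
    _ = 2 * μ B := (two_mul _).symm
    _ ≤ 2 * (μ (B ∩ {x | f x < t}) + a) := by gcongr
    _ = _ := mul_add _ _ _

/-- Membership in `B(0, r)` weighed by a constant. -/
lemma card_le_of_sum_indicator {ι : Type*} {s s' : Finset ι} {f : ι → E n} {r c : ℝ}
    (hc : 0 < c) (hs : s' ⊆ s) (hmem : ∀ i ∈ s', f i ∈ closedBall (0 : E n) r)
    (h : ∑ i ∈ s, (closedBall (0 : E n) r).indicator (fun _ => ENNReal.ofReal (1 / c)) (f i) ≤ 1) :
    (s'.card : ℝ) ≤ c := by
  have h1 := (Finset.sum_le_sum_of_subset hs).trans h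
  rw [Finset.sum_congr rfl fun i hi => indicator_of_mem (hmem i hi) _, Finset.sum_const,
    nsmul_eq_mul, ← ENNReal.ofReal_natCast, ← ENNReal.ofReal_mul (Nat.cast_nonneg _),
    ENNReal.ofReal_le_one, mul_one_div, div_le_one hc] at h1
  exact h1

open scoped Classical in
/-- Some window of a sparse set has a good configuration of rounded centres. -/
theorem exists_window (hfine : Fine n) {X : Set (E n)}
    (hX : ∀ s : Set (E n), Bornology.IsBounded s → (X ∩ s).Finite)
    (hcount : ∀ᶠ R : ℝ in atTop,
      (({x ∈ X | ∀ i, |x i| ≤ R}.ncard : ℕ) : ℝ≥0∞) ≤ rho n * ENNReal.ofReal (2 * R) ^ n)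
    (rnd : E n → E n) (hrnd : ∀ z, ‖rnd z - z‖ ≤ xi n) :
    ∃ (w : E n) (Φ : Finset (E n)), GoodConfig Φ ∧
      (∀ x ∈ X, ‖x - w‖ ≤ 5 / 4 → rnd (x - w) ∈ Φ) ∧
      ∀ p ∈ Φ, ∃ x, ‖x - w‖ ≤ 5 / 4 ∧ p = rnd (x - w) := by
  obtain ⟨w, S, hS, hsum⟩ := exists_small_sum hX (measurable_kernel n) (r₀ := 5 / 4) (by norm_num)
    hcount (kernel_small hfine)
  set T := S.filter fun x => ‖x - w‖ ≤ 5 / 4 with hT
  set Φ := T.image fun x => rnd (x - w) with hΦ
  refine ⟨w, Φ, ⟨?_, ?_⟩, fun x hx hd => Finset.mem_image.2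
    ⟨x, Finset.mem_filter.2 ⟨hS x hx hd, hd⟩, rfl⟩, fun p hp => ?_⟩
  · have h1 : ∑ x ∈ S, kA n (x - w) ≤ 1 :=
      ((Finset.sum_le_sum fun x _ => self_le_add_right _ _).trans hsum).trans
        (ENNReal.ofReal_le_one.2 (by norm_num))
    have hN : (0 : ℝ) < Nmax n :=
      lt_of_lt_of_le (by have := hfine.n_two; positivity) (Nat.le_ceil _)
    have h2 := card_le_of_sum_indicator (f := fun x => x - w) hN
      (Finset.filter_subset (fun x => ‖x - w‖ ≤ 5 / 4) S)
      (fun x hx => mem_closedBall_zero_iff.2 (Finset.mem_filter.1 hx).2) h1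
    have h2' : T.card ≤ Nmax n := by exact_mod_cast h2
    exact Finset.card_image_le.trans h2'
  · -- the subwindows
    set Iv : E n → ℝ≥0∞ := fun v => ∑ x ∈ S, inner' n (x - w - v) with hIv
    set Bw := closedBall (0 : E n) wide
    set Bs := closedBall (0 : E n) small
    have hbw := volume_ball_ne (n := n) (show 0 < wide by norm_num [wide])
    have hbs := volume_ball_ne (n := n) (show 0 < small by norm_num [small])
    have hIm : Measurable Iv := Finset.measurable_fun_sum _ fun x _ =>
      (measurable_inner' n).comp (measurable_const.sub measurable_id)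
    have hint : 2 * ∫⁻ v in Bw, Iv v ≤ ENNReal.ofReal (1 / 2) * volume Bw := by
      have h1 : (volume Bw)⁻¹ * ∫⁻ v in Bw, Iv v ≤ ENNReal.ofReal (1 / 4) := by
        refine le_trans ?_ hsum
        rw [hIv, lintegral_finsetSum (f := fun x v => inner' n (x - w - v)) _
          fun x _ => (measurable_inner' n).comp (measurable_const.sub measurable_id),
          Finset.mul_sum]
        exact Finset.sum_le_sum fun x _ => self_le_add_left _ _
      rw [ENNReal.inv_mul_le_iff hbw.1 hbw.2, mul_comm] at h1
      calc 2 * ∫⁻ v in Bw, Iv v ≤ 2 * (ENNReal.ofReal (1 / 4) * volume Bw) := by gcongr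
        _ = _ := by
            rw [← mul_assoc, two_mul_ofReal (a := 1 / 4) (b := 1 / 2) (by norm_num)]
    refine ⟨Bw ∩ {v | Iv v < ENNReal.ofReal (1 / 2)}, Set.inter_subset_left,
      measure_exceed_le hIm hbw.2 (by simp) ENNReal.ofReal_ne_top hint, fun v hv => ?_⟩
    have hv2 : Iv v ≤ ENNReal.ofReal (1 / 2) := le_of_lt hv.2
    set J : E n → ℝ≥0∞ := fun u => ∑ x ∈ S, (kC n (x - w - v - u) + kD n (x - w - v - u)) with hJ
    have hJm : Measurable J := Finset.measurable_fun_sum _ fun x _ =>
      ((measurable_kC n).comp (measurable_const.sub measurable_id)).add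
        ((measurable_indicator_ball _ _).comp (measurable_const.sub measurable_id))
    refine ⟨?_, ?_⟩
    · have h1 : ∑ x ∈ S, kK n (x - w - v) ≤ 1 :=
        ((Finset.sum_le_sum fun x _ => self_le_add_right _ _).trans hv2).trans
          (ENNReal.ofReal_le_one.2 (by norm_num))
      have hK : 0 < Kmax n := by
        have := hfine.n_two; unfold Kmax small; positivity
      set T' := T.filter fun x => ‖v - rnd (x - w)‖ ≤ 1 + small with hT'
      have hsub : near Φ v ⊆ T'.image fun x => rnd (x - w) := by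
        intro p hp
        obtain ⟨hp1, hp2⟩ := Finset.mem_filter.1 hp
        obtain ⟨x, hx, rfl⟩ := Finset.mem_image.1 hp1
        exact Finset.mem_image.2 ⟨x, Finset.mem_filter.2 ⟨hx, hp2⟩, rfl⟩
      have h2 := card_le_of_sum_indicator (s' := T') (f := fun x => x - w - v) hK
        ((Finset.filter_subset _ _).trans (Finset.filter_subset _ _)) (fun x hx => by
          rw [mem_closedBall_zero_iff]
          have h3 := (Finset.mem_filter.1 hx).2
          calc ‖x - w - v‖ = ‖-(v - rnd (x - w)) + -(rnd (x - w) - (x - w))‖ := by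
                congr 1; abel
            _ ≤ ‖v - rnd (x - w)‖ + ‖rnd (x - w) - (x - w)‖ := by
                refine (norm_add_le _ _).trans ?_
                rw [norm_neg, norm_neg]
            _ ≤ _ := by linarith [hrnd (x - w)]) h1
      exact le_trans (by exact_mod_cast (Finset.card_le_card hsub).trans Finset.card_image_le) h2
    · have hint2 : 2 * ∫⁻ u in Bs, J u ≤ 1 * volume Bs := by
        have h1 : (volume Bs)⁻¹ * ∫⁻ u in Bs, J u ≤ ENNReal.ofReal (1 / 2) := by
          refine le_trans ?_ hv2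
          rw [hJ, lintegral_finsetSum (f := fun x u => kC n (x - w - v - u) + kD n (x - w - v - u)) _
            fun x _ => ((measurable_kC n).comp (measurable_const.sub measurable_id)).add
              ((measurable_indicator_ball _ _).comp (measurable_const.sub measurable_id)),
            Finset.mul_sum]
          exact Finset.sum_le_sum fun x _ => self_le_add_left _ _
        rw [ENNReal.inv_mul_le_iff hbs.1 hbs.2, mul_comm] at h1
        calc 2 * ∫⁻ u in Bs, J u ≤ 2 * (ENNReal.ofReal (1 / 2) * volume Bs) := by gcongr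
          _ = _ := by
              rw [← mul_assoc, two_mul_ofReal (a := 1 / 2) (b := 1) (by norm_num), ENNReal.ofReal_one]
      refine (measure_exceed_le hJm hbs.2 one_ne_zero ENNReal.one_ne_top hint2).trans
        (mul_le_mul_right ?_ 2)
      rw [← measure_preimage_add volume v (goodPts Φ v)]
      refine measure_mono fun u ⟨hu, hJu⟩ => ⟨?_, ?_, ?_⟩
      · rw [mem_closedBall_iff_norm, add_sub_cancel_left]
        exact mem_closedBall_zero_iff.1 hu
      · -- cost
        set T' := T.filter fun x => ‖v + u - rnd (x - w)‖ ≤ 1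
        have hsub : Φ.filter (fun p => ‖v + u - p‖ ≤ 1) = T'.image fun x => rnd (x - w) := by
          rw [hΦ, Finset.filter_image]
        show cost Φ (v + u) ≤ Fmax n
        unfold cost
        rw [hsub]
        refine (Finset.sum_image_le_of_nonneg fun p hp => ?_).trans ?_
        · obtain ⟨x, hx, rfl⟩ := Finset.mem_image.1 hp
          have := (Finset.mem_filter.1 hx).2
          nlinarith [Nat.cast_nonneg (α := ℝ) n]
        · have hF := hfine.Fpos
          have hterm : ∀ x ∈ T', 0 ≤ (1 + (n : ℝ) * (1 - ‖v + u - rnd (x - w)‖)) / Fmax n ∧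
              ENNReal.ofReal ((1 + (n : ℝ) * (1 - ‖v + u - rnd (x - w)‖)) / Fmax n) ≤
                kC n (x - w - v - u) := by
            intro x hx
            have h3 := (Finset.mem_filter.1 hx).2
            have h5 : (0 : ℝ) ≤ n := Nat.cast_nonneg n
            refine ⟨div_nonneg (by nlinarith) hF.le, ?_⟩
            have h4 : ‖x - w - v - u‖ ≤ ‖v + u - rnd (x - w)‖ + xi n :=
              calc ‖x - w - v - u‖ = ‖-(v + u - rnd (x - w)) + -(rnd (x - w) - (x - w))‖ := by
                    congr 1; abel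
                _ ≤ _ := (norm_add_le _ _).trans (by rw [norm_neg, norm_neg]; linarith [hrnd (x - w)])
            rw [kC, indicator_of_mem (mem_closedBall_zero_iff.2 (by linarith))]
            exact ENNReal.ofReal_le_ofReal (div_le_div_of_nonneg_right (by nlinarith) hF.le)
          have h5 : ENNReal.ofReal (∑ x ∈ T', (1 + (n : ℝ) * (1 - ‖v + u - rnd (x - w)‖)) / Fmax n)
              ≤ 1 := by
            rw [ENNReal.ofReal_sum_of_nonneg fun x hx => (hterm x hx).1]
            refine le_trans (Finset.sum_le_sum fun x hx => (hterm x hx).2) ?_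
            refine le_trans (Finset.sum_le_sum_of_subset
              ((Finset.filter_subset _ _).trans (Finset.filter_subset _ _))) ?_
            exact (Finset.sum_le_sum fun x _ => self_le_add_right _ _).trans (le_of_lt hJu)
          rwa [ENNReal.ofReal_le_one, ← Finset.sum_div, div_le_one hF] at h5
      · -- no deep translate
        intro p hp
        obtain ⟨x, hx, rfl⟩ := Finset.mem_image.1 hp
        by_contra hlt
        push Not at hlt
        have hxS := (Finset.mem_filter.1 hx).1
        have h4 : ‖x - w - v - u‖ ≤ ‖v + u - rnd (x - w)‖ + xi n :=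
          calc ‖x - w - v - u‖ = ‖-(v + u - rnd (x - w)) + -(rnd (x - w) - (x - w))‖ := by
                congr 1; abel
            _ ≤ _ := (norm_add_le _ _).trans (by rw [norm_neg, norm_neg]; linarith [hrnd (x - w)])
        have hone : kD n (x - w - v - u) = 1 :=
          indicator_of_mem (mem_closedBall_zero_iff.2 (by linarith)) _
        have : (1 : ℝ≥0∞) ≤ J u :=
          hone ▸ (self_le_add_left _ (kC n (x - w - v - u))).trans
            (Finset.single_le_sum
              (f := fun x => kC n (x - w - v - u) + kD n (x - w - v - u))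
              (fun _ _ => zero_le) hxS)
        exact absurd hJu (not_lt.2 this)
  · obtain ⟨x, hx, rfl⟩ := Finset.mem_image.1 hp
    exact ⟨x, (Finset.mem_filter.1 hx).2, rfl⟩

end Vale.Agent.P230
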